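import Vale.Agent.P128.B0.Defs

/-! P128 B0/Circ  (helper names end with _Circ)

A good circle.  `eilenberg_sphere` and `polar` with `ae_lt_top`: for a.e. `s ∈ Ioo 0 R` the set `K ∩ sphere x s` is finite and `Dp u K x s < ∞`.  If it is empty, `u` is continuous on the compact sphere.
Otherwise `exists_arcs`, `Arcs.cover`, `Dp_int`, `Arcs.int`, `circ_der`, `sq_sub_le` (copy the proof of `Arcs.arcD`, `Arcs.bdd` in TB/ArcW.lean; only `C¹` is used).
-/

namespace Vale.Agent.P128.B0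

open MeasureTheory Set Metric Filter Topology
open scoped ENNReal

noncomputable section

theorem good_circle {K : Set ℂ} (hK : IsClosed K) (hfin : μH[1] K < ∞) {u : ℂ → ℝ} {x : ℂ} {R : ℝ}
    (hR : 0 < R) (hu : ContDiffOn ℝ 1 u (ball x R \ K)) (hd : Dir u (ball x R \ K) < ∞) :
    ∃ s M : ℝ, 0 < s ∧ s < R ∧ ∀ z ∈ sphere x s \ K, |u z| ≤ M := by
  obtain ⟨m1, e1⟩ := eilenberg_sphere hK x
  obtain ⟨m2, -, e2⟩ := polar hK u x
  have a1 := ae_lt_top (μ := volume.restrict (Ioo 0 R)) m1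
    (((e1 _ measurableSet_Ioo).trans (measure_mono inter_subset_left)).trans_lt hfin).ne
  have a2 := ae_lt_top (μ := volume.restrict (Ioo 0 R)) m2 ((e2 R).1 ▸ hd).ne
  have nb : (ae (volume.restrict (Ioo 0 R))).NeBot := by
    rw [ae_restrict_neBot, Real.volume_Ioo]
    simpa using hR
  obtain ⟨s, ⟨b1, b2⟩, hs⟩ := ((a1.and a2).and (ae_restrict_mem measurableSet_Ioo)).exists
  have fin : (K ∩ sphere x s).Finite := by
    rw [← encard_lt_top_iff]
    exact ENat.toENNReal_lt_top.1 b1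
  have hS : sphere x s ⊆ ball x R := fun z hz => mem_ball.2 ((mem_sphere.1 hz).trans_lt hs.2)
  have hO : IsOpen (ball x R \ K) := isOpen_ball.sdiff hK
  suffices h : ∃ M, ∀ z ∈ sphere x s \ K, |u z| ≤ M from
    h.elim fun M hM => ⟨s, M, hs.1, hs.2, hM⟩
  rcases (K ∩ sphere x s).eq_empty_or_nonempty with h0 | h0
  · have c : ContinuousOn u (sphere x s) := hu.continuousOn.mono fun z hz =>
      ⟨hS hz, fun hz' => (h0.subset ⟨hz', hz⟩ : z ∈ (∅ : Set ℂ))⟩
    obtain ⟨M, hM⟩ := (isCompact_sphere x s).exists_bound_of_continuousOn c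
    exact ⟨M, fun z hz => hM z hz.1⟩
  obtain ⟨n, θ, hA⟩ := exists_arcs hs.1 fin h0
  have cf : ContinuousOn (fderiv ℝ u) (ball x R \ K) := hu.continuousOn_fderiv_of_isOpen hO le_rfl
  have key : ∀ j, ∃ B, ∀ t ∈ Ioo (θ j) (θ (j + 1)), |u (circleMap x s t)| ≤ B := fun j => by
    have hlt : θ j < θ (j + 1) := hA.mono j.lt_succ_self
    have hm : ∀ t ∈ Ioo (θ j) (θ (j + 1)), circleMap x s t ∈ ball x R \ K := fun t ht =>
      ⟨hS (circleMap_mem_sphere x hs.1.le t), hA.off j t ht⟩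
    obtain ⟨-, i2, -⟩ := Dp_int hs.1 b2
    have j2 := (hA.int hs.1 (per_sq (un_per u x s).2)).1.1 i2 j
    have m3 : MemLp (fun t => s * ut u x s t) 2 (volume.restrict (Ioo (θ j) (θ (j + 1)))) :=
      ((memLp_two_iff_integrable_sq (un_meas u x s).2.aestronglyMeasurable).2 j2).const_mul s
    have hd' := fun t ht => circ_der
      ((hu.differentiableOn one_ne_zero _ (hm t ht)).differentiableAt (hO.mem_nhds (hm t ht)))
    obtain ⟨-, c2⟩ := un_cont cf hm
    obtain ⟨w1, t₀, ht₀, -⟩ := W2 hlt hd' (continuousOn_const.mul c2) m3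
    refine ⟨√((θ (j + 1) - θ j) * ∫ t in Ioo (θ j) (θ (j + 1)), (s * ut u x s t) ^ 2) +
      |u (circleMap x s t₀)|, fun t ht => ?_⟩
    have h1 := Real.abs_le_sqrt (w1 t ht t₀ ht₀)
    have h2 := abs_add_le (u (circleMap x s t) - u (circleMap x s t₀)) (u (circleMap x s t₀))
    rw [sub_add_cancel] at h2
    linarith
  choose B hB using key
  refine ⟨∑ j ∈ Finset.range n, |B j|, fun z hz => ?_⟩
  obtain ⟨j, hj, t, ht, rfl⟩ := hA.cover hs.1 hz
  exact ((hB j t ht).trans (le_abs_self _)).trans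
    (Finset.single_le_sum (f := fun j => |B j|) (fun j _ => abs_nonneg _) (Finset.mem_range.2 hj))

end

end Vale.Agent.P128.B0
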