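import Vale.Agent.P128.B0.Rep
import Vale.Agent.P128.B0.Circ

/-! P128 B0/Bdd  (helper names end with _Bdd)

Local boundedness.  `one_side`: `euler` with `ψ = (closedBall x s).indicator (fun z => min (max (σ * u z - (M + 1)) 0) 1)`; it vanishes near each point of `sphere x s \ K`, so it is locally Lipschitz on `Ω \ K` (`locLip_iff`).
At `z ∈ Ω \ K`: if `0 < ψ z < 1` then `ψ = σ u - (M + 1)` near `z`; otherwise `ψ` has a local extremum and `fderiv ψ z = 0`.  So `‖fderiv ψ‖ ≤ ‖fderiv u‖`, `σ * inner (gr u) (gr ψ) ≥ 0`, `σ (u - g) ψ ≥ ψ ≥ 0` a.e.; hence `ψ = 0` a.e. and, by continuity, on `ball x s \ K` (`Measure.eqOn_open_of_ae_eq`).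
`loc_bdd`: `good_circle` with `K ∩ closedBall x R₀` (closed, since `closedBall x R₀ \ K = closedBall x R₀ ∩ (Ω \ K)`), `EARN.dir_eq`, `ae_le_eLpNormEssSup` / `MemLp.exists_bound`-type lemma for `g`.
-/

namespace Vale.Agent.P128.B0

open MeasureTheory Set Metric Filter Topology
open scoped ENNReal

noncomputable section

variable {Ω K : Set ℂ} {g u : ℂ → ℝ} {x : ℂ}

theorem closed_cap (hK : IsOpen (Ω \ K)) {r : ℝ} (hB : closedBall x r ⊆ Ω) :
    IsClosed (K ∩ closedBall x r) := by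
  have e : K ∩ closedBall x r = closedBall x r \ (Ω \ K) := by
    ext z
    exact ⟨fun h => ⟨h.2, fun h' => h'.2 h.1⟩, fun h => ⟨by_contra fun h' => h.2 ⟨hB h.1, h'⟩, h.1⟩⟩
  rw [e]
  exact isClosed_closedBall.sdiff hK

theorem tr_Bdd (t : ℝ) : 0 ≤ min (max t 0) 1 ∧ min (max t 0) 1 ≤ 1 ∧
    (t ≤ 0 → min (max t 0) 1 = 0) ∧ (0 < t → 0 < min (max t 0) 1) ∧
    (1 ≤ t → min (max t 0) 1 = 1) ∧ (0 < t → t < 1 → min (max t 0) 1 = t) :=
  ⟨le_min (le_max_right _ _) zero_le_one, min_le_right _ _,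
    fun h => by rw [max_eq_right h, min_eq_left zero_le_one],
    fun h => lt_min (h.trans_le (le_max_left _ _)) one_pos,
    fun h => min_eq_right (h.trans (le_max_left _ _)),
    fun h h' => by rw [max_eq_left h.le, min_eq_left h'.le]⟩

theorem cut_Bdd {U : Set ℂ} (hU : IsOpen U) {v : ℂ → ℝ} (hv : LocallyLipschitzOn U v) {s : ℝ}
    (hs : ∀ z ∈ U, z ∈ sphere x s → v z < 0) {ψ : ℂ → ℝ}
    (hψ : ψ = (closedBall x s).indicator fun z => min (max (v z) 0) 1) :
    (∀ z, 0 ≤ ψ z ∧ ψ z ≤ 1 ∧ (ψ z ≠ 0 → 0 < v z)) ∧ LocallyLipschitzOn U ψ ∧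
      ∀ z ∈ U, fderiv ℝ ψ z = fderiv ℝ v z ∨ fderiv ℝ ψ z = 0 := by
  have r : ∀ z, 0 ≤ ψ z ∧ ψ z ≤ 1 ∧ (ψ z ≠ 0 → 0 < v z) := fun z => by
    rw [hψ]
    by_cases h : z ∈ closedBall x s
    · rw [indicator_of_mem h]
      exact ⟨(tr_Bdd _).1, (tr_Bdd _).2.1, fun h' => not_le.1 fun h2 => h' ((tr_Bdd _).2.2.1 h2)⟩
    · rw [indicator_of_notMem h]
      exact ⟨le_rfl, zero_le_one, fun h' => absurd rfl h'⟩
  have c : ∀ z ∈ U, ContinuousAt v z := fun z hz => hv.continuousOn.continuousAt (hU.mem_nhds hz)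
  have a : ∀ z ∈ ball x s, ψ =ᶠ[𝓝 z] fun z => min (max (v z) 0) 1 := fun z hz =>
    Filter.Eventually.mono (isOpen_ball.mem_nhds hz) fun w hw => by
      rw [hψ, indicator_of_mem (ball_subset_closedBall hw)]
  have b : ∀ z ∈ U, z ∉ ball x s → ψ =ᶠ[𝓝 z] fun _ => 0 := fun z hz h => by
    by_cases h' : z ∈ closedBall x s
    · have := hs z hz (le_antisymm h' (not_lt.1 h))
      exact ((c z hz).eventually (gt_mem_nhds this)).mono fun w hw =>
        by_contra fun h2 => absurd ((r w).2.2 h2) hw.not_gt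
    · exact Filter.Eventually.mono (isClosed_closedBall.isOpen_compl.mem_nhds h') fun w hw => by
        rw [hψ, indicator_of_notMem hw]
  refine ⟨r, (locLip_iff hU).2 fun z hz => ?_, fun z hz => ?_⟩
  · by_cases h : z ∈ ball x s
    · obtain ⟨C, t, ht, hC⟩ := (locLip_iff hU).1 hv z hz
      exact LipAt.congr ⟨_, t, ht, ((LipschitzWith.id.max_const 0).min_const 1).comp_lipschitzOnWith hC⟩
        (a z h)
    · exact (lipAt_const 0 z).congr (b z hz h)
  · rcases (r z).1.eq_or_lt with h0 | h0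
    · exact Or.inr (IsLocalMin.fderiv_eq_zero (Eventually.of_forall fun w => h0 ▸ (r w).1))
    rcases (r z).2.1.eq_or_lt with h1 | h1
    · exact Or.inr (IsLocalMax.fderiv_eq_zero (Eventually.of_forall fun w => h1 ▸ (r w).2.1))
    have h : z ∈ ball x s := by_contra fun h => h0.ne' (b z hz h).self_of_nhds
    have p0 := (r z).2.2 h0.ne'
    have p1 : v z < 1 := not_le.1 fun h2 =>
      h1.ne ((a z h).self_of_nhds.trans ((tr_Bdd _).2.2.2.2.1 h2))
    refine Or.inl (Filter.EventuallyEq.fderiv_eq ?_)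
    filter_upwards [a z h, (c z hz).eventually (lt_mem_nhds p0), (c z hz).eventually (gt_mem_nhds p1)]
      with w e q0 q1
    exact e.trans ((tr_Bdd _).2.2.2.2.2 q0 q1)

theorem one_side (hΩ : IsOpen Ω) (hg : MemLp g ∞ (volume.restrict Ω)) (hu : ContDiffOn ℝ 1 u (Ω \ K))
    (hmin : Minimizer Ω g u (gr u) K) {s M σ : ℝ} (hσ : σ = 1 ∨ σ = -1) (hB : closedBall x s ⊆ Ω)
    (hgM : ∀ᵐ z ∂(volume.restrict Ω), |g z| ≤ M) (hM : ∀ z ∈ sphere x s \ K, |u z| ≤ M) :
    ∀ z ∈ ball x s \ K, σ * u z ≤ M + 1 := by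
  have hU := hmin.adm.relClosed
  have hl := locLip_of_c1 hU hu
  have s1 : |σ| = 1 := by rcases hσ with rfl | rfl <;> simp
  have s2 : ∀ t : ℝ, σ * t ≤ |t| := fun t => by
    have := le_abs_self (σ * t)
    rwa [abs_mul, s1, one_mul] at this
  have hv : LocallyLipschitzOn (Ω \ K) fun z => σ * u z + -(M + 1) := (locLip_iff hU).2 fun z hz =>
    (((locLip_iff hU).1 hl z hz).cmul σ).add (lipAt_const _ z)
  obtain ⟨ψ, hψ⟩ : ∃ ψ : ℂ → ℝ,
    ψ = (closedBall x s).indicator fun z => min (max (σ * u z + -(M + 1)) 0) 1 := ⟨_, rfl⟩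
  obtain ⟨r, l, d⟩ := cut_Bdd hU hv (fun z hz h => by linarith [s2 (u z), hM z ⟨h, hz.2⟩]) hψ
  have d' : ∀ z ∈ Ω \ K, fderiv ℝ ψ z = σ • fderiv ℝ u z ∨ fderiv ℝ ψ z = 0 := fun z hz => by
    have h1 : DifferentiableAt ℝ u z :=
      (hu.contDiffAt (hU.mem_nhds hz)).differentiableAt one_ne_zero
    rw [← ((h1.hasFDerivAt.const_mul σ).add_const (-(M + 1))).fderiv]
    exact d z hz
  have hd : Dir ψ (Ω \ K) < ∞ := by
    refine lt_of_le_of_lt (setLIntegral_mono' hU.measurableSet fun z hz => ?_)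
      ((EARN.dir_eq u (Ω \ K)).1.2 hmin.adm.gradL2)
    refine pow_le_pow_left' ?_ 2
    rcases d' z hz with e | e
    · rw [e, ← ofReal_norm, ← ofReal_norm, norm_smul, Real.norm_eq_abs, s1, one_mul]
    · rw [e, ← ofReal_norm, norm_zero, ENNReal.ofReal_zero]
      exact zero_le
  obtain ⟨-, i2, e⟩ := euler hΩ hg hmin (isCompact_closedBall x s) hB
    (fun z hz => by rw [hψ, indicator_of_notMem hz]) l
    ⟨1, fun z => abs_le.2 ⟨by linarith [(r z).1], (r z).2.1⟩⟩ hd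
  have p : 0 ≤ ∫ z in Ω \ K, σ * inner ℝ (gr u z) (gr ψ z) := by
    refine setIntegral_nonneg hU.measurableSet fun z hz => ?_
    rw [real_inner_comm, ← EARN.fderiv_eq_inner]
    rcases d' z hz with e | e
    · rw [e, ContinuousLinearMap.smul_apply, (norm_dz u z).2.2.2, smul_eq_mul, ← mul_assoc]
      exact mul_nonneg (mul_self_nonneg σ) (sq_nonneg _)
    · rw [e, ContinuousLinearMap.zero_apply, mul_zero]
  rw [integral_const_mul, e, mul_neg, ← integral_const_mul] at p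
  have q : ∀ᵐ z ∂(volume.restrict (Ω \ K)), ψ z ≤ σ * ((u z - g z) * ψ z) := by
    filter_upwards [ae_restrict_of_ae_restrict_of_subset (fun _ h => h.1) hgM] with z hz
    by_cases h : ψ z = 0
    · rw [h, mul_zero, mul_zero]
    · have h1 := (r z).2.2 h
      have h2 := s2 (g z)
      nlinarith [(r z).1]
  have q0 : 0 ≤ᵐ[volume.restrict (Ω \ K)] fun z => σ * ((u z - g z) * ψ z) :=
    q.mono fun z hz => (r z).1.trans hz
  have z0 := (integral_eq_zero_iff_of_nonneg_ae q0 (i2.const_mul σ)).1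
    (le_antisymm (by linarith) (integral_nonneg_of_ae q0))
  have z1 : ψ =ᵐ[volume.restrict (Ω \ K)] fun _ => 0 := by
    filter_upwards [q, z0] with z h1 h2
    exact le_antisymm (h1.trans_eq h2) (r z).1
  have z2 := Measure.eqOn_open_of_ae_eq z1 hU l.continuousOn continuousOn_const
  intro z hz
  have h := z2 ⟨hB (ball_subset_closedBall hz.1), hz.2⟩
  rw [hψ, indicator_of_mem (ball_subset_closedBall hz.1)] at h
  by_contra hc
  exact ((tr_Bdd _).2.2.2.1 (by linarith)).ne' h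

theorem loc_bdd (hΩ : IsOpen Ω) (hg : MemLp g ∞ (volume.restrict Ω)) (hu : ContDiffOn ℝ 1 u (Ω \ K))
    (hmin : Minimizer Ω g u (gr u) K) (hx : x ∈ Ω) : ∃ R M : ℝ, 0 < R ∧ R ≤ 1 ∧ 0 ≤ M ∧
      closedBall x R ⊆ Ω ∧ (∀ z ∈ ball x R \ K, |u z| ≤ M) ∧
      ∀ᵐ z ∂(volume.restrict Ω), |g z| ≤ M := by
  obtain ⟨R₁, h1, hR₁⟩ := nhds_basis_closedBall.mem_iff.1 (hΩ.mem_nhds hx)
  have hR : 0 < min R₁ 1 := lt_min h1 one_pos
  have hB : closedBall x (min R₁ 1) ⊆ Ω := (closedBall_subset_closedBall (min_le_left _ _)).trans hR₁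
  have sub : ball x (min R₁ 1) \ (K ∩ closedBall x (min R₁ 1)) ⊆ Ω \ K := fun z hz =>
    ⟨hB (ball_subset_closedBall hz.1), fun h => hz.2 ⟨h, ball_subset_closedBall hz.1⟩⟩
  obtain ⟨s, M₀, s0, s1, hM⟩ := good_circle (closed_cap hmin.adm.relClosed hB)
    ((measure_mono inter_subset_left).trans_lt hmin.adm.finite) hR (hu.mono sub)
    ((lintegral_mono_set sub).trans_lt ((EARN.dir_eq u (Ω \ K)).1.2 hmin.adm.gradL2))
  have hf : eLpNormEssSup g (volume.restrict Ω) ≠ ∞ := by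
    rw [← eLpNorm_exponent_top]
    exact hg.eLpNorm_ne_top
  set M := max M₀ (eLpNormEssSup g (volume.restrict Ω)).toReal with hMd
  have M0 : 0 ≤ M := ENNReal.toReal_nonneg.trans (le_max_right _ _)
  have hgM : ∀ᵐ z ∂(volume.restrict Ω), |g z| ≤ M := by
    filter_upwards [ae_le_eLpNormEssSup (f := g) (μ := volume.restrict Ω)] with z hz
    have := ENNReal.toReal_mono hf hz
    rw [toReal_enorm, Real.norm_eq_abs] at this
    exact this.trans (le_max_right _ _)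
  have hs : closedBall x s ⊆ Ω := (closedBall_subset_closedBall s1.le).trans hB
  have hM' : ∀ z ∈ sphere x s \ K, |u z| ≤ M := fun z hz =>
    (hM z ⟨hz.1, fun h => hz.2 h.1⟩).trans (le_max_left _ _)
  refine ⟨s, M + 1, s0, s1.le.trans (min_le_right _ _), by linarith, hs, fun z hz => ?_,
    hgM.mono fun z hz => by linarith⟩
  have a := one_side hΩ hg hu hmin (Or.inl rfl) hs hgM hM' z hz
  have b := one_side hΩ hg hu hmin (Or.inr rfl) hs hgM hM' z hz
  exact abs_le.2 ⟨by linarith, by linarith⟩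

end

end Vale.Agent.P128.B0
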