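import Vale.Agent.P128.B0.Clamp
import Vale.Agent.P128.TB.Main

/-! P128 B0/Bound. Local boundedness. Plan: good_radius for F s = encard + Dp on
(r/4, r/2) (eilenberg_sphere, polar): a circle with finitely many points of K and finite Dp; u is
bounded on it off K (no point: compactness; otherwise lemma arcs and the first part of W2 on each
arc, TB/Kit circ_der); M also bounds g; competitor clamp M of u inside the closed disc, same K
(locLip_glue); the Dirichlet part does not grow, so the fidelity does not drop, so |u| <= M almost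
everywhere in the disc, everywhere off K by continuity. -/

namespace Vale.Agent.P128.B0

open MeasureTheory Set Metric Filter Topology
open scoped ENNReal

theorem arcs_Bound {K U : Set ℂ} {y : ℂ} {s : ℝ} {n : ℕ} {θ : ℕ → ℝ} {u : ℂ → ℝ}
    (hA : Arcs K y s n θ) (hs : 0 < s) (hS : sphere y s ⊆ U)
    (hd : ∀ z ∈ U \ K, DifferentiableAt ℝ u z) (hf : Dp u K y s < ∞) :
    ∃ M, ∀ z ∈ sphere y s \ K, |u z| ≤ M := by
  have key : ∀ j, ∃ B, ∀ t ∈ Ioo (θ j) (θ (j + 1)), |u (circleMap y s t)| ≤ B := by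
    intro j
    have hlt : θ j < θ (j + 1) := hA.mono j.lt_succ_self
    have hm : ∀ t ∈ Ioo (θ j) (θ (j + 1)), circleMap y s t ∈ U \ K := fun t ht =>
      ⟨hS (circleMap_mem_sphere y hs.le t), hA.off j t ht⟩
    obtain ⟨-, i2, -⟩ := Dp_int hs hf
    have j2 := (hA.int hs (per_sq (un_per u y s).2)).1.1 i2 j
    have m2 : MemLp (fun t => s * ut u y s t) 2 (volume.restrict (Ioo (θ j) (θ (j + 1)))) :=
      ((memLp_two_iff_integrable_sq (un_meas u y s).2.aestronglyMeasurable).2 j2).const_mul s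
    have hder := fun t ht => circ_der (hd _ (hm t ht))
    obtain ⟨t₀, ht₀⟩ := (nonempty_Ioo.2 hlt : (Ioo (θ j) (θ (j + 1))).Nonempty)
    refine ⟨√((θ (j + 1) - θ j) * ∫ t in Ioo (θ j) (θ (j + 1)), (s * ut u y s t) ^ 2) +
      |u (circleMap y s t₀)|, fun t ht => ?_⟩
    have h0 : (u (circleMap y s t) - u (circleMap y s t₀)) ^ 2 ≤
        (θ (j + 1) - θ j) * ∫ t in Ioo (θ j) (θ (j + 1)), (s * ut u y s t) ^ 2 := by
      rcases le_total t t₀ with h | h
      · rw [← neg_sub, neg_sq]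
        exact w2_osc hder m2 ht ht₀ h
      · exact w2_osc hder m2 ht₀ ht h
    have h1 := Real.abs_le_sqrt h0
    have h2 := abs_add_le (u (circleMap y s t) - u (circleMap y s t₀)) (u (circleMap y s t₀))
    rw [sub_add_cancel] at h2
    linarith
  choose B hB using key
  refine ⟨∑ j ∈ Finset.range n, |B j|, fun z hz => ?_⟩
  obtain ⟨j, hj, t, ht, rfl⟩ := hA.cover hs hz
  exact ((hB j t ht).trans (le_abs_self _)).trans
    (Finset.single_le_sum (f := fun j => |B j|) (fun j _ => abs_nonneg _) (Finset.mem_range.2 hj))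

theorem circle_bdd {x : ℂ} {r : ℝ} (hr : 0 < r) {g u : ℂ → ℝ} {K : Set ℂ}
    (h : CM (ball x r) g u K) :
    ∃ s M : ℝ, 0 < s ∧ s < r ∧ ∀ z ∈ sphere x s \ K, |u z| ≤ M := by
  obtain ⟨-, -, -, hd, -, -, -⟩ := h.basic
  obtain ⟨e1, e2⟩ := eilenberg_sphere h.closed x
  obtain ⟨p1, -, p3⟩ := polar h.closed u x
  have a1 := ae_lt_top (μ := volume.restrict (Ioo 0 r)) e1
    (((e2 _ measurableSet_Ioo).trans (measure_mono inter_subset_left)).trans_lt h.fin).ne
  have a2 := ae_lt_top (μ := volume.restrict (Ioo 0 r)) p1 ((p3 r).1 ▸ h.dir).ne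
  have : (ae (volume.restrict (Ioo 0 r))).NeBot := by
    rw [ae_neBot, Ne, Measure.restrict_eq_zero]
    simp [hr]
  obtain ⟨s, ⟨h1, h2⟩, hs⟩ := ((a1.and a2).and (ae_restrict_mem measurableSet_Ioo)).exists
  have hfin : (K ∩ sphere x s).Finite := by
    rw [← Set.encard_lt_top_iff]
    exact_mod_cast h1
  have hS : sphere x s ⊆ ball x r := sphere_subset_ball hs.2
  rcases (K ∩ sphere x s).eq_empty_or_nonempty with he | hne
  · have hc : ContinuousOn u (sphere x s) := fun z hz =>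
      (hd z ⟨hS hz, fun hK => (he ▸ (⟨hK, hz⟩ : z ∈ K ∩ sphere x s) : z ∈ (∅ : Set ℂ))⟩
        ).continuousAt.continuousWithinAt
    obtain ⟨M, hM⟩ := (isCompact_sphere x s).exists_bound_of_continuousOn hc
    exact ⟨s, M, hs.1, hs.2, fun z hz => hM z hz.1⟩
  · obtain ⟨n, θ, hA⟩ := exists_arcs hs.1 hfin hne
    obtain ⟨M, hM⟩ := arcs_Bound hA hs.1 hS hd h2
    exact ⟨s, M, hs.1, hs.2, hM⟩

theorem CM.bdd {x : ℂ} {r : ℝ} (hr : 0 < r) {g u : ℂ → ℝ} {K : Set ℂ}
    (h : CM (ball x r) g u K) :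
    ∃ s M : ℝ, 0 < s ∧ s < r ∧ 1 ≤ M ∧ (∀ z ∈ ball x s \ K, |u z| ≤ M) ∧
      ∀ᵐ z ∂(volume.restrict (ball x r)), |g z| ≤ M := by
  classical
  obtain ⟨s, M₀, hs, hsr, h0⟩ := circle_bdd hr h
  obtain ⟨-, hU, hlip, -, -, ⟨M₁, -, h1⟩, hfin⟩ := h.basic
  set M := max 1 (max M₀ M₁) with hMd
  have hM1 : 1 ≤ M := le_max_left _ _
  have hM₀ : M₀ ≤ M := (le_max_left _ _).trans (le_max_right _ _)
  have hM₁ : M₁ ≤ M := (le_max_right _ _).trans (le_max_right _ _)
  have hg : ∀ᵐ z ∂(volume.restrict (ball x r)), |g z| ≤ M := h1.mono fun z hz => hz.trans hM₁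
  refine ⟨s, M, hs, hsr, hM1, ?_, hg⟩
  obtain ⟨c1, c2, c3, c4⟩ := clamp_basic (zero_le_one.trans hM1)
  have hB : closedBall x s ⊆ ball x r := closedBall_subset_ball hsr
  have hsub : ball x s \ K ⊆ ball x r \ K := sdiff_subset_sdiff_left (ball_subset_ball hsr.le)
  obtain ⟨d1, d2⟩ := dir_comp_le c1 hU hsub hlip
  let w : ℂ → ℝ := fun z => if z ∈ closedBall x s then clamp M (u z) else u z
  have hw1 : ∀ z ∈ closedBall x s, w z = clamp M (u z) := fun z hz => if_pos hz
  have hsph : ∀ z ∈ (ball x r \ K) ∩ sphere x s, clamp M (u z) = u z := fun z hz =>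
    c3 _ ((h0 z ⟨hz.2, hz.1.2⟩).trans hM₀)
  have hc : Comp (ball x r) False u K x s w K := by
    refine ⟨h.closed, rfl, fun z _ hz => if_neg hz, ?_, False.elim⟩
    refine locLip_glue hU (d2.mono inter_subset_left) (hlip.mono sdiff_subset) hsph
      (fun z hz => hw1 z hz.2) fun z hz => ?_
    by_cases hz' : z ∈ closedBall x s
    · rw [hw1 z hz']
      exact hsph z ⟨hz.1, le_antisymm hz' (not_lt.1 hz.2)⟩
    · exact if_neg hz'
  have hmin := h.min x s w K hs hB hc
  obtain ⟨f1, f2⟩ := hfin x s hB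
  have hEn : En w K (closedBall x s) ≤ En u K (closedBall x s) := by
    refine add_le_add ?_ le_rfl
    obtain ⟨q1, q2⟩ := (polar h.closed w x).2.2 s
    rw [q2, ← q1]
    have e : Dir w (ball x s \ K) = Dir (fun z => clamp M (u z)) (ball x s \ K) := by
      refine setLIntegral_congr_fun (measurableSet_ball.diff h.closed.measurableSet) fun z hz => ?_
      have : w =ᶠ[𝓝 z] fun z => clamp M (u z) :=
        mem_of_superset (isOpen_ball.mem_nhds hz.1) fun z' hz' => hw1 z' (ball_subset_closedBall hz')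
      simp only [this.fderiv_eq]
    rw [e]
    exact d1.trans (lintegral_mono_set (sdiff_subset_sdiff_left ball_subset_closedBall))
  have hF : Fid g u (closedBall x s) ≤ Fid g w (closedBall x s) :=
    (ENNReal.add_le_add_iff_left f1.ne).1 (hmin.trans (add_le_add hEn le_rfl))
  have hgB : ∀ᵐ z ∂(volume.restrict (closedBall x s)), |g z| ≤ M :=
    ae_mono (Measure.restrict_mono_set _ hB) hg
  have hsq : ∀ a : ℝ, ‖a‖ₑ ^ 2 = ENNReal.ofReal (a ^ 2) := fun a => by
    rw [← ofReal_norm, ← ENNReal.ofReal_pow (norm_nonneg _), Real.norm_eq_abs, sq_abs]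
  have hle : (fun z => ‖w z - g z‖ₑ ^ 2) ≤ᵐ[volume.restrict (closedBall x s)]
      fun z => ‖u z - g z‖ₑ ^ 2 := by
    filter_upwards [hgB, ae_restrict_mem measurableSet_closedBall] with z hz hz'
    rw [hw1 z hz', hsq, hsq]
    exact ENNReal.ofReal_le_ofReal (c4 _ _ hz).1
  have hm : AEMeasurable (fun z => ‖u z - g z‖ₑ ^ 2) (volume.restrict (closedBall x s)) :=
    (((h.l2.1.sub h.gm.1).mono_measure (Measure.restrict_mono_set _ hB)).enorm).pow_const 2
  have hae := ae_eq_of_ae_le_of_lintegral_le hle ((lintegral_mono_ae hle).trans_lt f2).ne hm hF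
  have hae' : (fun z => clamp M (u z)) =ᵐ[volume.restrict (ball x s \ K)] u := by
    refine ae_mono (Measure.restrict_mono_set _ (sdiff_subset.trans ball_subset_closedBall)) ?_
    filter_upwards [hgB, ae_restrict_mem measurableSet_closedBall, hae] with z hz hz' he
    refine c3 _ (not_lt.1 fun hlt => ?_)
    rw [hw1 z hz', hsq, hsq, ENNReal.ofReal_eq_ofReal_iff (sq_nonneg _) (sq_nonneg _)] at he
    exact ((c4 _ _ hz).2 hlt).ne he
  have hcu : ContinuousOn u (ball x s \ K) := hlip.continuousOn.mono hsub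
  have heq := Measure.eqOn_open_of_ae_eq hae' (isOpen_ball.sdiff h.closed)
    (c1.continuous.comp_continuousOn hcu) hcu
  intro z hz
  rw [← heq hz]
  exact c2 _

end Vale.Agent.P128.B0
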