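import Vale.Agent.P128.B0.EL0

/-! P128 B0/CMin. The representative is a classical minimizer in every ball. Plan: K has zero
area (vol_zero_of_len). For a competitor (w, L) in closedBall y t with finite right side put
L1 = (L cap closedBall y t) cup (K minus closedBall y t), w1 = w on closedBall y t and v elsewhere;
w1 is locally Lipschitz on Omega minus L1 (near points of ball x r it equals w), admissible with
H = gr w1 (wg_of_lip, dir_eq); V = ball y t1 with closedBall y t in V, closure V in ball x r,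
C = closedBall y t; the parts of the energies on V minus C are equal and finite. -/

namespace Vale.Agent.P128.B0

open MeasureTheory Set Metric Filter Topology
open scoped ENNReal

theorem l2_CMin {E : Type*} [NormedAddCommGroup E] {μ : Measure ℂ} {f : ℂ → E}
    (hf : AEStronglyMeasurable f μ) : MemLp f 2 μ ↔ ∫⁻ z, ‖f z‖ₑ ^ 2 ∂μ < ∞ := by
  rw [MemLp, and_iff_right hf,
    eLpNorm_lt_top_iff_lintegral_rpow_enorm_lt_top (by norm_num) (by norm_num)]
  simp

theorem split_CMin (g u : ℂ → ℝ) (G : ℂ → ℂ) (K : Set ℂ) {V B : Set ℂ} (hB : MeasurableSet B)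
    (hBV : B ⊆ V) : energy g u G K V = energy g u G K B + energy g u G K (V \ B) := by
  have e1 : (V \ K) ∩ B = B \ K := by
    ext z
    exact ⟨fun h => ⟨h.2, h.1.2⟩, fun h => ⟨⟨hBV h.1, h.2⟩, h.1⟩⟩
  have e2 : (V \ K) \ B = (V \ B) \ K := by
    ext z
    exact ⟨fun h => ⟨⟨h.1.1, h.2⟩, h.1.2⟩, fun h => ⟨⟨h.1.1, h.2⟩, h.1.2⟩⟩
  have e3 : (K ∩ V) ∩ B = K ∩ B := by rw [inter_assoc, inter_eq_right.2 hBV]
  have e4 : (K ∩ V) \ B = K ∩ (V \ B) := by
    ext z
    exact ⟨fun h => ⟨h.1.1, h.1.2, h.2⟩, fun h => ⟨⟨h.1, h.2.1⟩, h.2.2⟩⟩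
  unfold energy
  rw [← lintegral_inter_add_sdiff _ (V \ K) hB, ← measure_inter_add_sdiff (K ∩ V) hB,
    ← lintegral_inter_add_sdiff (fun z => ‖u z - g z‖ₑ ^ 2) V hB, e1, e2, e3, e4,
    inter_eq_right.2 hBV]
  ring

theorem congr_CMin {g u u' : ℂ → ℝ} {G G' : ℂ → ℂ} {K K' S : Set ℂ}
    (h1 : ∀ z ∈ S, z ∈ K ↔ z ∈ K') (h2 : ∀ᵐ z ∂(volume.restrict (S \ K')), G z = G' z)
    (h3 : ∀ᵐ z ∂(volume.restrict S), u z = u' z) : energy g u G K S = energy g u' G' K' S := by
  have e1 : S \ K = S \ K' := by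
    ext z
    exact and_congr_right fun hz => not_congr (h1 z hz)
  have e2 : K ∩ S = K' ∩ S := by
    ext z
    exact and_congr_left (h1 z)
  unfold energy
  rw [e1, e2, lintegral_congr_ae (g := fun z => ‖G' z‖ₑ ^ 2) (h2.mono fun z hz => by rw [hz]),
    lintegral_congr_ae (f := fun z => ‖u z - g z‖ₑ ^ 2) (g := fun z => ‖u' z - g z‖ₑ ^ 2)
      (h3.mono fun z hz => by simp only [hz])]

theorem en_CMin (g w : ℂ → ℝ) (L S : Set ℂ) : energy g w (gr w) L S = En w L S + Fid g w S := by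
  unfold energy En Fid Dir
  congr 2
  refine lintegral_congr fun z => ?_
  rw [← ofReal_norm, (norm_dz w z).2.1, ofReal_norm]

theorem g2_CMin {Ω S : Set ℂ} {g : ℂ → ℝ} (hg : MemLp g ∞ (volume.restrict Ω)) (hS : S ⊆ Ω)
    (hb : Bornology.IsBounded S) : MemLp g 2 (volume.restrict S) := by
  have : IsFiniteMeasure (volume.restrict S) := isFiniteMeasure_restrict.2 hb.measure_lt_top.ne
  exact (hg.mono_measure (Measure.restrict_mono hS le_rfl)).mono_exponent le_top

theorem fin_CMin {Ω : Set ℂ} {g u : ℂ → ℝ} {G : ℂ → ℂ} {K S : Set ℂ}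
    (hg : MemLp g ∞ (volume.restrict Ω)) (h : Admissible Ω u G K) (hS : S ⊆ Ω)
    (hb : Bornology.IsBounded S) : energy g u G K S ≠ ∞ := by
  have h1 := h.gradL2.mono_measure (Measure.restrict_mono (sdiff_subset_sdiff_left hS) le_rfl)
  have h2 := (h.memL2.mono_measure (Measure.restrict_mono hS le_rfl)).sub (g2_CMin hg hS hb)
  exact (ENNReal.add_lt_top.2 ⟨ENNReal.add_lt_top.2 ⟨(l2_CMin h1.1).1 h1,
    (measure_mono inter_subset_left).trans_lt h.finite⟩, (l2_CMin h2.1).1 h2⟩).ne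

theorem null_CMin {K : Set ℂ} (S : Set ℂ) (h : μH[1] (K ∩ S) < ∞) :
    volume.restrict (S \ K) = volume.restrict S :=
  Measure.restrict_congr_set (sdiff_ae_eq_self.2 (by rw [inter_comm]; exact vol_zero_of_len h))

open Classical in
/-- The glued competitor. -/
theorem glue_CMin {Ω U B K K' L : Set ℂ} (hU : IsOpen U) (hUΩ : U ⊆ Ω) (hB : IsClosed B)
    (hBU : B ⊆ U) (hK : IsOpen (Ω \ K)) (hK' : ∀ z ∈ U, z ∈ K' ↔ z ∈ K) (hL : IsClosed L)
    (eqL : L \ B = K' \ B) {v w : ℂ → ℝ} (eqw : ∀ z ∈ U \ K', z ∉ B → w z = v z)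
    (lip : LocallyLipschitzOn (U \ L) w) (hv : ContDiffOn ℝ 1 v (Ω \ K)) :
    IsOpen (Ω \ ((L ∩ B) ∪ (K \ B))) ∧
      LocallyLipschitzOn (Ω \ ((L ∩ B) ∪ (K \ B))) (B.piecewise w v) ∧
      (∀ z ∈ B \ L, gr (B.piecewise w v) z = gr w z) ∧
      ∀ z, z ∉ B → gr (B.piecewise w v) z = gr v z := by
  have hUL : IsOpen (U \ L) := hU.sdiff hL
  have e : Ω \ ((L ∩ B) ∪ (K \ B)) = (U \ L) ∪ ((Ω \ K) ∩ Bᶜ) := by
    ext z
    constructor
    · intro h
      by_cases hz : z ∈ B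
      · exact Or.inl ⟨hBU hz, fun hl => h.2 (Or.inl ⟨hl, hz⟩)⟩
      · exact Or.inr ⟨⟨h.1, fun hk => h.2 (Or.inr ⟨hk, hz⟩)⟩, hz⟩
    · rintro (h | h)
      · refine ⟨hUΩ h.1, ?_⟩
        rintro (h' | h')
        · exact h.2 h'.1
        · have h2 : z ∈ K' \ B := ⟨(hK' z h.1).2 h'.1, h'.2⟩
          rw [← eqL] at h2
          exact h.2 h2.1
      · refine ⟨h.1.1, ?_⟩
        rintro (h' | h')
        · exact h.2 h'.2
        · exact h.1.2 h'.1
  have a1 : ∀ z ∈ U \ L, B.piecewise w v =ᶠ[𝓝 z] w := fun z hz => by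
    filter_upwards [hUL.mem_nhds hz] with p hp
    by_cases hb : p ∈ B
    · exact piecewise_eq_of_mem _ _ _ hb
    · rw [piecewise_eq_of_notMem _ _ _ hb]
      refine (eqw p ⟨hp.1, fun hk => ?_⟩ hb).symm
      have h2 : p ∈ K' \ B := ⟨hk, hb⟩
      rw [← eqL] at h2
      exact hp.2 h2.1
  have a2 : ∀ z, z ∉ B → B.piecewise w v =ᶠ[𝓝 z] v := fun z hz => by
    filter_upwards [hB.isOpen_compl.mem_nhds hz] with p hp
    exact piecewise_eq_of_notMem _ _ _ hp
  have ho : IsOpen (Ω \ ((L ∩ B) ∪ (K \ B))) := by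
    rw [e]
    exact hUL.union (hK.inter hB.isOpen_compl)
  refine ⟨ho, (locLip_iff ho).2 fun z hz => ?_,
    fun z hz => (EARN.gr_congr (a1 z ⟨hBU hz.1, hz.2⟩)).1,
    fun z hz => (EARN.gr_congr (a2 z hz)).1⟩
  rw [e] at hz
  rcases hz with hz | hz
  · exact ((locLip_iff hUL).1 lip z hz).congr (a1 z hz)
  · obtain ⟨C, t, ht, h⟩ := (hv.contDiffAt (hK.mem_nhds hz.1)).exists_lipschitzOnWith
    exact LipAt.congr ⟨C, t, ht, h⟩ (a2 z hz.2)

theorem min_CMin {Ω : Set ℂ} (hΩ : IsOpen Ω) {g u v : ℂ → ℝ} {G : ℂ → ℂ} {K K' : Set ℂ}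
    (hg : MemLp g ∞ (volume.restrict Ω)) (hmin : Minimizer Ω g u G K)
    (hv : ContDiffOn ℝ 1 v (Ω \ K))
    (hae : ∀ᵐ z ∂(volume.restrict Ω), v z = u z ∧ gr v z = G z) {U B : Set ℂ} (hU : IsOpen U)
    (hUc : IsCompact (closure U)) (hUΩ : closure U ⊆ Ω) (hB : IsCompact B) (hBU : B ⊆ U)
    (hK' : ∀ z ∈ U, z ∈ K' ↔ z ∈ K) {w : ℂ → ℝ} {L : Set ℂ} (hL : IsClosed L)
    (eqL : L \ B = K' \ B) (eqw : ∀ z ∈ U \ K', z ∉ B → w z = v z)
    (lip : LocallyLipschitzOn (U \ L) w) :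
    energy g v (gr v) K' B ≤ energy g w (gr w) L B := by
  classical
  have hU' : U ⊆ Ω := subset_closure.trans hUΩ
  have hBΩ : B ⊆ Ω := hBU.trans hU'
  have hBm : MeasurableSet B := hB.measurableSet
  rcases eq_top_or_lt_top (energy g w (gr w) L B) with htop | hfin
  · rw [htop]
    exact le_top
  obtain ⟨hf, f3⟩ := ENNReal.add_lt_top.1 hfin
  obtain ⟨f1, f2⟩ := ENNReal.add_lt_top.1 hf
  obtain ⟨ho, hlip, g1, g2⟩ :=
    glue_CMin hU hU' hB.isClosed hBU hmin.adm.relClosed hK' hL eqL eqw lip hv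
  have hin : ∀ z ∈ B, z ∈ (L ∩ B) ∪ (K \ B) ↔ z ∈ L := fun z hz =>
    ⟨fun h => h.elim (fun h => h.1) fun h => absurd hz h.2, fun h => Or.inl ⟨h, hz⟩⟩
  have hout : ∀ z, z ∉ B → (z ∈ (L ∩ B) ∪ (K \ B) ↔ z ∈ K) := fun z hz =>
    ⟨fun h => h.elim (fun h => absurd h.2 hz) fun h => h.1, fun h => Or.inr ⟨h, hz⟩⟩
  have hwm : AEStronglyMeasurable w (volume.restrict B) := by
    rw [← null_CMin B f2]
    exact (lip.continuousOn.mono (sdiff_subset_sdiff_left hBU)).aestronglyMeasurable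
      (hBm.diff hL.measurableSet)
  have hgB := g2_CMin hg hBΩ hB.isBounded
  have hw2 : MemLp w 2 (volume.restrict B) := by
    have h := ((l2_CMin (hwm.sub hgB.1)).2 f3).add hgB
    rwa [sub_add_cancel] at h
  have hv2 : MemLp v 2 (volume.restrict Ω) :=
    hmin.adm.memL2.ae_eq (hae.mono fun z hz => hz.1.symm)
  have hG2 : MemLp (gr v) 2 (volume.restrict (Ω \ K)) :=
    hmin.adm.gradL2.ae_eq ((ae_restrict_of_ae_restrict_of_subset sdiff_subset hae).mono
      fun z hz => hz.2.symm)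
  have hw : ∀ᵐ z ∂(volume.restrict (Ω \ B)), B.piecewise w v z = u z := by
    filter_upwards [ae_restrict_of_ae_restrict_of_subset sdiff_subset hae,
      ae_restrict_mem (hΩ.measurableSet.diff hBm)] with z h1 h2
    rw [piecewise_eq_of_notMem _ _ _ h2.2, h1.1]
  have adm : Admissible Ω (B.piecewise w v) (gr (B.piecewise w v)) ((L ∩ B) ∪ (K \ B)) := by
    refine ⟨union_subset (inter_subset_right.trans hBΩ) (sdiff_subset.trans hmin.adm.sub), ho,
      (measure_union_le _ _).trans_lt (ENNReal.add_lt_top.2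
        ⟨f2, (measure_mono sdiff_subset).trans_lt hmin.adm.finite⟩), ?_, ?_, wg_of_lip ho hlip⟩
    · refine MemLp.piecewise hBm ?_ (hv2.restrict _)
      rwa [Measure.restrict_restrict hBm, inter_eq_left.2 hBΩ]
    · rw [l2_CMin (EARN.measurable_gr _).1.aestronglyMeasurable,
        ← lintegral_inter_add_sdiff _ _ hBm]
      refine ENNReal.add_lt_top.2 ⟨lt_of_le_of_lt ?_ f1,
        lt_of_le_of_lt ?_ ((l2_CMin hG2.1).1 hG2)⟩
      · have s1 : (Ω \ ((L ∩ B) ∪ (K \ B))) ∩ B ⊆ B \ L := fun z hz =>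
          ⟨hz.2, fun h => hz.1.2 ((hin z hz.2).2 h)⟩
        refine (lintegral_mono_set s1).trans_eq ?_
        exact setLIntegral_congr_fun (hBm.diff hL.measurableSet) fun z hz => by rw [g1 z hz]
      · have s1 : (Ω \ ((L ∩ B) ∪ (K \ B))) \ B ⊆ Ω \ K := fun z hz =>
          ⟨hz.1.1, fun h => hz.1.2 ((hout z hz.2).2 h)⟩
        refine le_of_eq_of_le ?_ (lintegral_mono_set s1)
        exact setLIntegral_congr_fun (ho.measurableSet.diff hBm) fun z hz => by rw [g2 z hz.2]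
  have hsd : symmDiff ((L ∩ B) ∪ (K \ B)) K ⊆ B := fun z hz => by
    by_contra hb
    rcases mem_symmDiff.1 hz with h | h
    · exact h.2 ((hout z hb).1 h.1)
    · exact h.2 ((hout z hb).2 h.1)
  have key := hmin.min U hU hUc hUΩ _ _ _ adm B hB hBU hsd hw
  have hUB : U \ B ⊆ Ω := sdiff_subset.trans hU'
  have c1 : energy g u G K B = energy g v (gr v) K' B := by
    refine congr_CMin (fun z hz => (hK' z (hBU hz)).symm) ?_ ?_
    · exact (ae_restrict_of_ae_restrict_of_subset (sdiff_subset.trans hBΩ) hae).mono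
        fun z hz => hz.2.symm
    · exact (ae_restrict_of_ae_restrict_of_subset hBΩ hae).mono fun z hz => hz.1.symm
  have c2 : energy g (B.piecewise w v) (gr (B.piecewise w v)) ((L ∩ B) ∪ (K \ B)) B =
      energy g w (gr w) L B :=
    congr_CMin hin ((ae_restrict_mem (hBm.diff hL.measurableSet)).mono g1)
      ((ae_restrict_mem hBm).mono fun z hz => piecewise_eq_of_mem _ _ _ hz)
  have c3 : energy g (B.piecewise w v) (gr (B.piecewise w v)) ((L ∩ B) ∪ (K \ B)) (U \ B) =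
      energy g u G K (U \ B) := by
    refine congr_CMin (fun z hz => hout z hz.2) ?_
      (ae_restrict_of_ae_restrict_of_subset (sdiff_subset_sdiff_left hU') hw)
    refine ae_restrict_of_ae_restrict_of_subset sdiff_subset ?_
    filter_upwards [ae_restrict_of_ae_restrict_of_subset hUB hae,
      ae_restrict_mem (hU.measurableSet.diff hBm)] with z h1 h2
    rw [g2 z h2.2, h1.2]
  rw [split_CMin g u G K hBm hBU, split_CMin g _ _ _ hBm hBU, c1, c2, c3] at key
  exact (ENNReal.add_le_add_iff_right (fin_CMin hg hmin.adm hUB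
    (hUc.isBounded.subset (sdiff_subset.trans subset_closure)))).1 key

theorem cm_of_min {Ω : Set ℂ} (hΩ : IsOpen Ω) {g u v : ℂ → ℝ} {G : ℂ → ℂ} {K : Set ℂ}
    (hg : MemLp g ∞ (volume.restrict Ω)) (hmin : Minimizer Ω g u G K)
    (hv : ContDiffOn ℝ 1 v (Ω \ K))
    (hae : ∀ᵐ z ∂(volume.restrict (Ω \ K)), v z = u z ∧ gr v z = G z) {x : ℂ} {r : ℝ}
    (hr : 0 < r) (hB : closedBall x r ⊆ Ω) : CM (ball x r) g v (K ∩ closedBall x r) := by
  have hU : ball x r ⊆ Ω := ball_subset_closedBall.trans hB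
  have hK' : ∀ z ∈ ball x r, z ∈ K ∩ closedBall x r ↔ z ∈ K := fun z hz =>
    and_iff_left (ball_subset_closedBall hz)
  have hs : ball x r \ (K ∩ closedBall x r) ⊆ Ω \ K := fun z hz =>
    ⟨hU hz.1, fun h => hz.2 ((hK' z hz.1).2 h)⟩
  have hae2 : ∀ᵐ z ∂(volume.restrict Ω), v z = u z ∧ gr v z = G z := by
    rwa [null_CMin Ω ((measure_mono inter_subset_left).trans_lt hmin.adm.finite)] at hae
  have hcl : IsClosed (K ∩ closedBall x r) := by
    have e : K ∩ closedBall x r = closedBall x r \ (Ω \ K) := by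
      ext z
      exact ⟨fun h => ⟨h.2, fun h' => h'.2 h.1⟩,
        fun h => ⟨by_contra fun h' => h.2 ⟨hB h.1, h'⟩, h.1⟩⟩
    rw [e]
    exact isClosed_closedBall.sdiff hmin.adm.relClosed
  refine ⟨isOpen_ball, hcl, (measure_mono inter_subset_left).trans_lt hmin.adm.finite,
    hv.mono hs, ?_, ?_, hg.mono_measure (Measure.restrict_mono hU le_rfl), ?_, ?_⟩
  · exact (EARN.dir_eq _ _).1.2 ((hmin.adm.gradL2.ae_eq
      (hae.mono fun z hz => hz.2.symm)).mono_measure (Measure.restrict_mono hs le_rfl))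
  · exact (hmin.adm.memL2.ae_eq (hae2.mono fun z hz => hz.1.symm)).mono_measure
      (Measure.restrict_mono hU le_rfl)
  · intro φ hφ hc hsupp
    have h := el0 hΩ hg hmin hφ hc (hsupp.trans hs)
    have hm := hmin.adm.relClosed.measurableSet
    rw [← setIntegral_eq_of_subset_of_forall_sdiff_eq_zero hm hs,
      ← setIntegral_eq_of_subset_of_forall_sdiff_eq_zero hm hs]
    · refine Eq.trans (integral_congr_ae (hae.mono fun z hz => ?_)) (h.trans
        (congrArg Neg.neg (integral_congr_ae (hae.mono fun z hz => ?_))))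
      · beta_reduce
        rw [← hz.2, (norm_dz v z).2.2.1, Complex.conj_conj]
      · beta_reduce
        rw [hz.1]
    · intro z hz
      rw [image_eq_zero_of_notMem_tsupport fun h' => hz.2 (hsupp h'), mul_zero,
        Complex.ofReal_zero]
    · intro z hz
      have h0 : fderiv ℝ φ z = 0 :=
        Function.notMem_support.1 fun h' => hz.2 (hsupp (support_fderiv_subset ℝ h'))
      simp [gr, h0]
  · intro y t w L _ hyt hc
    have hcb : closure (ball x r) = closedBall x r := closure_ball x hr.ne'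
    rw [← en_CMin, ← en_CMin]
    exact min_CMin hΩ hg hmin hv hae2 isOpen_ball (by rw [hcb]; exact isCompact_closedBall x r)
      (by rwa [hcb]) (isCompact_closedBall y t) hyt hK' hc.closed hc.eqL hc.eqw hc.lip

end Vale.Agent.P128.B0
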