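import Vale.Agent.P128.B0.Defs

/-! P128 B0/Clamp. Truncation. Plan: clamp is 1-Lipschitz; the norm of the derivative of a
composition with a 1-Lipschitz map is at most the norm of the derivative
(norm_fderiv_le_of_lip' with constant |fderiv w z| + eta). -/

namespace Vale.Agent.P128.B0

open MeasureTheory Set Metric Filter Topology
open scoped ENNReal

theorem clamp_basic {M : ℝ} (hM : 0 ≤ M) : LipschitzWith 1 (clamp M) ∧ (∀ t, |clamp M t| ≤ M) ∧
    (∀ t, |t| ≤ M → clamp M t = t) ∧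
    ∀ t a, |a| ≤ M → (clamp M t - a) ^ 2 ≤ (t - a) ^ 2 ∧
      (M < |t| → (clamp M t - a) ^ 2 < (t - a) ^ 2) := by
  have h3 : ∀ t, |t| ≤ M → clamp M t = t := fun t h => by
    rw [clamp, min_eq_right (abs_le.1 h).2, max_eq_right (abs_le.1 h).1]
  refine ⟨(LipschitzWith.id.const_min M).const_max (-M), fun t =>
    abs_le.2 ⟨le_max_left _ _, max_le (by linarith) (min_le_left _ _)⟩, h3, fun t a ha => ?_⟩
  have h4 : M < |t| → (clamp M t - a) ^ 2 < (t - a) ^ 2 := fun h => by
    obtain ⟨a1, a2⟩ := abs_le.1 ha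
    rcases lt_abs.1 h with h | h
    · rw [clamp, min_eq_left h.le, max_eq_right (by linarith)]
      nlinarith
    · rw [clamp, min_eq_right (by linarith), max_eq_left (by linarith)]
      nlinarith
  refine ⟨?_, h4⟩
  rcases le_or_gt |t| M with h | h
  · rw [h3 t h]
  · exact (h4 h).le

theorem norm_fderiv_comp_le {T : ℝ → ℝ} (hT : LipschitzWith 1 T) {w : ℂ → ℝ} {z : ℂ}
    (hw : DifferentiableAt ℝ w z) : ‖fderiv ℝ (fun y => T (w y)) z‖ ≤ ‖fderiv ℝ w z‖ := by
  refine le_of_forall_pos_le_add fun η hη => norm_fderiv_le_of_lip' ℝ (by positivity) ?_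
  filter_upwards [hw.hasFDerivAt.isLittleO.def hη] with x hx
  have h1 := hT.dist_le_mul (w x) (w z)
  rw [NNReal.coe_one, one_mul, dist_eq_norm, dist_eq_norm] at h1
  linarith [norm_sub_norm_le (w x - w z) (fderiv ℝ w z (x - z)), (fderiv ℝ w z).le_opNorm (x - z)]

theorem dir_comp_le {T : ℝ → ℝ} (hT : LipschitzWith 1 T) {U S : Set ℂ} (hU : IsOpen U)
    (hS : S ⊆ U) {w : ℂ → ℝ} (hw : LocallyLipschitzOn U w) :
    Dir (fun y => T (w y)) S ≤ Dir w S ∧ LocallyLipschitzOn U (fun y => T (w y)) := by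
  refine ⟨lintegral_mono_ae ?_, fun z hz => ?_⟩
  · filter_upwards [ae_restrict_of_ae_restrict_of_subset hS (locLip_ae_diff hU hw)] with z hz
    rw [← ofReal_norm_eq_enorm, ← ofReal_norm_eq_enorm]
    exact ENNReal.pow_le_pow_left (ENNReal.ofReal_le_ofReal (norm_fderiv_comp_le hT hz))
  · obtain ⟨C, t, ht, h⟩ := hw hz
    exact ⟨_, t, ht, hT.comp_lipschitzOnWith h⟩

theorem CM.basic {Ω : Set ℂ} {g u : ℂ → ℝ} {K : Set ℂ} (h : CM Ω g u K) :
    volume K = 0 ∧ IsOpen (Ω \ K) ∧ LocallyLipschitzOn (Ω \ K) u ∧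
    (∀ z ∈ Ω \ K, DifferentiableAt ℝ u z) ∧ ContinuousOn (dz u) (Ω \ K) ∧
    (∃ M : ℝ, 0 ≤ M ∧ ∀ᵐ z ∂(volume.restrict Ω), |g z| ≤ M) ∧
    ∀ y t, closedBall y t ⊆ Ω → En u K (closedBall y t) < ∞ ∧ Fid g u (closedBall y t) < ∞ := by
  have hO := h.isOpen.sdiff h.closed
  have hc : ∀ z ∈ Ω \ K, ContDiffAt ℝ 1 u z := fun z hz => h.c1.contDiffAt (hO.mem_nhds hz)
  have hf := h.c1.continuousOn_fderiv_of_isOpen hO le_rfl
  refine ⟨vol_zero_of_len h.fin, hO, (locLip_iff hO).2 fun z hz =>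
    (hc z hz).exists_lipschitzOnWith, fun z hz => (hc z hz).differentiableAt one_ne_zero,
    (Complex.continuous_ofReal.comp_continuousOn (hf.clm_apply continuousOn_const)).sub
      (continuousOn_const.mul
        (Complex.continuous_ofReal.comp_continuousOn (hf.clm_apply continuousOn_const))),
    ⟨(eLpNormEssSup g (volume.restrict Ω)).toReal, ENNReal.toReal_nonneg, ?_⟩,
    fun y t hy => ⟨?_, ?_⟩⟩
  · have h1 := h.gm.eLpNorm_lt_top
    rw [eLpNorm_exponent_top] at h1
    filter_upwards [ae_le_eLpNormEssSup (f := g) (μ := volume.restrict Ω)] with z hz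
    simpa using ENNReal.toReal_mono h1.ne hz
  · exact ENNReal.add_lt_top.2 ⟨(lintegral_mono_set (diff_subset_diff_left hy)).trans_lt h.dir,
      (measure_mono inter_subset_left).trans_lt h.fin⟩
  · haveI : IsFiniteMeasure (volume.restrict (closedBall y t)) :=
      isFiniteMeasure_restrict.2 measure_closedBall_lt_top.ne
    have hm : volume.restrict (closedBall y t) ≤ volume.restrict Ω := Measure.restrict_mono hy le_rfl
    have h1 := ((h.l2.mono_measure hm).sub
      ((h.gm.mono_measure hm).mono_exponent le_top)).integrable_sq.2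
    exact (lintegral_congr fun z => (enorm_pow _ 2).symm).trans_lt h1

end Vale.Agent.P128.B0
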