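import Vale.Agent.P128.B0.Repy

/-! P128 B0/Cmp  (helper names end with _Cmp)

Local competitors.  `cmp_local`: trivial if `En W L B = ∞`.  Otherwise `(W, gr W, L)` is admissible (`weakGrad_of_locLip`; `L` is null; `W` is continuous on `Ω \ L`; off the closed ball `W = u` near each point, so `gr W = gr u`; `EARN.dir_eq`, `norm_dz`).
`V = ball y t'` with `t < t'`, `closedBall y t' ⊆ Ω` (`IsCompact.exists_cthickening_subset_open`, `cthickening_closedBall`), split the three terms of `energy` along `B` (`lintegral_inter_add_diff`, `measure_inter_add_diff`), cancel the finite common part (`ENNReal.add_le_add_iff_right`), `Complex.volume_closedBall`.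
`upper_local`: `W = 0` on the closed ball, `L = (K \ closedBall y t) ∪ sphere y t`, `len_sphere`, `upp_in`, `upp_out`.
-/

namespace Vale.Agent.P128.B0

open MeasureTheory Set Metric Filter Topology
open scoped ENNReal

noncomputable section

variable {Ω K L : Set ℂ} {g u W : ℂ → ℝ} {y : ℂ} {t M : ℝ}

theorem l2_Cmp {E : Type*} [NormedAddCommGroup E] {μ : Measure ℂ} {f : ℂ → E}
    (hf : AEStronglyMeasurable f μ) : MemLp f 2 μ ↔ ∫⁻ z, ‖f z‖ₑ ^ 2 ∂μ < ∞ := by
  rw [MemLp, and_iff_right hf,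
    eLpNorm_lt_top_iff_lintegral_rpow_enorm_lt_top (by norm_num) (by norm_num)]
  simp

theorem split_Cmp (g u : ℂ → ℝ) (G : ℂ → ℂ) (K : Set ℂ) {V B : Set ℂ} (hB : MeasurableSet B)
    (hBV : B ⊆ V) : energy g u G K V = energy g u G K B + energy g u G K (V \ B) := by
  have e1 : (V \ K) ∩ B = B \ K := by
    ext z
    exact ⟨fun h => ⟨h.2, h.1.2⟩, fun h => ⟨⟨hBV h.1, h.2⟩, h.1⟩⟩
  have e2 : (V \ K) \ B = (V \ B) \ K := by
    ext z
    exact ⟨fun h => ⟨⟨h.1.1, h.2⟩, h.1.2⟩, fun h => ⟨⟨h.1.1, h.2⟩, h.1.2⟩⟩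
  have e3 : (K ∩ V) ∩ B = K ∩ B := by rw [inter_assoc, inter_eq_right.2 hBV]
  have e4 : (K ∩ V) \ B = K ∩ (V \ B) := by
    ext z
    exact ⟨fun h => ⟨h.1.1, h.1.2, h.2⟩, fun h => ⟨⟨h.1, h.2.1⟩, h.2.2⟩⟩
  unfold energy
  rw [← lintegral_inter_add_sdiff _ (V \ K) hB, ← measure_inter_add_sdiff (K ∩ V) hB,
    ← lintegral_inter_add_sdiff (fun z => ‖u z - g z‖ₑ ^ 2) V hB, e1, e2, e3, e4,
    inter_eq_right.2 hBV]
  ring

theorem congr_Cmp {g u u' : ℂ → ℝ} {G G' : ℂ → ℂ} {K K' S : Set ℂ}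
    (h1 : ∀ z ∈ S, z ∈ K ↔ z ∈ K') (h2 : ∀ᵐ z ∂(volume.restrict (S \ K')), G z = G' z)
    (h3 : ∀ᵐ z ∂(volume.restrict S), u z = u' z) : energy g u G K S = energy g u' G' K' S := by
  have e1 : S \ K = S \ K' := by
    ext z
    exact and_congr_right fun hz => not_congr (h1 z hz)
  have e2 : K ∩ S = K' ∩ S := by
    ext z
    exact and_congr_left (h1 z)
  unfold energy
  rw [e1, e2, lintegral_congr_ae (g := fun z => ‖G' z‖ₑ ^ 2) (h2.mono fun z hz => by rw [hz]),
    lintegral_congr_ae (f := fun z => ‖u z - g z‖ₑ ^ 2) (g := fun z => ‖u' z - g z‖ₑ ^ 2)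
      (h3.mono fun z hz => by simp only [hz])]

theorem en_Cmp (g w : ℂ → ℝ) (L S : Set ℂ) : energy g w (gr w) L S = En w L S + Fid g w S := by
  unfold energy En Fid Dir
  congr 2
  refine lintegral_congr fun z => ?_
  rw [← ofReal_norm, (norm_dz w z).2.1, ofReal_norm]

theorem g2_Cmp {Ω S : Set ℂ} {g : ℂ → ℝ} (hg : MemLp g ∞ (volume.restrict Ω)) (hS : S ⊆ Ω)
    (hb : Bornology.IsBounded S) : MemLp g 2 (volume.restrict S) := by
  have : IsFiniteMeasure (volume.restrict S) := isFiniteMeasure_restrict.2 hb.measure_lt_top.ne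
  exact (hg.mono_measure (Measure.restrict_mono hS le_rfl)).mono_exponent le_top

theorem fin_Cmp {Ω : Set ℂ} {g u : ℂ → ℝ} {G : ℂ → ℂ} {K S : Set ℂ}
    (hg : MemLp g ∞ (volume.restrict Ω)) (h : Admissible Ω u G K) (hS : S ⊆ Ω)
    (hb : Bornology.IsBounded S) : energy g u G K S ≠ ∞ := by
  have h1 := h.gradL2.mono_measure (Measure.restrict_mono (sdiff_subset_sdiff_left hS) le_rfl)
  have h2 := (h.memL2.mono_measure (Measure.restrict_mono hS le_rfl)).sub (g2_Cmp hg hS hb)
  exact (ENNReal.add_lt_top.2 ⟨ENNReal.add_lt_top.2 ⟨(l2_Cmp h1.1).1 h1,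
    (measure_mono inter_subset_left).trans_lt h.finite⟩, (l2_Cmp h2.1).1 h2⟩).ne

theorem null_Cmp {K : Set ℂ} (S : Set ℂ) (h : μH[1] (K ∩ S) < ∞) :
    volume.restrict (S \ K) = volume.restrict S :=
  Measure.restrict_congr_set (sdiff_ae_eq_self.2 (by rw [inter_comm]; exact vol_zero_of_len h))

theorem cmp_local (hΩ : IsOpen Ω) (hg : MemLp g ∞ (volume.restrict Ω)) (hmin : Minimizer Ω g u (gr u) K)
    (ht : 0 < t) (hB : closedBall y t ⊆ Ω) (hL : IsOpen (Ω \ L)) (hs : L ⊆ Ω)
    (he : L \ closedBall y t = K \ closedBall y t) (hW : ∀ z, z ∉ closedBall y t → W z = u z)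
    (hl : LocallyLipschitzOn (Ω \ L) W) (hb : ∀ z ∈ closedBall y t \ L, |W z| ≤ M)
    (hgM : ∀ᵐ z ∂(volume.restrict Ω), |g z| ≤ M) :
    En u K (closedBall y t) ≤ En W L (closedBall y t) + ENNReal.ofReal (13 * M ^ 2 * t ^ 2) := by
  have hBm : MeasurableSet (closedBall y t) := measurableSet_closedBall
  rcases eq_top_or_lt_top (En W L (closedBall y t)) with htop | hfin
  · rw [htop, top_add]
    exact le_top
  obtain ⟨f1, f2⟩ := ENNReal.add_lt_top.1 hfin
  have : IsFiniteMeasure (volume.restrict (closedBall y t)) :=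
    isFiniteMeasure_restrict.2 measure_closedBall_lt_top.ne
  have hout : ∀ z, z ∉ closedBall y t → (z ∈ L ↔ z ∈ K) := fun z hz =>
    ⟨fun h => ((Set.ext_iff.1 he z).1 ⟨h, hz⟩).1, fun h => ((Set.ext_iff.1 he z).2 ⟨h, hz⟩).1⟩
  have g2 : ∀ z, z ∉ closedBall y t → gr W z = gr u z := fun z hz =>
    (EARN.gr_congr (mem_of_superset (isClosed_closedBall.isOpen_compl.mem_nhds hz) hW)).1
  have hLm : MeasurableSet (closedBall y t \ L) := by
    have e : closedBall y t \ L = closedBall y t ∩ (Ω \ L) :=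
      Subset.antisymm (fun z hz => ⟨hz.1, hB hz.1, hz.2⟩) fun z hz => ⟨hz.1, hz.2.2⟩
    rw [e]
    exact hBm.inter hL.measurableSet
  have hb' : ∀ᵐ z ∂(volume.restrict (closedBall y t)), |W z| ≤ M := by
    rw [← null_Cmp _ f2]
    exact (ae_restrict_mem hLm).mono hb
  have hw2 : MemLp W 2 (volume.restrict (closedBall y t)) := by
    refine MemLp.of_bound ?_ M hb'
    rw [← null_Cmp _ f2]
    exact (hl.continuousOn.mono (sdiff_subset_sdiff_left hB)).aestronglyMeasurable hLm
  have hw : ∀ᵐ z ∂(volume.restrict (Ω \ closedBall y t)), W z = u z :=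
    (ae_restrict_mem (hΩ.measurableSet.diff hBm)).mono fun z hz => hW z hz.2
  have adm : Admissible Ω W (gr W) L := by
    refine ⟨hs, hL, ?_, ?_, ?_, weakGrad_of_locLip hL hl⟩
    · rw [← measure_inter_add_sdiff L hBm, he]
      exact ENNReal.add_lt_top.2 ⟨f2, (measure_mono sdiff_subset).trans_lt hmin.adm.finite⟩
    · classical
      have e : W = (closedBall y t).piecewise W u := funext fun z => by
        by_cases hz : z ∈ closedBall y t
        · rw [piecewise_eq_of_mem _ _ _ hz]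
        · rw [piecewise_eq_of_notMem _ _ _ hz, hW z hz]
      rw [e]
      refine MemLp.piecewise hBm ?_ (hmin.adm.memL2.restrict _)
      rwa [Measure.restrict_restrict hBm, inter_eq_left.2 hB]
    · rw [l2_Cmp (EARN.measurable_gr _).1.aestronglyMeasurable,
        ← lintegral_inter_add_sdiff _ _ hBm]
      refine ENNReal.add_lt_top.2 ⟨lt_of_le_of_lt ?_ ((l2_Cmp (EARN.measurable_gr
        W).1.aestronglyMeasurable).1 ((EARN.dir_eq _ _).1.1 f1)),
        lt_of_le_of_lt ?_ ((l2_Cmp hmin.adm.gradL2.1).1 hmin.adm.gradL2)⟩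
      · exact lintegral_mono_set fun z hz => ⟨hz.2, hz.1.2⟩
      · have s1 : (Ω \ L) \ closedBall y t ⊆ Ω \ K := fun z hz =>
          ⟨hz.1.1, fun h => hz.1.2 ((hout z hz.2).2 h)⟩
        refine le_of_eq_of_le ?_ (lintegral_mono_set s1)
        exact setLIntegral_congr_fun (hL.measurableSet.diff hBm) fun z hz => by rw [g2 z hz.2]
  obtain ⟨V, hV, hBV, hVΩ, hVc⟩ :=
    exists_open_between_and_isCompact_closure (isCompact_closedBall y t) hΩ hB
  have hV' : V ⊆ Ω := subset_closure.trans hVΩ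
  have key := hmin.min V hV hVc hVΩ _ _ _ adm _ (isCompact_closedBall y t) hBV (fun z hz => by
    by_contra hb
    rcases mem_symmDiff.1 hz with h | h
    · exact h.2 ((hout z hb).1 h.1)
    · exact h.2 ((hout z hb).2 h.1)) hw
  have c3 : energy g W (gr W) L (V \ closedBall y t) =
      energy g u (gr u) K (V \ closedBall y t) :=
    congr_Cmp (fun z hz => hout z hz.2) (ae_restrict_of_ae_restrict_of_subset sdiff_subset
      ((ae_restrict_mem (hV.measurableSet.diff hBm)).mono fun z hz => g2 z hz.2))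
      (ae_restrict_of_ae_restrict_of_subset (sdiff_subset_sdiff_left hV') hw)
  rw [split_Cmp g u _ K hBm hBV, split_Cmp g _ _ _ hBm hBV, c3, ENNReal.add_le_add_iff_right
    (fin_Cmp hg hmin.adm (sdiff_subset.trans hV')
      (hVc.isBounded.subset (sdiff_subset.trans subset_closure))), en_Cmp, en_Cmp] at key
  refine le_self_add.trans (key.trans (add_le_add le_rfl ?_))
  refine (lintegral_mono_ae (g := fun _ => ENNReal.ofReal (4 * M ^ 2)) ?_).trans ?_
  · filter_upwards [hb', ae_restrict_of_ae_restrict_of_subset hB hgM] with z h1 h2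
    rw [← ofReal_norm, ← ENNReal.ofReal_pow (norm_nonneg _), Real.norm_eq_abs]
    refine ENNReal.ofReal_le_ofReal ?_
    have := pow_le_pow_left₀ (abs_nonneg _) ((abs_sub _ _).trans (add_le_add h1 h2)) 2
    linarith
  · rw [setLIntegral_const, Complex.volume_closedBall, ← ENNReal.ofReal_pow ht.le,
      ← ENNReal.ofReal_coe_nnreal, NNReal.coe_real_pi, ← ENNReal.ofReal_mul (by positivity),
      ← ENNReal.ofReal_mul (by positivity)]
    refine ENNReal.ofReal_le_ofReal ?_
    nlinarith [Real.pi_lt_d2, mul_nonneg (sq_nonneg M) (sq_nonneg t)]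
theorem upper_local (hΩ : IsOpen Ω) (hg : MemLp g ∞ (volume.restrict Ω)) (hu : ContDiffOn ℝ 1 u (Ω \ K))
    (hmin : Minimizer Ω g u (gr u) K) (ht : 0 < t) (ht1 : t ≤ 1) (hB : closedBall y t ⊆ Ω) (hM : 0 ≤ M)
    (hgM : ∀ᵐ z ∂(volume.restrict Ω), |g z| ≤ M) :
    En u K (closedBall y t) ≤ ENNReal.ofReal ((7 + 13 * M ^ 2) * t) := by
  classical
  have hO : Ω \ ((K \ ball y t) ∪ sphere y t) = ball y t ∪ ((Ω \ K) ∩ (closedBall y t)ᶜ) := by
    refine Subset.antisymm (fun z hz => (upp_cases hz.2).imp id fun h => ⟨⟨hz.1, h.2⟩, h.1⟩) ?_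
    rintro z (hz | hz)
    · exact ⟨hB (ball_subset_closedBall hz), fun h => h.elim (fun h => h.2 hz)
        fun h => (mem_ball.1 hz).ne (mem_sphere.1 h)⟩
    · exact ⟨hz.1.1, fun h => h.elim (fun h => hz.1.2 h.1) fun h => hz.2 (sphere_subset_closedBall h)⟩
  have ho : IsOpen (Ω \ ((K \ ball y t) ∪ sphere y t)) :=
    hO ▸ isOpen_ball.union (hmin.adm.relClosed.inter isClosed_closedBall.isOpen_compl)
  have e1 : closedBall y t \ ((K \ ball y t) ∪ sphere y t) ⊆ ball y t := fun z hz =>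
    (upp_cases hz.2).resolve_right fun h => h.1 hz.1
  have e2 : ((K \ ball y t) ∪ sphere y t) ∩ closedBall y t ⊆ sphere y t := by
    rintro z ⟨h1 | h1, h2⟩
    · exact mem_sphere.2 (le_antisymm (mem_closedBall.1 h2) (not_lt.1 fun h3 => h1.2 h3))
    · exact h1
  have e3 : Dir (fun z => if z ∈ closedBall y t then 0 else u z) (ball y t) = 0 := by
    refine (setLIntegral_congr_fun measurableSet_ball (g := fun _ => 0) fun z hz => ?_).trans
      lintegral_zero
    simp only [(upp_in u hz).fderiv_eq, fderiv_fun_const, Pi.zero_apply]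
    rw [← ofReal_norm, norm_zero]
    simp
  refine (cmp_local (W := fun z => if z ∈ closedBall y t then 0 else u z) hΩ hg hmin ht hB ho
    (union_subset (sdiff_subset.trans hmin.adm.sub) (sphere_subset_closedBall.trans hB))
    (Subset.antisymm (fun z hz => ⟨hz.1.elim (fun h => h.1)
      fun h => absurd (sphere_subset_closedBall h) hz.2, hz.2⟩)
      fun z hz => ⟨Or.inl ⟨hz.1, fun h => hz.2 (ball_subset_closedBall h)⟩, hz.2⟩)
    (fun z hz => if_neg hz) ((locLip_iff ho).2 fun z hz => ?_)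
    (fun z hz => by rwa [if_pos hz.1, abs_zero]) hgM).trans ?_
  · rcases upp_cases hz.2 with h1 | ⟨h1, h2⟩
    · exact (lipAt_const 0 z).congr (upp_in u h1)
    · exact ((locLip_iff hmin.adm.relClosed).1 (locLip_of_c1 hmin.adm.relClosed hu) z
        ⟨hz.1, h2⟩).congr (upp_out u h1)
  · refine (add_le_add (add_le_add ((lintegral_mono_set e1).trans_eq e3)
      ((measure_mono e2).trans (len_sphere y ht.le))) le_rfl).trans ?_
    rw [zero_add, ← ENNReal.ofReal_add (by positivity) (by positivity)]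
    refine ENNReal.ofReal_le_ofReal ?_
    nlinarith [Real.pi_lt_d2, mul_le_mul_of_nonneg_left ht1 (mul_nonneg (sq_nonneg M) ht.le)]

end

end Vale.Agent.P128.B0
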