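import Vale.Agent.P128.B0.Defs

/-! P128 B0/Fub. Fubini for convolution with a locally integrable kernel. Plan: on a ball of
radius R1 replace k by its indicator on a ball of radius R + R1 + 1, then
Integrable.convolution_integrand, Integrable.integral_prod_left, integral_integral_swap. -/

namespace Vale.Agent.P128.B0

open MeasureTheory Set Metric Filter Topology
open scoped ENNReal

theorem loc_Fub {f : ℂ → ℝ} (hf : Integrable f) {R : ℝ} (h0 : ∀ ζ, R < ‖ζ‖ → f ζ = 0) {k : ℂ → ℂ}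
    (hk : LocallyIntegrable k volume) (R1 : ℝ) :
    IntegrableOn (fun p : ℂ × ℂ => (f p.2 : ℂ) * k (p.1 - p.2)) (closedBall 0 R1 ×ˢ univ)
      ((volume : Measure ℂ).prod volume) := by
  have h1 : Integrable ((closedBall (0 : ℂ) (R1 + R)).indicator k) :=
    (integrable_indicator_iff measurableSet_closedBall).2
      (hk.integrableOn_isCompact (isCompact_closedBall _ _))
  have h2 := (hf.ofReal (𝕜 := ℂ)).convolution_integrand (ContinuousLinearMap.mul ℂ ℂ) h1
  refine h2.integrableOn.congr_fun (fun p hp => ?_)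
    (measurableSet_closedBall.prod MeasurableSet.univ)
  simp only [ContinuousLinearMap.mul_apply']
  by_cases h : R < ‖p.2‖
  · rw [h0 _ h]
    simp
  · have h3 : ‖p.1‖ ≤ R1 := mem_closedBall_zero_iff.1 hp.1
    rw [indicator_of_mem (mem_closedBall_zero_iff.2
      ((norm_sub_le _ _).trans (add_le_add h3 (not_lt.1 h))))]
    rfl

theorem fub {f : ℂ → ℝ} (hf : Integrable f) {R : ℝ} (h0 : ∀ ζ, R < ‖ζ‖ → f ζ = 0) {k : ℂ → ℂ}
    (hk : LocallyIntegrable k volume) (hm : Measurable k) :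
    LocallyIntegrable (fun z => ∫ ζ, (f ζ : ℂ) * k (z - ζ)) volume ∧
    ∀ ψ : ℂ → ℂ, Continuous ψ → HasCompactSupport ψ →
      Integrable (fun ζ => (f ζ : ℂ) * ∫ z, ψ z * k (z - ζ)) ∧
      ∫ z, ψ z * ∫ ζ, (f ζ : ℂ) * k (z - ζ) = ∫ ζ, (f ζ : ℂ) * ∫ z, ψ z * k (z - ζ) := by
  refine ⟨fun x => ⟨closedBall 0 (‖x‖ + 1), ?_, ?_⟩, fun ψ hψ hc => ?_⟩
  · exact mem_of_superset (isOpen_ball.mem_nhds (mem_ball_zero_iff.2 (lt_add_one _)))
      ball_subset_closedBall
  · have h1 := loc_Fub hf h0 hk (‖x‖ + 1)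
    rw [IntegrableOn, ← Measure.restrict_prod_eq_prod_univ] at h1
    exact h1.integral_prod_left
  · obtain ⟨C, hC⟩ := hc.exists_bound_of_continuous hψ
    obtain ⟨R1, hR1⟩ := hc.isCompact.isBounded.subset_closedBall 0
    have h1 : IntegrableOn (fun p : ℂ × ℂ => ψ p.1 * ((f p.2 : ℂ) * k (p.1 - p.2)))
        (closedBall 0 R1 ×ˢ univ) ((volume : Measure ℂ).prod volume) :=
      Integrable.bdd_mul (c := C) (loc_Fub hf h0 hk R1)
        (hψ.comp continuous_fst).aestronglyMeasurable (ae_of_all _ fun p => hC p.1)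
    have h2 := h1.integrable_of_forall_notMem_eq_zero fun p hp => by
      rw [image_eq_zero_of_notMem_tsupport fun h => hp ⟨hR1 h, mem_univ _⟩, zero_mul]
    have e : ∀ ζ, ∫ z, ψ z * ((f ζ : ℂ) * k (z - ζ)) = (f ζ : ℂ) * ∫ z, ψ z * k (z - ζ) :=
      fun ζ => by
        rw [← integral_const_mul]
        exact integral_congr_ae (ae_of_all _ fun z => mul_left_comm _ _ _)
    have h3 := h2.integral_prod_right
    have h4 := integral_integral_swap (f := fun z ζ => ψ z * ((f ζ : ℂ) * k (z - ζ))) h2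
    simp only [e] at h3 h4
    refine ⟨h3, ?_⟩
    rw [← h4]
    exact integral_congr_ae (ae_of_all _ fun z => (integral_const_mul _ _).symm)

end Vale.Agent.P128.B0
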