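import Vale.Agent.P128.B0.Ker
import Vale.Agent.P128.B0.Fub

/-! P128 B0/P1. Potentials of integrable data. Plan: fub with the kernels log and inverse,
log_ibp, pomp; the bound by Cauchy-Schwarz with the integral of log^2 over a ball. -/

namespace Vale.Agent.P128.B0

open MeasureTheory Set Metric Filter Topology
open scoped ENNReal

theorem int_P1 {k ψ : ℂ → ℂ} (hk : LocallyIntegrable k volume) (hψ : Continuous ψ)
    (hc : HasCompactSupport ψ) (ζ : ℂ) : Integrable fun z => ψ z * k (z - ζ) := by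
  have h1 := (hk.integrable_smul_left_of_hasCompactSupport (g := fun w => ψ (w + ζ))
    (hψ.comp (continuous_add_const ζ)) (hc.comp_homeomorph (Homeomorph.addRight ζ))).comp_sub_right ζ
  simpa only [sub_add_cancel, smul_eq_mul] using h1

theorem map_P1 {E F : Type} [NormedAddCommGroup E] [NormedAddCommGroup F] [NormedSpace ℝ E]
    [NormedSpace ℝ F] (L : E →L[ℝ] F) {k : ℂ → E} (hk : LocallyIntegrable k volume) :
    LocallyIntegrable (fun w => L (k w)) volume := fun x =>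
  let ⟨s, h1, h2⟩ := hk x
  ⟨s, h1, L.integrable_comp h2⟩

theorem log_P1 : LocallyIntegrable (fun w : ℂ => ((Real.log ‖w‖ : ℝ) : ℂ)) volume :=
  map_P1 Complex.ofRealCLM ker_int.2.1

theorem mlog_P1 : Measurable fun w : ℂ => ((Real.log ‖w‖ : ℝ) : ℂ) :=
  Complex.measurable_ofReal.comp (Real.measurable_log.comp measurable_norm)

theorem pl_P1 (f : ℂ → ℝ) (z : ℂ) : ∫ ζ, (f ζ : ℂ) * ((Real.log ‖z - ζ‖ : ℝ) : ℂ) =
    ((∫ ζ, f ζ * Real.log ‖z - ζ‖ : ℝ) : ℂ) := by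
  simp only [← Complex.ofReal_mul, integral_complex_ofReal]

theorem left_P1 {f : ℂ → ℝ} (hf : Integrable f) {R : ℝ} (h0 : ∀ ζ, R < ‖ζ‖ → f ζ = 0)
    {ψ : ℂ → ℝ} (hψ : Continuous ψ) (hc : HasCompactSupport ψ) :
    ∫ z, ψ z * ∫ ζ, f ζ * Real.log ‖z - ζ‖ = ∫ ζ, f ζ * ∫ z, ψ z * Real.log ‖z - ζ‖ := by
  have h := ((fub hf h0 log_P1 mlog_P1).2 (fun z => (ψ z : ℂ)) (Complex.continuous_ofReal.comp hψ)
    (hc.comp_left Complex.ofReal_zero)).2
  simp only [← Complex.ofReal_mul, integral_complex_ofReal] at h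
  exact_mod_cast h

theorem right_P1 {f : ℂ → ℝ} (hf : Integrable f) {R : ℝ} (h0 : ∀ ζ, R < ‖ζ‖ → f ζ = 0)
    {φ : ℂ → ℝ} (hφ : Continuous φ) (hc : HasCompactSupport φ) (e : ℂ) :
    ∫ z, φ z * ((∫ ζ, (f ζ : ℂ) * (z - ζ)⁻¹) * e).re =
      ∫ ζ, f ζ * ∫ z, φ z * ((z - ζ)⁻¹ * e).re := by
  have c1 : Continuous fun z => (φ z : ℂ) * e := (Complex.continuous_ofReal.comp hφ).mul_const e
  have c2 : HasCompactSupport fun z => (φ z : ℂ) * e :=
    hc.comp_left (g := fun t : ℝ => (t : ℂ) * e) (by simp)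
  obtain ⟨a1, a2⟩ := fub hf h0 ker_int.1 measurable_inv
  obtain ⟨a3, a4⟩ := a2 _ c1 c2
  have a5 := a1.integrable_smul_left_of_hasCompactSupport c1 c2
  have a6 := congrArg Complex.re a4
  have b1 := Complex.reCLM.integral_comp_comm a5
  have b2 := Complex.reCLM.integral_comp_comm a3
  simp only [Complex.reCLM_apply, smul_eq_mul] at b1 b2
  rw [← b1, ← b2] at a6
  have e1 : ∀ (t : ℝ) (w : ℂ), ((t : ℂ) * e * w).re = t * (w * e).re := fun t w => by
    rw [mul_assoc, Complex.re_ofReal_mul, mul_comm e]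
  simp only [e1, Complex.re_ofReal_mul] at a6
  rw [a6]
  refine integral_congr_ae (Eventually.of_forall fun ζ => ?_)
  have b3 := Complex.reCLM.integral_comp_comm (int_P1 ker_int.1 c1 c2 ζ)
  simp only [Complex.reCLM_apply, e1] at b3
  simp only [← b3]

theorem gr_P1 {φ : ℂ → ℝ} (hφ : ContDiff ℝ 1 φ) (hc : HasCompactSupport φ) :
    Continuous (gr φ) ∧ HasCompactSupport (gr φ) := by
  have h : ∀ v : ℂ, Continuous fun z => ((fderiv ℝ φ z v : ℝ) : ℂ) := fun v =>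
    Complex.continuous_ofReal.comp ((hφ.continuous_fderiv one_ne_zero).clm_apply continuous_const)
  exact ⟨(h 1).add (continuous_const.mul (h _)), (hc.fderiv ℝ).comp_left
    (g := fun L : ℂ →L[ℝ] ℝ => ((L 1 : ℝ) : ℂ) + Complex.I * ((L Complex.I : ℝ) : ℂ)) (by simp)⟩

theorem pot_weak {f : ℂ → ℝ} (hf : Integrable f) {R : ℝ} (h0 : ∀ ζ, R < ‖ζ‖ → f ζ = 0) :
    LocallyIntegrable (pot f) volume ∧ LocallyIntegrable (cau f) volume ∧
    WeakGrad univ (pot f) (fun z => (starRingEnd ℂ) (cau f z)) ∧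
    ∀ φ : ℂ → ℝ, ContDiff ℝ 1 φ → HasCompactSupport φ →
      ∫ z, cau f z * gr φ z = -∫ z, ((f z * φ z : ℝ) : ℂ) := by
  refine ⟨?_, ?_, fun φ h1 h2 _ e => ?_, fun φ h1 h2 => ?_⟩
  · have h := map_P1 ((2 * Real.pi)⁻¹ • Complex.reCLM) (fub hf h0 log_P1 mlog_P1).1
    simp only [pl_P1, smul_apply, Complex.reCLM_apply, Complex.ofReal_re,
      smul_eq_mul] at h
    exact h
  · exact map_P1 (ContinuousLinearMap.mul ℝ ℂ (((2 * Real.pi)⁻¹ : ℝ) : ℂ))
      (fub hf h0 ker_int.1 measurable_inv).1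
  · have h3 : ContDiff ℝ 1 φ := h1.of_le (by exact_mod_cast le_top)
    have a1 := left_P1 hf h0 (ψ := fun z => fderiv ℝ φ z e)
      ((h3.continuous_fderiv one_ne_zero).clm_apply continuous_const)
      ((h2.fderiv ℝ).comp_left (g := fun L : ℂ →L[ℝ] ℝ => L e) rfl)
    have a2 := right_P1 hf h0 h3.continuous h2 e
    simp only [log_ibp h3 h2, mul_neg, integral_neg] at a1
    have e1 : ∀ z, pot f z * fderiv ℝ φ z e =
        (2 * Real.pi)⁻¹ * (fderiv ℝ φ z e * ∫ ζ, f ζ * Real.log ‖z - ζ‖) := fun z => by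
      rw [pot]
      ring
    have e2 : ∀ z, inner ℝ ((starRingEnd ℂ) (cau f z)) e * φ z =
        (2 * Real.pi)⁻¹ * (φ z * ((∫ ζ, (f ζ : ℂ) * (z - ζ)⁻¹) * e).re) := fun z => by
      rw [Complex.inner, Complex.conj_conj, cau, mul_left_comm, Complex.re_ofReal_mul, mul_comm e]
      ring
    simp only [Measure.restrict_univ, e1, e2, integral_const_mul, a1, a2, mul_neg]
  · have a1 := ((fub hf h0 ker_int.1 measurable_inv).2 _ (gr_P1 h1 h2).1 (gr_P1 h1 h2).2).2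
    have e1 : ∀ z, cau f z * gr φ z =
        (((2 * Real.pi)⁻¹ : ℝ) : ℂ) * (gr φ z * ∫ ζ, (f ζ : ℂ) * (z - ζ)⁻¹) := fun z => by
      rw [cau]
      ring
    simp only [e1, integral_const_mul, a1, pomp h1 h2]
    rw [← integral_const_mul, ← integral_neg]
    refine integral_congr_ae (Eventually.of_forall fun ζ => ?_)
    have hp : (Real.pi : ℂ) ≠ 0 := Complex.ofReal_ne_zero.2 Real.pi_ne_zero
    push_cast
    field_simp

theorem pot_bdd {f : ℂ → ℝ} (hf : MemLp f 2 volume) {R : ℝ} (h0 : ∀ ζ, R < ‖ζ‖ → f ζ = 0)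
    (R' : ℝ) : ∃ M : ℝ, ∀ z, ‖z‖ ≤ R' → |pot f z| ≤ M := by
  have a1 : Integrable ((closedBall (0 : ℂ) (R' + R)).indicator fun w => Real.log ‖w‖ ^ 2) :=
    (integrable_indicator_iff measurableSet_closedBall).2
      (ker_int.2.2.1.integrableOn_isCompact (isCompact_closedBall _ _))
  have a2 := hf.integrable_sq
  refine ⟨(2 * Real.pi)⁻¹ * ((∫ ζ, f ζ ^ 2) +
    ∫ w, (closedBall (0 : ℂ) (R' + R)).indicator (fun w => Real.log ‖w‖ ^ 2) w), fun z hz => ?_⟩
  rw [pot, abs_mul, abs_of_nonneg (by positivity)]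
  refine mul_le_mul_of_nonneg_left ?_ (by positivity)
  rw [← integral_sub_left_eq_self
    ((closedBall (0 : ℂ) (R' + R)).indicator fun w => Real.log ‖w‖ ^ 2) volume z,
    ← integral_add a2 (a1.comp_sub_left z), ← Real.norm_eq_abs]
  refine norm_integral_le_of_norm_le (a2.add (a1.comp_sub_left z))
    (Eventually.of_forall fun ζ => ?_)
  rcases lt_or_ge R ‖ζ‖ with h | h
  · rw [h0 ζ h, zero_mul, norm_zero]
    exact add_nonneg (sq_nonneg _) (indicator_nonneg (fun _ _ => sq_nonneg _) _)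
  · rw [indicator_of_mem (mem_closedBall_zero_iff.2 ((norm_sub_le _ _).trans (add_le_add hz h))),
      Real.norm_eq_abs, abs_le]
    constructor <;> nlinarith [sq_nonneg (f ζ + Real.log ‖z - ζ‖),
      sq_nonneg (f ζ - Real.log ‖z - ζ‖), sq_nonneg (f ζ), sq_nonneg (Real.log ‖z - ζ‖)]

end Vale.Agent.P128.B0
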