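import Vale.Agent.P128.B0.Ker

/-! P128 B0/P2. Potentials of bounded data. Plan: regularized kernels log(|w|^2 + d^2)/2 and
conj w / (|w|^2 + d^2): derivative under the integral sign
(hasFDerivAt_integral_of_dominated_of_fderiv_le), continuity, uniform convergence of the
derivatives (error at most M times the integral over a ball of the kernel difference, which tends to
0 by dominated convergence), pointwise convergence of the potentials,
hasFDerivAt_of_tendstoLocallyUniformlyOn. -/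

namespace Vale.Agent.P128.B0

open MeasureTheory Set Metric Filter Topology
open scoped ENNReal

/-- Regularized Cauchy kernel. -/
noncomputable def kk_P2 (d : ℝ) (w : ℂ) : ℂ := (‖w‖ ^ 2 + d)⁻¹ • (starRingEnd ℂ) w

/-- Regularized logarithm. -/
noncomputable def ll_P2 (d : ℝ) (w : ℂ) : ℝ := Real.log (‖w‖ ^ 2 + d) * (1 / 2)

/-- The form `v ↦ re (a v)`. -/
noncomputable def LL_P2 : ℂ →L[ℝ] ℂ →L[ℝ] ℝ :=
  (ContinuousLinearMap.compL ℝ ℂ ℂ ℝ Complex.reCLM) ∘L ContinuousLinearMap.mul ℝ ℂ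

theorem LL_app_P2 (a v : ℂ) : LL_P2 a v = (a * v).re := rfl

theorem LL_le_P2 (a : ℂ) : ‖LL_P2 a‖ ≤ ‖a‖ :=
  ContinuousLinearMap.opNorm_le_bound _ (norm_nonneg _) fun v => by
    rw [LL_app_P2, ← norm_mul]
    exact Complex.abs_re_le_norm _

theorem norm_kk_P2 {d : ℝ} (hd : 0 < d) (w : ℂ) : ‖kk_P2 d w‖ = ‖w‖ / (‖w‖ ^ 2 + d) := by
  rw [kk_P2, norm_smul, RCLike.norm_conj, Real.norm_of_nonneg (by positivity), div_eq_inv_mul]

theorem kk_le_P2 {d : ℝ} (hd : 0 < d) (w : ℂ) :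
    ‖kk_P2 d w‖ ≤ 1 + d⁻¹ ∧ ‖kk_P2 d w‖ ≤ ‖w‖⁻¹ := by
  rw [norm_kk_P2 hd]
  have h0 := norm_nonneg w
  constructor
  · rw [div_le_iff₀ (by positivity)]
    have h1 : d⁻¹ * d = 1 := inv_mul_cancel₀ hd.ne'
    have h2 : 0 ≤ d⁻¹ * ‖w‖ ^ 2 := by positivity
    nlinarith [sq_nonneg (‖w‖ - 1)]
  · rcases h0.eq_or_lt with h | h
    · rw [← h]
      simp
    · rw [div_le_iff₀ (by positivity), mul_add, sq, inv_mul_cancel_left₀ h.ne']
      have : 0 ≤ ‖w‖⁻¹ * d := by positivity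
      linarith

theorem cont_P2 {d : ℝ} (hd : 0 < d) : Continuous (kk_P2 d) ∧ Continuous (ll_P2 d) := by
  have h : Continuous fun w : ℂ => ‖w‖ ^ 2 + d := by fun_prop
  have h' : ∀ w : ℂ, ‖w‖ ^ 2 + d ≠ 0 := fun w => by positivity
  exact ⟨(h.inv₀ h').smul Complex.continuous_conj, (h.log h').mul continuous_const⟩

theorem der_P2 {d : ℝ} (hd : 0 < d) (w : ℂ) : HasFDerivAt (ll_P2 d) (LL_P2 (kk_P2 d w)) w := by
  have h := ((((hasFDerivAt_id (𝕜 := ℝ) w).norm_sq).add_const d).log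
    (by positivity : ‖w‖ ^ 2 + d ≠ 0)).mul_const (1 / 2)
  refine h.congr_fderiv (ContinuousLinearMap.ext fun v => ?_)
  rw [LL_app_P2, kk_P2, smul_mul_assoc, Complex.smul_re]
  simp [Complex.inner]
  ring

section
variable {f : ℂ → ℝ} {x : ℂ} {R M : ℝ} {F : Type} [NormedAddCommGroup F] [NormedSpace ℝ F]

theorem bd_P2 (hm : AEStronglyMeasurable f volume) (hM : 0 ≤ M) (hb : ∀ᵐ ζ, |f ζ| ≤ M)
    (h0 : ∀ ζ, ζ ∉ ball x R → f ζ = 0) {κ : ℂ → F} (hκ : LocallyIntegrable κ volume) {z : ℂ} {S : ℝ}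
    (hz : z ∈ ball x S) : Integrable (fun ζ => f ζ • κ (z - ζ)) ∧
      ‖∫ ζ, f ζ • κ (z - ζ)‖ ≤ M * ∫ w in ball (0 : ℂ) (S + R), ‖κ w‖ := by
  have hi : IntegrableOn (fun w => M * ‖κ w‖) (ball (0 : ℂ) (S + R)) :=
    (((hκ.integrableOn_isCompact (isCompact_closedBall 0 (S + R))).mono_set
      ball_subset_closedBall).norm).const_mul M
  have hi' := (integrable_indicator_iff measurableSet_ball).2 hi
  have hq := (Measure.measurePreserving_sub_left (volume : Measure ℂ) z).quasiMeasurePreserving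
  have hle : ∀ᵐ w, ‖f (z - w) • κ w‖ ≤
      (ball (0 : ℂ) (S + R)).indicator (fun w => M * ‖κ w‖) w := by
    filter_upwards [hq.ae hb] with w hw
    by_cases h : w ∈ ball (0 : ℂ) (S + R)
    · rw [indicator_of_mem h, norm_smul]
      exact mul_le_mul_of_nonneg_right hw (norm_nonneg _)
    · rw [indicator_of_notMem h, h0 (z - w) fun h' => h ?_, zero_smul, norm_zero]
      rw [mem_ball_iff_norm] at hz h'
      rw [mem_ball_zero_iff, show w = (z - x) - (z - w - x) by ring]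
      linarith [norm_sub_le (z - x) (z - w - x)]
  have h1 : Integrable fun w => f (z - w) • κ w :=
    hi'.mono' ((hm.comp_quasiMeasurePreserving hq).smul hκ.aestronglyMeasurable) hle
  refine ⟨by simpa using h1.comp_sub_left z, ?_⟩
  rw [← integral_sub_left_eq_self _ volume z, ← integral_const_mul,
    ← integral_indicator measurableSet_ball]
  simpa using norm_integral_le_of_norm_le hi' hle

theorem conv_P2 (hm : AEStronglyMeasurable f volume) (hM : 0 ≤ M) (hb : ∀ᵐ ζ, |f ζ| ≤ M)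
    (h0 : ∀ ζ, ζ ∉ ball x R → f ζ = 0) {κ : ℕ → ℂ → F} {κ₀ : ℂ → F} {b : ℂ → ℝ}
    (hκ : ∀ n, Continuous (κ n)) (hκ₀ : LocallyIntegrable κ₀ volume)
    (hbi : LocallyIntegrable b volume) (hle : ∀ n w, w ≠ 0 → ‖κ n w - κ₀ w‖ ≤ b w)
    (ht : ∀ w, w ≠ 0 → Tendsto (fun n => κ n w) atTop (𝓝 (κ₀ w))) (S : ℝ) :
    TendstoUniformlyOn (fun n z => ∫ ζ, f ζ • κ n (z - ζ)) (fun z => ∫ ζ, f ζ • κ₀ (z - ζ)) atTop
      (ball x S) := by
  have hne : ∀ᵐ w ∂(volume.restrict (ball (0 : ℂ) (S + R))), w ≠ 0 :=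
    ae_restrict_of_ae (by simp [ae_iff])
  have h1 : Tendsto (fun n => ∫ w in ball (0 : ℂ) (S + R), ‖κ₀ w - κ n w‖) atTop
      (𝓝 (∫ w in ball (0 : ℂ) (S + R), (0 : ℝ))) := by
    refine tendsto_integral_of_dominated_convergence b
      (fun n => (hκ₀.aestronglyMeasurable.sub (hκ n).aestronglyMeasurable).norm.restrict)
      ((hbi.integrableOn_isCompact (isCompact_closedBall 0 (S + R))).mono_set
        ball_subset_closedBall) (fun n => hne.mono fun w hw => ?_) (hne.mono fun w hw => ?_)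
    · rw [norm_norm, norm_sub_rev]
      exact hle n w hw
    · simpa using ((ht w hw).const_sub (κ₀ w)).norm
  have h2 := h1.const_mul M
  rw [integral_zero, mul_zero] at h2
  refine Metric.tendstoUniformlyOn_iff.2 fun ε hε => ?_
  filter_upwards [h2.eventually (gt_mem_nhds hε)] with n hn z hz
  have a1 := (bd_P2 hm hM hb h0 hκ₀ hz).1
  have a2 := (bd_P2 hm hM hb h0 (hκ n).locallyIntegrable hz).1
  have a3 := (bd_P2 hm hM hb h0 (hκ₀.sub (hκ n).locallyIntegrable) hz).2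
  rw [dist_eq_norm, ← integral_sub a1 a2]
  refine lt_of_le_of_lt (le_of_eq_of_le ?_ a3) hn
  simp only [Pi.sub_apply, smul_sub]

theorem reg_P2 (hm : AEStronglyMeasurable f volume) (hM : 0 ≤ M) (hb : ∀ᵐ ζ, |f ζ| ≤ M)
    (h0 : ∀ ζ, ζ ∉ ball x R → f ζ = 0) {d : ℝ} (hd : 0 < d) :
    (Continuous fun z => ∫ ζ, f ζ • kk_P2 d (z - ζ)) ∧ ∀ z,
      HasFDerivAt (fun z => ∫ ζ, f ζ • ll_P2 d (z - ζ)) (LL_P2 (∫ ζ, f ζ • kk_P2 d (z - ζ))) z := by
  have hz : ∀ z : ℂ, z ∈ ball x (dist z x + 1) := fun z => mem_ball.2 (lt_add_one _)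
  have hf : Integrable f := by
    simpa using (bd_P2 hm hM hb h0 (κ := fun _ => (1 : ℝ))
      continuous_const.locallyIntegrable (hz x)).1
  have ik := fun z => (bd_P2 hm hM hb h0 (cont_P2 hd).1.locallyIntegrable (hz z)).1
  have il := fun z => (bd_P2 hm hM hb h0 (cont_P2 hd).2.locallyIntegrable (hz z)).1
  have hk : ∀ z ζ, ‖f ζ • kk_P2 d (z - ζ)‖ ≤ ‖f ζ‖ * (1 + d⁻¹) := fun z ζ => by
    rw [norm_smul]
    exact mul_le_mul_of_nonneg_left (kk_le_P2 hd _).1 (norm_nonneg _)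
  refine ⟨continuous_of_dominated (fun z => (ik z).aestronglyMeasurable)
    (fun z => Eventually.of_forall (hk z)) (hf.norm.mul_const _)
    (Eventually.of_forall fun ζ =>
      ((cont_P2 hd).1.comp (continuous_id.sub continuous_const)).const_smul (f ζ)), fun z => ?_⟩
  rw [← LL_P2.integral_comp_comm (ik z)]
  refine hasFDerivAt_integral_of_dominated_of_fderiv_le (s := univ)
    (F' := fun z ζ => LL_P2 (f ζ • kk_P2 d (z - ζ))) (bound := fun ζ => ‖f ζ‖ * (1 + d⁻¹))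
    univ_mem (Eventually.of_forall fun z => (il z).aestronglyMeasurable) (il z)
    (LL_P2.integrable_comp (ik z)).aestronglyMeasurable
    (Eventually.of_forall fun ζ y _ => (LL_le_P2 _).trans (hk y ζ)) (hf.norm.mul_const _)
    (Eventually.of_forall fun ζ y _ => ?_)
  rw [map_smul]
  have := ((der_P2 hd (y - ζ)).comp y ((hasFDerivAt_id y).sub_const ζ)).const_smul (f ζ)
  rw [ContinuousLinearMap.comp_id] at this
  exact this

end

theorem pot_c1 {f : ℂ → ℝ} (hm : AEStronglyMeasurable f volume) {x : ℂ} {R M : ℝ} (hR : 0 < R)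
    (hM : 0 ≤ M) (hb : ∀ᵐ ζ, |f ζ| ≤ M) (h0 : ∀ ζ, ζ ∉ ball x R → f ζ = 0) :
    ContDiff ℝ 1 (pot f) ∧ (∀ z, dz (pot f) z = cau f z) ∧
      ∀ z ∈ ball x R, ‖cau f z‖ ≤ 2 * M * R := by
  obtain ⟨k1, k2, -, k4⟩ := ker_int
  have hd : ∀ n : ℕ, (0 : ℝ) < 1 / ((n : ℝ) + 1) := fun n => Nat.one_div_pos_of_nat
  have hd1 : ∀ n : ℕ, (1 : ℝ) / ((n : ℝ) + 1) ≤ 1 := fun n =>
    (div_le_one (by positivity)).2 (by linarith [(Nat.cast_nonneg n : (0 : ℝ) ≤ n)])
  have td : ∀ w : ℂ, Tendsto (fun n : ℕ => ‖w‖ ^ 2 + 1 / ((n : ℝ) + 1)) atTop (𝓝 (‖w‖ ^ 2)) :=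
    fun w => by simpa using tendsto_one_div_add_atTop_nhds_zero_nat.const_add (‖w‖ ^ 2)
  have lg : ∀ w : ℂ, Real.log ‖w‖ = Real.log (‖w‖ ^ 2) * (1 / 2) := fun w => by
    rw [Real.log_pow]
    ring
  have c1 := conv_P2 hm hM hb h0 (κ := fun n => kk_P2 (1 / ((n : ℝ) + 1))) (κ₀ := fun w => w⁻¹)
    (b := fun w => ‖w⁻¹‖ + ‖w⁻¹‖) (fun n => (cont_P2 (hd n)).1) k1
    (fun y => (k1 y).norm.add (k1 y).norm)
    (fun n w _ => (norm_sub_le _ _).trans (by
      rw [norm_inv]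
      linarith [(kk_le_P2 (hd n) w).2]))
    (fun w hw => by
      have h := ((td w).inv₀ (by positivity)).smul_const ((starRingEnd ℂ) w)
      rw [show (‖w‖ ^ 2)⁻¹ • (starRingEnd ℂ) w = w⁻¹ by
        rw [Complex.inv_def, Complex.normSq_eq_norm_sq, Complex.real_smul, mul_comm]] at h
      exact h)
  have c2 := conv_P2 hm hM hb h0 (κ := fun n => ll_P2 (1 / ((n : ℝ) + 1)))
    (κ₀ := fun w => Real.log ‖w‖) (b := fun w => ll_P2 1 w - Real.log ‖w‖)
    (fun n => (cont_P2 (hd n)).2) k2 ((cont_P2 one_pos).2.locallyIntegrable.sub k2)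
    (fun n w hw => by
      have p : 0 < ‖w‖ ^ 2 := by positivity
      have q1 := Real.log_le_log p (le_add_of_nonneg_right (hd n).le)
      have q2 := Real.log_le_log (add_pos p (hd n)) (add_le_add_right (hd1 n) (‖w‖ ^ 2))
      rw [Real.norm_eq_abs, lg, ll_P2, ll_P2, abs_of_nonneg (by linarith)]
      linarith)
    (fun w hw => by
      rw [lg]
      exact ((td w).log (by positivity)).mul_const _)
  have hz : ∀ z : ℂ, z ∈ ball x (dist z x + 1) := fun z => mem_ball.2 (lt_add_one _)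
  have hC : Continuous fun z => ∫ ζ, f ζ • (z - ζ)⁻¹ := continuous_iff_continuousAt.2 fun z =>
    ((c1 _).continuousOn (Frequently.of_forall fun n =>
      (reg_P2 hm hM hb h0 (hd n)).1.continuousOn)).continuousAt (isOpen_ball.mem_nhds (hz z))
  have hD : ∀ z, HasFDerivAt (pot f) ((2 * Real.pi)⁻¹ • LL_P2 (∫ ζ, f ζ • (z - ζ)⁻¹)) z := fun z =>
    (hasFDerivAt_of_tendstoUniformlyOn isOpen_ball
      (LL_P2.uniformContinuous.comp_tendstoUniformlyOn (c1 _))
      (fun n y _ => (reg_P2 hm hM hb h0 (hd n)).2 y) (fun y hy => (c2 _).tendsto_at hy)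
      (hz z)).const_smul (2 * Real.pi)⁻¹
  have hc : ∀ z, cau f z = ((2 * Real.pi)⁻¹ : ℝ) * ∫ ζ, f ζ • (z - ζ)⁻¹ := fun z => rfl
  refine ⟨contDiff_one_iff_fderiv.2 ⟨fun z => (hD z).differentiableAt, ?_⟩, fun z => ?_,
    fun z hz' => ?_⟩
  · rw [funext fun z => (hD z).fderiv]
    exact (LL_P2.continuous.comp hC).const_smul (2 * Real.pi)⁻¹
  · rw [dz, (hD z).fderiv, hc]
    generalize (∫ ζ, f ζ • (z - ζ)⁻¹) = a
    generalize (2 * Real.pi)⁻¹ = c
    apply Complex.ext <;> simp [LL_app_P2]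
  · have a1 := (bd_P2 hm hM hb h0 k1 hz').2
    have a2 := k4 (R + R) (by linarith)
    simp only [norm_inv] at a1
    have a3 := a1.trans (mul_le_mul_of_nonneg_left a2 hM)
    have pp := Real.pi_pos
    rw [hc, norm_mul, Complex.norm_real, Real.norm_of_nonneg (by positivity),
      inv_mul_le_iff₀ (by positivity)]
    linarith

end Vale.Agent.P128.B0
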