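import Vale.Agent.P128.B0.Clamp
import Vale.Agent.P128.B0.P1
import Vale.Agent.P128.B0.P2
import Vale.Agent.P128.EARN.Weyl

/-! P128 B0/Corr. The corrector. Plan: f = indicator (ball x r minus K)
of u - g is bounded by 2 M almost everywhere; p = pot f - pot f x; pot_c1; for a small ball off K the
continuous function dz u - cau f satisfies the hypothesis of weyl_off with the empty set (CM.el and
pot_weak), so it is holomorphic. -/

namespace Vale.Agent.P128.B0

open MeasureTheory Set Metric Filter Topology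
open scoped ENNReal

theorem cont_Corr {φ : ℂ → ℝ} (h : ContDiff ℝ 1 φ) : Continuous (dz φ) ∧ Continuous (gr φ) := by
  have c : ∀ v : ℂ, Continuous fun z => ((fderiv ℝ φ z v : ℝ) : ℂ) := fun v =>
    Complex.continuous_ofReal.comp ((h.continuous_fderiv one_ne_zero).clm_apply continuous_const)
  exact ⟨(c 1).sub (continuous_const.mul (c _)), (c 1).add (continuous_const.mul (c _))⟩

theorem corrector {x : ℂ} {r : ℝ} (hr : 0 < r) {g u : ℂ → ℝ} {K : Set ℂ}
    (h : CM (ball x r) g u K) {M : ℝ} (hM : 0 ≤ M) (hu : ∀ z ∈ ball x r \ K, |u z| ≤ M)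
    (hg : ∀ᵐ z ∂(volume.restrict (ball x r)), |g z| ≤ M) :
    ∃ p : ℂ → ℝ, ContDiff ℝ 1 p ∧
      (∀ z ∈ ball x r, ‖fderiv ℝ p z‖ ≤ 4 * M * r ∧ |p z| ≤ 4 * M * r * r) ∧
      DifferentiableOn ℂ (dz (fun z => u z - p z)) (ball x r \ K) := by
  obtain ⟨-, hU, -, hd, hc, -⟩ := h.basic
  haveI : IsFiniteMeasure (volume.restrict (ball x r)) :=
    isFiniteMeasure_restrict.2 measure_ball_lt_top.ne
  obtain ⟨f, hf⟩ : ∃ f, f = (ball x r \ K).indicator fun z => u z - g z := ⟨_, rfl⟩
  have hi : Integrable f := hf ▸ (integrable_indicator_iff hU.measurableSet).2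
    (IntegrableOn.mono_set ((h.l2.integrable one_le_two).sub (h.gm.integrable le_top)) sdiff_subset)
  have h0 : ∀ ζ, ζ ∉ ball x r → f ζ = 0 := fun ζ hζ => hf ▸ indicator_of_notMem (fun e => hζ e.1) _
  have hb : ∀ᵐ ζ, |f ζ| ≤ 2 * M := by
    filter_upwards [(ae_restrict_iff' measurableSet_ball).1 hg] with ζ hζ
    rw [hf]
    by_cases e : ζ ∈ ball x r \ K
    · rw [indicator_of_mem e]
      linarith [abs_sub (u ζ) (g ζ), hu ζ e, hζ e.1]
    · rw [indicator_of_notMem e, abs_zero]
      positivity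
  obtain ⟨p1, p2, p3⟩ := pot_c1 hi.1 hr (by positivity) hb h0
  have hw := (pot_weak hi (R := ‖x‖ + r) fun ζ hζ => h0 ζ fun e => by
    linarith [norm_sub_norm_le ζ x, mem_ball_iff_norm.1 e]).2.2.2
  have pd := p1.differentiable one_ne_zero
  have pb : ∀ z ∈ ball x r, ‖fderiv ℝ (pot f) z‖ ≤ 4 * M * r := fun z hz => by
    rw [← (norm_dz _ z).1, p2]
    linarith [p3 z hz]
  have cc : Continuous (cau f) := funext p2 ▸ (cont_Corr p1).1
  refine ⟨fun z => pot f z - pot f x, p1.sub contDiff_const, fun z hz => ⟨?_, ?_⟩, fun z hz => ?_⟩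
  · rw [fderiv_sub_const]
    exact pb z hz
  · refine ((convex_ball x r).norm_image_sub_le_of_norm_fderiv_le (fun w _ => pd w) pb
      (mem_ball_self hr) hz).trans ?_
    exact mul_le_mul_of_nonneg_left (mem_ball_iff_norm.1 hz).le (by positivity)
  obtain ⟨δ, hδ, hs⟩ := nhds_basis_closedBall.mem_iff.1 (hU.mem_nhds hz)
  have hs' : ball z δ \ ∅ ⊆ closedBall z δ := sdiff_subset.trans ball_subset_closedBall
  have int : ∀ {a : ℂ → ℂ}, ContinuousOn a (ball x r \ K) → IntegrableOn a (ball z δ \ ∅) :=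
    fun ha => ((ha.mono hs).integrableOn_compact (isCompact_closedBall z δ)).mono_set hs'
  obtain ⟨F, hF, e⟩ := EARN.weyl_off (f := fun w => dz u w - cau f w) isClosed_empty measure_empty
    hδ (int (hc.sub cc.continuousOn)) ((hc.sub cc.continuousOn).mono (hs'.trans hs))
    fun φ h1 h2 h3 => by
      have h1' : ContDiff ℝ 1 φ := h1.of_le (by exact_mod_cast le_top)
      have cg := (cont_Corr h1').2
      have zg : ∀ w, w ∉ ball z δ \ ∅ → gr φ w = 0 := fun w hw => by
        simp [gr, fderiv_of_notMem_tsupport ℝ fun e => hw ⟨h3 e, id⟩]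
      simp only [sub_mul]
      rw [integral_sub (int (hc.fun_mul cg.continuousOn)) (int (cc.fun_mul cg).continuousOn),
        ← setIntegral_eq_of_subset_of_forall_sdiff_eq_zero hU.measurableSet (hs'.trans hs)
          fun w hw => by rw [zg w hw.2, mul_zero],
        setIntegral_eq_integral_of_forall_compl_eq_zero (s := ball z δ \ ∅)
          fun w hw => by rw [zg w hw, mul_zero],
        h.el φ h1 h2 (h3.trans (ball_subset_closedBall.trans hs)), hw φ h1' h2, sub_eq_zero,
        ← integral_indicator hU.measurableSet, hf]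
      refine congrArg _ (integral_congr_ae (Eventually.of_forall fun w => ?_))
      by_cases e : w ∈ ball x r \ K
      · simp only [indicator_of_mem e]
      · simp only [indicator_of_notMem e, zero_mul, Complex.ofReal_zero]
  have hn := ball_mem_nhds z (half_pos hδ)
  refine ((hF.differentiableAt hn).congr_of_eventuallyEq ?_).differentiableWithinAt
  filter_upwards [hn, hU.mem_nhds hz] with w h1 h2
  rw [e w ⟨h1, id⟩, (EARN.gr_add (hd w h2) ((pd w).sub_const _)).2.2.2.1, ← p2]
  simp only [dz, fderiv_sub_const]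

end Vale.Agent.P128.B0
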