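import Vale.Agent.P128.B0.WG
import Vale.Agent.P128.B0.P1
import Vale.Agent.P128.EARN.Weyl

/-! P128 B0/Dec. Local decomposition. Plan: zero_wg: weyl for eta (wg_cx) gives a
holomorphic F equal to the real function eta almost everywhere, so im F = 0 everywhere (continuity),
F has zero derivative and is constant on the ball. decomp: f0 = indicator of f; weyl for
conj G - cau f0 gives F on ball (rho/2), primitive Phi0 (DifferentiableOn.isExactOn_ball); re Phi0 is
smooth with gr = conj F; eta = u - pot f0 - re Phi0 has zero weak gradient (wg_add, wg_mono,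
wg_of_lip, wg_congr). -/

namespace Vale.Agent.P128.B0

open MeasureTheory Set Metric Filter Topology
open scoped ENNReal

theorem zero_wg {η : ℂ → ℝ} {x : ℂ} {r : ℝ} (hr : 0 < r) (hi : IntegrableOn η (ball x r))
    (h : WeakGrad (ball x r) η (fun _ => 0)) :
    ∃ b : ℝ, ∀ᵐ z ∂(volume.restrict (ball x (r / 2))), η z = b := by
  obtain ⟨F, hF, h1⟩ := EARN.weyl (f := fun z => (η z : ℂ)) hr hi.ofReal fun φ p1 p2 p3 => by
    rw [wg_cx isOpen_ball h hi.locallyIntegrableOn (locallyIntegrableOn_const 0) p1 p2 p3]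
    simp
  have h2 : EqOn (fun z => (F z).im) (fun _ => 0) (ball x (r / 2)) :=
    Measure.eqOn_open_of_ae_eq (μ := volume) (h1.mono fun z hz => by simp [hz]) isOpen_ball
      (Complex.continuous_im.comp_continuousOn hF.continuousOn) continuousOn_const
  obtain ⟨c, hc⟩ := (hF.analyticOnNhd isOpen_ball).eq_const_of_im_eq_const h2 isOpen_ball
    ((convex_ball x _).isConnected (nonempty_ball.2 (half_pos hr)))
  refine ⟨c.re, ?_⟩
  filter_upwards [h1, ae_restrict_mem measurableSet_ball] with z e1 e2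
  rw [← hc z e2, e1, Complex.ofReal_re]

theorem loc_Dec {η : ℂ → ℝ} {x : ℂ} {r : ℝ} (hr : 0 < r) (hi : LocallyIntegrableOn η (ball x r))
    (h : WeakGrad (ball x r) η (fun _ => 0)) :
    ∃ b : ℝ, ∀ᵐ z ∂(volume.restrict (ball x (r / 2))), η z = b := by
  have h1 : ∀ n : ℕ, 0 < r / (n + 2) ∧ r / (n + 2) ≤ r / 2 := fun n =>
    ⟨by positivity, div_le_div_of_nonneg_left hr.le two_pos (by linarith [n.cast_nonneg (α := ℝ)])⟩
  have key : ∀ n : ℕ, ∃ b : ℝ,
      ∀ᵐ z ∂(volume.restrict (ball x ((r - r / (n + 2)) / 2))), η z = b := fun n => by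
    have h2 : closedBall x (r - r / (n + 2)) ⊆ ball x r :=
      closedBall_subset_ball (by linarith [(h1 n).1])
    exact zero_wg (by linarith [(h1 n).2])
      ((hi.integrableOn_compact_subset h2 (isCompact_closedBall _ _)).mono_set
        ball_subset_closedBall)
      (wg_mono isOpen_ball isOpen_ball (ball_subset_closedBall.trans h2) h)
  choose b hb using key
  have h3 : ∀ n, ∀ᵐ z ∂(volume.restrict (ball x (r / 4))), η z = b n := fun n =>
    ae_restrict_of_ae_restrict_of_subset (ball_subset_ball (by linarith [(h1 n).2])) (hb n)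
  have h4 : (ae (volume.restrict (ball x (r / 4)))).NeBot :=
    ae_restrict_neBot.2 (measure_ball_pos volume x (by positivity)).ne'
  have h5 : ∀ n, b n = b 0 := fun n => by
    obtain ⟨z, e1, e2⟩ := ((h3 n).and (h3 0)).exists
    exact e1.symm.trans e2
  refine ⟨b 0, ae_restrict_of_ae_restrict_of_subset (fun z hz => ?_)
    ((ae_restrict_iUnion_iff (fun n : ℕ => ball x ((r - r / (n + 2)) / 2)) _).2
      fun n => h5 n ▸ hb n)⟩
  have h6 : 0 < r - 2 * dist z x := by linarith [mem_ball.1 hz]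
  obtain ⟨n, hn⟩ := exists_nat_gt (r / (r - 2 * dist z x))
  refine mem_iUnion.2 ⟨n, mem_ball.2 ?_⟩
  have h7 : r / (n + 2) < r - 2 * dist z x := by
    rw [div_lt_iff₀ h6] at hn
    rw [div_lt_iff₀ (by positivity)]
    nlinarith
  linarith

theorem re_Dec {Φ : ℂ → ℂ} {z a : ℂ} (h : HasDerivAt Φ a z) :
    gr (fun w => (Φ w).re) z = (starRingEnd ℂ) a := by
  have h1 : HasFDerivAt (fun w => (Φ w).re) _ z :=
    Complex.reCLM.hasFDerivAt.comp z (h.hasFDerivAt.restrictScalars ℝ)
  rw [gr, h1.fderiv]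
  apply Complex.ext <;> simp

theorem int_Dec {g : ℂ → ℂ} {S : Set ℂ} (hg : IntegrableOn g S) {φ : ℂ → ℝ} (hφ : ContDiff ℝ 1 φ)
    (hc : HasCompactSupport φ) : IntegrableOn (fun z => g z * gr φ z) S := by
  obtain ⟨C, hC⟩ := (hc.fderiv ℝ).exists_bound_of_continuous (hφ.continuous_fderiv one_ne_zero)
  exact Integrable.mul_bdd (c := C) hg (EARN.measurable_gr φ).1.aestronglyMeasurable
    (Eventually.of_forall fun z => by rw [(norm_dz φ z).2.1]; exact hC z)

theorem decomp {u f : ℂ → ℝ} {G : ℂ → ℂ} {x : ℂ} {ρ : ℝ} (hρ : 0 < ρ)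
    (hu : IntegrableOn u (ball x ρ)) (hG : IntegrableOn G (ball x ρ))
    (hf : IntegrableOn f (ball x ρ)) (hw : WeakGrad (ball x ρ) u G)
    (hel : ∀ φ : ℂ → ℝ, ContDiff ℝ (⊤ : ℕ∞) φ → HasCompactSupport φ → tsupport φ ⊆ ball x ρ →
      ∫ z in ball x ρ, (starRingEnd ℂ) (G z) * gr φ z =
        -∫ z in ball x ρ, ((f z * φ z : ℝ) : ℂ)) :
    ∃ Φ : ℂ → ℂ, DifferentiableOn ℂ Φ (ball x (ρ / 2)) ∧
      ∀ᵐ z ∂(volume.restrict (ball x (ρ / 4))),
        u z = pot ((ball x ρ).indicator f) z + (Φ z).re ∧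
        (starRingEnd ℂ) (G z) = cau ((ball x ρ).indicator f) z + deriv Φ z := by
  obtain ⟨p1, p2, p3, p4⟩ := pot_weak (hf.integrable_indicator measurableSet_ball) (R := ‖x‖ + ρ)
    fun ζ hζ => indicator_of_notMem (fun h => by
      have := norm_sub_norm_le ζ x
      rw [mem_ball_iff_norm] at h
      linarith) _
  set f0 := (ball x ρ).indicator f with hf0
  have hG' : IntegrableOn (fun z => (starRingEnd ℂ) (G z)) (ball x ρ) :=
    Complex.conjCLE.integrable_comp_iff.2 hG
  have hc' : IntegrableOn (cau f0) (ball x ρ) :=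
    (p2.integrableOn_isCompact (isCompact_closedBall x ρ)).mono_set ball_subset_closedBall
  obtain ⟨F, hF, h1⟩ := EARN.weyl (f := fun z => (starRingEnd ℂ) (G z) - cau f0 z) hρ (hG'.sub hc')
    fun φ q1 q2 q3 => by
      have q4 : ContDiff ℝ 1 φ := q1.of_le (by simp)
      simp only [sub_mul]
      rw [integral_sub (int_Dec hG' q4 q2) (int_Dec hc' q4 q2), hel φ q1 q2 q3,
        setIntegral_eq_integral_of_forall_compl_eq_zero (f := fun z => cau f0 z * gr φ z)
          fun z hz => by simp [gr, fderiv_of_notMem_tsupport ℝ fun h => hz (q3 h)],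
        p4 φ q4 q2, ← integral_indicator measurableSet_ball, sub_eq_zero]
      congr 2
      funext z
      by_cases hz : z ∈ ball x ρ <;> simp [hf0, hz]
  obtain ⟨Φ, hΦ⟩ := hF.isExactOn_ball
  have hd : DifferentiableOn ℂ Φ (ball x (ρ / 2)) := fun z hz =>
    (hΦ z hz).differentiableAt.differentiableWithinAt
  have hs : ball x (ρ / 2) ⊆ ball x ρ := ball_subset_ball (by linarith)
  have hl : LocallyLipschitzOn (ball x (ρ / 2)) fun w => (Φ w).re := fun z hz => by
    have h2 : ContDiffAt ℝ 1 (fun w => (Φ w).re) z := Complex.reCLM.contDiff.contDiffAt.comp z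
      ((hd.analyticAt (isOpen_ball.mem_nhds hz)).contDiffAt.restrict_scalars ℝ)
    obtain ⟨K, t, h3, h4⟩ := h2.exists_lipschitzOnWith
    exact ⟨K, t, mem_nhdsWithin_of_mem_nhds h3, h4⟩
  have i1 : LocallyIntegrableOn u (ball x (ρ / 2)) := (hu.mono_set hs).locallyIntegrableOn
  have i2 : LocallyIntegrableOn (pot f0) (ball x (ρ / 2)) := p1.locallyIntegrableOn _
  have i3 : LocallyIntegrableOn G (ball x (ρ / 2)) := (hG.mono_set hs).locallyIntegrableOn
  have i4 : LocallyIntegrableOn (fun z => (starRingEnd ℂ) (cau f0 z)) (ball x (ρ / 2)) :=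
    IntegrableOn.locallyIntegrableOn (Complex.conjCLE.integrable_comp_iff.2 (hc'.mono_set hs))
  have i5 : LocallyIntegrableOn (fun w => (Φ w).re) (ball x (ρ / 2)) :=
    hl.continuousOn.locallyIntegrableOn measurableSet_ball
  have i6 : LocallyIntegrableOn (fun z => (starRingEnd ℂ) (F z)) (ball x (ρ / 2)) :=
    (Complex.continuous_conj.comp_continuousOn hF.continuousOn).locallyIntegrableOn
      measurableSet_ball
  have i7 : LocallyIntegrableOn (fun z => u z + -1 * pot f0 z) (ball x (ρ / 2)) :=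
    i1.add (i2.smul (-1 : ℝ))
  have w1 := wg_add isOpen_ball (wg_mono isOpen_ball isOpen_ball hs hw)
    (wg_mono isOpen_univ isOpen_ball (subset_univ _) p3) i1 i2 i3 i4 (-1)
  have w2 : WeakGrad (ball x (ρ / 2)) (fun w => (Φ w).re) fun z => (starRingEnd ℂ) (F z) :=
    wg_congr (wg_of_lip isOpen_ball hl) (Eventually.of_forall fun _ => rfl)
      ((ae_restrict_mem measurableSet_ball).mono fun z hz => (re_Dec (hΦ z hz)).symm)
  have w3 := wg_add isOpen_ball w1 w2 i7 i5 (i3.add (i4.smul ((-1 : ℝ) : ℂ))) i6 (-1)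
  obtain ⟨b, hb⟩ := loc_Dec (half_pos hρ) (i7.add (i5.smul (-1 : ℝ)))
    (wg_congr w3 (Eventually.of_forall fun _ => rfl) (h1.mono fun z hz => by
      rw [hz, map_sub, Complex.conj_conj]
      push_cast
      ring))
  rw [show ρ / 2 / 2 = ρ / 4 by ring] at hb
  have hs' : ball x (ρ / 4) ⊆ ball x (ρ / 2) := ball_subset_ball (by linarith)
  refine ⟨fun z => Φ z + b, hd.add_const _, ?_⟩
  filter_upwards [hb, ae_restrict_of_ae_restrict_of_subset hs' h1,
    ae_restrict_mem measurableSet_ball] with z e1 e2 e3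
  have e4 : u z + -1 * pot f0 z + -1 * (Φ z).re = b := e1
  rw [((hΦ z (hs' e3)).add_const _).deriv, e2, Complex.add_re, Complex.ofReal_re]
  exact ⟨by linarith, by ring⟩

end Vale.Agent.P128.B0
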