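import Vale.Agent.P128.EARN.Calc
import Vale.Agent.P128.TB.Main

/-! P128 B0/Defs. Definitions for the block B0 (from minimizers to almost minimizers). -/

namespace Vale.Agent.P128.B0

open MeasureTheory Set Metric Filter Topology
open scoped ENNReal

noncomputable section

/-- The fidelity term. -/
def Fid (g w : ℂ → ℝ) (S : Set ℂ) : ℝ≥0∞ := ∫⁻ z in S, ‖w z - g z‖ₑ ^ 2

/-- Classical minimizer: `u` is `C^1` off the closed set `K`, `f = u - g` is its Laplacian in the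
weak sense off `K`, and it beats all locally Lipschitz competitors. -/
structure CM (Ω : Set ℂ) (g u : ℂ → ℝ) (K : Set ℂ) : Prop where
  isOpen : IsOpen Ω
  closed : IsClosed K
  fin : μH[1] K < ∞
  c1 : ContDiffOn ℝ 1 u (Ω \ K)
  dir : Dir u (Ω \ K) < ∞
  l2 : MemLp u 2 (volume.restrict Ω)
  gm : MemLp g ∞ (volume.restrict Ω)
  el : ∀ φ : ℂ → ℝ, ContDiff ℝ (⊤ : ℕ∞) φ → HasCompactSupport φ → tsupport φ ⊆ Ω \ K →
    ∫ z in Ω \ K, dz u z * gr φ z = -∫ z in Ω \ K, (((u z - g z) * φ z : ℝ) : ℂ)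
  min : ∀ y t w L, 0 < t → closedBall y t ⊆ Ω → Comp Ω False u K y t w L →
    En u K (closedBall y t) + Fid g u (closedBall y t) ≤
      En w L (closedBall y t) + Fid g w (closedBall y t)

/-- The logarithmic potential. -/
def pot (f : ℂ → ℝ) (z : ℂ) : ℝ := (2 * Real.pi)⁻¹ * ∫ ζ, f ζ * Real.log ‖z - ζ‖

/-- The Cauchy transform. -/
def cau (f : ℂ → ℝ) (z : ℂ) : ℂ := ((2 * Real.pi)⁻¹ : ℝ) * ∫ ζ, (f ζ : ℂ) * (z - ζ)⁻¹

/-- The weak equation in the plane. -/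
def WEc (O : Set ℂ) (u f : ℂ → ℝ) : Prop :=
  ∀ φ : ℂ → ℝ, ContDiff ℝ (⊤ : ℕ∞) φ → HasCompactSupport φ → tsupport φ ⊆ O →
    ∫ z, EARN.lap φ z * u z = ∫ z, φ z * f z

/-- Truncation at height `M`. -/
def clamp (M t : ℝ) : ℝ := max (-M) (min M t)

end

end Vale.Agent.P128.B0
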