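import Vale.Agent.P128.B0.Clamp

/-! P128 B0/EL. Outer variation and energy bound for classical minimizers. Plan: el: C lies in
closedBall x t, t < r; competitor u + s psi, same K; expand the squares (dir_eq, locLip_ae_diff;
compare TA2/OfMin). upper: circle competitor of TA2/Upper (comp_sphere), fidelity of the zero
function at most pi M^2 t^2. -/

namespace Vale.Agent.P128.B0

open MeasureTheory Set Metric Filter Topology
open scoped ENNReal

theorem fid_EL (g w : ℂ → ℝ) (S : Set ℂ) :
    Fid g w S = ∫⁻ z in S, ENNReal.ofReal ((w z - g z) ^ 2) := by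
  simp only [Fid, Real.enorm_eq_ofReal_abs, ← ENNReal.ofReal_pow (abs_nonneg _), sq_abs]

theorem sum_EL (g w : ℂ → ℝ) (S : Set ℂ) : Dir w S + Fid g w S =
    ∫⁻ z in S, ENNReal.ofReal (‖fderiv ℝ w z‖ ^ 2 + (w z - g z) ^ 2) := by
  rw [ofm_dir, fid_EL,
    ← lintegral_add_left ((measurable_fderiv ℝ w).norm.pow_const 2).ennreal_ofReal]
  exact lintegral_congr fun z => (ENNReal.ofReal_add (sq_nonneg _) (sq_nonneg _)).symm

theorem quad_EL {μ : Measure ℂ} {A B C : ℂ → ℝ} {F : ℝ → ℂ → ℝ} (iA : Integrable A μ)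
    (iB : Integrable B μ) (iC : Integrable C μ) (hA : ∀ z, 0 ≤ A z) (hF0 : ∀ t z, 0 ≤ F t z)
    (hF : ∀ t, F t =ᵐ[μ] fun z => A z + 2 * t * B z + t ^ 2 * C z)
    (h : ∀ t, ∫⁻ z, ENNReal.ofReal (A z) ∂μ ≤ ∫⁻ z, ENNReal.ofReal (F t z) ∂μ) :
    ∫ z, B z ∂μ = 0 := by
  have key : ∀ t : ℝ, 0 ≤ (∫ z, C z ∂μ) * (t * t) + (2 * ∫ z, B z ∂μ) * t + 0 := fun t => by
    have i1 : Integrable (fun z => A z + 2 * t * B z) μ := iA.add (iB.const_mul _)
    have i2 := iC.const_mul (t ^ 2)
    have i3 : Integrable (F t) μ := (i1.add i2).congr (hF t).symm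
    have h1 := h t
    rw [← ofReal_integral_eq_lintegral_ofReal iA (Eventually.of_forall hA),
      ← ofReal_integral_eq_lintegral_ofReal i3 (Eventually.of_forall (hF0 t)),
      ENNReal.ofReal_le_ofReal_iff (integral_nonneg (hF0 t)), integral_congr_ae (hF t),
      integral_add i1 i2, integral_add iA (iB.const_mul _), integral_const_mul,
      integral_const_mul] at h1
    linarith
  have h2 := discrim_le_zero key
  rw [discrim] at h2
  nlinarith [sq_nonneg (∫ z, B z ∂μ)]

/-- The competitor that cuts along the circle vanishes in the closed ball. -/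
theorem sphere_EL {Ω K : Set ℂ} {u : ℂ → ℝ} (hΩ : IsOpen Ω) (hK : IsClosed K)
    (hu : LocallyLipschitzOn (Ω \ K) u) (y : ℂ) {r : ℝ} (hr : 0 < r) :
    ∃ w L, Comp Ω False u K y r w L ∧ (∀ z ∈ closedBall y r, w z = 0) ∧
      En w L (closedBall y r) ≤ ENNReal.ofReal (2 * Real.pi * r) := by
  classical
  have hL : IsClosed ((K \ ball y r) ∪ sphere y r) :=
    (hK.sdiff isOpen_ball).union isClosed_sphere
  refine ⟨fun z => if z ∈ closedBall y r then 0 else u z, (K \ ball y r) ∪ sphere y r,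
    ⟨hL, ?_, ?_, ?_, False.elim⟩, fun z hz => if_pos hz, ?_⟩
  · ext z
    constructor
    · rintro ⟨h1 | h1, h2⟩
      · exact ⟨h1.1, h2⟩
      · exact absurd (sphere_subset_closedBall h1) h2
    · rintro ⟨h1, h2⟩
      exact ⟨Or.inl ⟨h1, fun h3 => h2 (ball_subset_closedBall h3)⟩, h2⟩
  · intro z _ hz
    exact if_neg hz
  · refine (locLip_iff (hΩ.sdiff hL)).2 fun z hz => ?_
    rcases upp_cases hz.2 with h1 | ⟨h1, h2⟩
    · exact (lipAt_const 0 z).congr (upp_in u h1)
    · exact ((locLip_iff (hΩ.sdiff hK)).1 hu z ⟨hz.1, h2⟩).congr (upp_out u h1)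
  · have e1 : closedBall y r \ ((K \ ball y r) ∪ sphere y r) ⊆ ball y r := by
      intro z hz
      rcases upp_cases hz.2 with h1 | ⟨h1, -⟩
      · exact h1
      · exact absurd hz.1 h1
    have e2 : ((K \ ball y r) ∪ sphere y r) ∩ closedBall y r ⊆ sphere y r := by
      rintro z ⟨h1 | h1, h2⟩
      · exact mem_sphere.2 (le_antisymm (mem_closedBall.1 h2) (not_lt.1 fun h3 => h1.2 h3))
      · exact h1
    have e3 : Dir (fun z => if z ∈ closedBall y r then 0 else u z) (ball y r) = 0 := by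
      unfold Dir
      refine (setLIntegral_congr_fun measurableSet_ball (g := fun _ => 0) fun z hz => ?_).trans
        lintegral_zero
      simp only [(upp_in u hz).fderiv_eq, fderiv_fun_const, Pi.zero_apply]
      rw [← ofReal_norm, norm_zero]
      simp
    have e4 : Dir (fun z => if z ∈ closedBall y r then 0 else u z)
        (closedBall y r \ ((K \ ball y r) ∪ sphere y r)) = 0 :=
      le_antisymm ((lintegral_mono_set e1).trans e3.le) zero_le
    unfold En
    rw [e4, zero_add]
    exact (measure_mono e2).trans (len_sphere y hr.le)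

theorem CM.outer {x : ℂ} {r : ℝ} {g u : ℂ → ℝ} {K : Set ℂ} (h : CM (ball x r) g u K)
    {ψ : ℂ → ℝ} {C : Set ℂ} (hC : IsCompact C) (hCs : C ⊆ ball x r) (h0 : ∀ z, z ∉ C → ψ z = 0)
    (hl : LocallyLipschitzOn (ball x r \ K) ψ) (hb : ∃ M, ∀ z, |ψ z| ≤ M)
    (hf : Dir ψ (ball x r \ K) < ∞) :
    ∫ z in ball x r \ K, fderiv ℝ ψ z (gr u z) = -∫ z in ball x r \ K, (u z - g z) * ψ z := by
  rcases le_or_gt r 0 with hr | hr
  · simp [ball_eq_empty.2 hr]
  obtain ⟨t, ⟨ht0, htr⟩, hCt⟩ := exists_pos_lt_subset_ball hr hC.isClosed hCs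
  replace hCt : C ⊆ closedBall x t := hCt.trans ball_subset_closedBall
  have hB : closedBall x t ⊆ ball x r := closedBall_subset_ball htr
  obtain ⟨hK0, hU, hlip, hd, -, -, hfin⟩ := h.basic
  obtain ⟨hE, hF⟩ := hfin x t hB
  obtain ⟨f1, f2⟩ := ENNReal.add_ne_top.1 hE.ne
  obtain ⟨M, hM⟩ := hb
  have hS : closedBall x t \ K ⊆ ball x r \ K := sdiff_subset_sdiff_left hB
  have hSm : MeasurableSet (closedBall x t \ K) :=
    measurableSet_closedBall.diff h.closed.measurableSet
  have hfid : ∀ w, Fid g w (closedBall x t) = Fid g w (closedBall x t \ K) := fun w =>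
    (setLIntegral_congr (sdiff_null_ae_eq_self hK0)).symm
  have hle : volume.restrict (closedBall x t \ K) ≤ volume.restrict (ball x r) :=
    Measure.restrict_mono (sdiff_subset.trans hB) le_rfl
  have mug : AEStronglyMeasurable (fun z => u z - g z) (volume.restrict (closedBall x t \ K)) :=
    (h.l2.1.sub h.gm.1).mono_measure hle
  have mψ : AEStronglyMeasurable ψ (volume.restrict (closedBall x t \ K)) :=
    (hl.continuousOn.mono hS).aestronglyMeasurable hSm
  have iA := ofm_int f1
  have iC := ofm_int (ne_top_of_le_ne_top hf.ne (lintegral_mono_set hS))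
  have iB : Integrable (fun z => fderiv ℝ ψ z (gr u z)) (volume.restrict (closedBall x t \ K)) := by
    refine (iA.add iC).mono' (ofm_meas u ψ).aestronglyMeasurable
      (Eventually.of_forall fun z => ?_)
    have h1 := (fderiv ℝ ψ z).le_opNorm (gr u z)
    rw [(norm_dz u z).2.1] at h1
    simp only [Pi.add_apply]
    nlinarith [sq_nonneg (‖fderiv ℝ u z‖ - ‖fderiv ℝ ψ z‖), sq_nonneg ‖fderiv ℝ u z‖,
      sq_nonneg ‖fderiv ℝ ψ z‖]
  have iP : Integrable (fun z => (u z - g z) ^ 2) (volume.restrict (closedBall x t \ K)) := by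
    rw [hfid, fid_EL] at hF
    exact (lintegral_ofReal_ne_top_iff_integrable (mug.pow 2)
      (Eventually.of_forall fun z => sq_nonneg _)).1 hF.ne
  have iR : Integrable (fun z => ψ z ^ 2) (volume.restrict (closedBall x t \ K)) := by
    refine Integrable.mono' (integrableOn_const (C := M ^ 2)
      ((measure_mono sdiff_subset).trans_lt measure_closedBall_lt_top).ne) (mψ.pow 2)
      (Eventually.of_forall fun z => ?_)
    rw [norm_pow]
    exact pow_le_pow_left₀ (norm_nonneg _) (hM z) 2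
  have iQ : Integrable (fun z => (u z - g z) * ψ z) (volume.restrict (closedBall x t \ K)) := by
    refine (iP.add iR).mono' (mug.mul mψ) (Eventually.of_forall fun z => ?_)
    simp only [Pi.add_apply]
    rw [Real.norm_eq_abs, abs_le]
    constructor <;> nlinarith [sq_nonneg (u z - g z - ψ z), sq_nonneg (u z - g z + ψ z)]
  have h1 := quad_EL (F := fun s z => ‖fderiv ℝ (fun w => u w + s * ψ w) z‖ ^ 2 +
      (u z + s * ψ z - g z) ^ 2) (iA.add iP) (iB.add iQ) (iC.add iR)
    (fun z => add_nonneg (sq_nonneg _) (sq_nonneg _))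
    (fun s z => add_nonneg (sq_nonneg _) (sq_nonneg _)) (fun s => ?_) fun s => ?_
  · simp only [Pi.add_apply] at h1
    rw [integral_add iB iQ] at h1
    rw [setIntegral_eq_of_subset_of_forall_sdiff_eq_zero hU.measurableSet hS fun z hz => ?_,
      setIntegral_eq_of_subset_of_forall_sdiff_eq_zero (f := fun z => (u z - g z) * ψ z)
        hU.measurableSet hS fun z hz => ?_]
    · linarith
    · rw [h0 z fun h => hz.2 ⟨hCt h, hz.1.2⟩, mul_zero]
    · have h2 : z ∉ C := fun h => hz.2 ⟨hCt h, hz.1.2⟩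
      have h3 : ψ =ᶠ[𝓝 z] fun _ => 0 := by
        filter_upwards [hC.isClosed.isOpen_compl.mem_nhds h2] with y hy using h0 y hy
      rw [h3.fderiv_eq]
      simp
  · filter_upwards [ae_restrict_of_ae_restrict_of_subset hS (locLip_ae_diff hU hl),
      ae_restrict_mem hSm] with z hz hz'
    simp only [Pi.add_apply]
    rw [ofm_sq (hd z (hS hz')) hz s]
    ring
  · have h2 := h.min x t (fun w => u w + s * ψ w) K ht0 hB
      ⟨h.closed, rfl, fun z _ hz => by rw [h0 z fun h => hz (hCt h), mul_zero, add_zero],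
        (locLip_iff hU).2 fun z hz =>
          ((locLip_iff hU).1 hlip z hz).add (((locLip_iff hU).1 hl z hz).cmul s), False.elim⟩
    unfold En at h2
    rw [hfid, hfid, add_right_comm, add_right_comm (Dir (fun w => u w + s * ψ w) _), sum_EL,
      sum_EL] at h2
    exact (ENNReal.add_le_add_iff_right f2).1 h2

theorem CM.upper {Ω : Set ℂ} {g u : ℂ → ℝ} {K : Set ℂ} (h : CM Ω g u K) {M : ℝ}
    (hg : ∀ᵐ z ∂(volume.restrict Ω), |g z| ≤ M) {y : ℂ} {t : ℝ} (ht : 0 < t)
    (hB : closedBall y t ⊆ Ω) :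
    En u K (closedBall y t) ≤ ENNReal.ofReal (7 * t + 4 * M ^ 2 * t ^ 2) := by
  obtain ⟨w, L, hC, hw, hE⟩ := sphere_EL h.isOpen h.closed h.basic.2.2.1 y ht
  have h1 : Fid g w (closedBall y t) ≤ ENNReal.ofReal (M ^ 2 * (t ^ 2 * Real.pi)) := by
    have h2 : Fid g w (closedBall y t) ≤ ∫⁻ _ in closedBall y t, ENNReal.ofReal (M ^ 2) := by
      rw [fid_EL]
      refine lintegral_mono_ae ?_
      filter_upwards [ae_restrict_of_ae_restrict_of_subset hB hg,
        ae_restrict_mem measurableSet_closedBall] with z hz hz'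
      rw [hw z hz', zero_sub, neg_sq, ← sq_abs]
      exact ENNReal.ofReal_le_ofReal (pow_le_pow_left₀ (abs_nonneg _) hz 2)
    rw [setLIntegral_const, Complex.volume_closedBall] at h2
    rw [ENNReal.ofReal_mul (sq_nonneg M), ENNReal.ofReal_mul (sq_nonneg t),
      ENNReal.ofReal_pow ht.le, ← NNReal.coe_real_pi, ENNReal.ofReal_coe_nnreal]
    exact h2
  refine (le_self_add.trans (h.min y t w L ht hB hC)).trans ((add_le_add hE h1).trans ?_)
  rw [← ENNReal.ofReal_add (by positivity) (by positivity)]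
  refine ENNReal.ofReal_le_ofReal ?_
  have h3 := Real.pi_lt_d2
  have h4 : 0 ≤ M ^ 2 * t ^ 2 := by positivity
  nlinarith

end Vale.Agent.P128.B0
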