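import Vale.Agent.P128.B0.WG

/-! P128 B0/EL0. Euler-Lagrange equation for smooth tests. Plan: competitor
(u + t phi, G + t gr phi, K) (wg_add, wg_of_lip), V a bounded open neighbourhood of tsupport phi
with closure in Omega (thickening), C = tsupport phi; the energies are finite, expand the squares:
0 <= 2 t A + t^2 B for all real t gives A = 0; wg_curl. -/

namespace Vale.Agent.P128.B0

open MeasureTheory Set Metric Filter Topology
open scoped ENNReal

section

variable {E : Type} [NormedAddCommGroup E]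

theorem li_EL0 {f : ℂ → E} {U : Set ℂ} (hU : IsOpen U) (hf : MemLp f 2 (volume.restrict U)) :
    LocallyIntegrableOn f U := by
  refine (locallyIntegrableOn_iff hU.isLocallyClosed).2 fun k hk hc => ?_
  haveI : IsFiniteMeasure (volume.restrict k) := isFiniteMeasure_restrict.2 hc.measure_lt_top.ne
  exact (hf.mono_measure (Measure.restrict_mono_set _ hk)).integrable (by norm_num)

theorem lint_EL0 {μ : Measure ℂ} {f : ℂ → E} (hf : MemLp f 2 μ) :
    ∫⁻ z, ‖f z‖ₑ ^ 2 ∂μ = ENNReal.ofReal (∫ z, ‖f z‖ ^ 2 ∂μ) := by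
  rw [ofReal_integral_eq_lintegral_ofReal hf.norm.integrable_sq
    (Eventually.of_forall fun z => sq_nonneg _)]
  exact lintegral_congr fun z => by rw [ENNReal.ofReal_pow (norm_nonneg _), ofReal_norm]

theorem quad_EL0 [InnerProductSpace ℝ E] {μ : Measure ℂ} {a b : ℂ → E} (ha : MemLp a 2 μ)
    (hb : MemLp b 2 μ) (t : ℝ) : ∫ z, ‖a z + t • b z‖ ^ 2 ∂μ =
      ∫ z, ‖a z‖ ^ 2 ∂μ + 2 * t * ∫ z, inner ℝ (a z) (b z) ∂μ + t ^ 2 * ∫ z, ‖b z‖ ^ 2 ∂μ := by
  have hi : Integrable (fun z => inner ℝ (a z) (b z)) μ :=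
    (ha.norm.integrable_mul hb.norm).mono' (ha.1.inner hb.1)
      (Eventually.of_forall fun z => norm_inner_le_norm _ _)
  have h1 : Integrable (fun z => ‖a z‖ ^ 2 + 2 * t * inner ℝ (a z) (b z)) μ :=
    ha.norm.integrable_sq.add (hi.const_mul _)
  rw [← integral_const_mul, ← integral_const_mul,
    ← integral_add ha.norm.integrable_sq (hi.const_mul _),
    ← integral_add h1 (hb.norm.integrable_sq.const_mul _)]
  refine integral_congr_ae (Eventually.of_forall fun z => ?_)
  simp only [norm_add_sq_real, real_inner_smul_right, norm_smul, mul_pow, Real.norm_eq_abs, sq_abs]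
  ring

end

theorem lin_EL0 {A B : ℝ} (h : ∀ t : ℝ, 0 ≤ 2 * t * A + t ^ 2 * B) : A = 0 := by
  have h1 := h (-A / (|B| + 1))
  have h2 : 0 < |B| + 1 := by positivity
  have e : 2 * (-A / (|B| + 1)) * A + (-A / (|B| + 1)) ^ 2 * B =
      A ^ 2 * (B - 2 * (|B| + 1)) / (|B| + 1) ^ 2 := by
    field_simp
    ring
  rw [e, le_div_iff₀ (by positivity), zero_mul] at h1
  have h3 : B - 2 * (|B| + 1) < 0 := by linarith [le_abs_self B, abs_nonneg B]
  exact pow_eq_zero_iff two_ne_zero |>.1
    (le_antisymm (nonpos_of_mul_nonneg_left h1 h3) (sq_nonneg A))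

theorem cancel_EL0 {a b c d : ℝ} {m : ℝ≥0∞} (hm : m ≠ ∞) (ha : 0 ≤ a) (hb : 0 ≤ b) (hc : 0 ≤ c)
    (hd : 0 ≤ d) (h : ENNReal.ofReal a + m + ENNReal.ofReal b ≤
      ENNReal.ofReal c + m + ENNReal.ofReal d) : a + b ≤ c + d := by
  rw [add_right_comm, add_right_comm _ m, ENNReal.add_le_add_iff_right hm,
    ← ENNReal.ofReal_add ha hb, ← ENNReal.ofReal_add hc hd] at h
  exact (ENNReal.ofReal_le_ofReal_iff (add_nonneg hc hd)).1 h

theorem el0 {Ω : Set ℂ} (hΩ : IsOpen Ω) {g u : ℂ → ℝ} {G : ℂ → ℂ} {K : Set ℂ}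
    (hg : MemLp g ∞ (volume.restrict Ω)) (hmin : Minimizer Ω g u G K) {φ : ℂ → ℝ}
    (hφ : ContDiff ℝ (⊤ : ℕ∞) φ) (hc : HasCompactSupport φ) (hs : tsupport φ ⊆ Ω \ K) :
    ∫ z in Ω \ K, (starRingEnd ℂ) (G z) * gr φ z =
      -∫ z in Ω \ K, (((u z - g z) * φ z : ℝ) : ℂ) := by
  have ad := hmin.adm
  have hU := ad.relClosed
  obtain ⟨V, hV, hCV, hVU, hVc⟩ := exists_open_between_and_isCompact_closure hc hU hs
  have hVU' : V ⊆ Ω \ K := subset_closure.trans hVU
  have hVΩ : V ⊆ Ω := hVU'.trans diff_subset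
  have z0 : ∀ z, z ∉ tsupport φ → φ z = 0 := fun z hz => image_eq_zero_of_notMem_tsupport hz
  have z1 : ∀ z, z ∉ tsupport φ → gr φ z = 0 := fun z hz => by
    have : fderiv ℝ φ z = 0 := Function.notMem_support.1 fun h => hz (support_fderiv_subset ℝ h)
    simp [gr, this]
  have gc : Continuous (gr φ) :=
    continuousOn_univ.1 (EARN.contDiffOn_gr isOpen_univ hφ.contDiffOn).1.continuousOn
  have l1 : MemLp φ 2 volume := hφ.continuous.memLp_of_hasCompactSupport hc
  have l2 : MemLp (gr φ) 2 volume := gc.memLp_of_hasCompactSupport (HasCompactSupport.intro hc z1)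
  have u2 : MemLp u 2 (volume.restrict (Ω \ K)) :=
    ad.memL2.mono_measure (Measure.restrict_mono_set _ diff_subset)
  haveI : IsFiniteMeasure (volume.restrict V) := isFiniteMeasure_restrict.2
    ((measure_mono subset_closure).trans_lt hVc.measure_lt_top).ne
  have a1 : MemLp G 2 (volume.restrict (V \ K)) :=
    ad.gradL2.mono_measure (Measure.restrict_mono_set _ (diff_subset_diff_left hVΩ))
  have a2 : MemLp (fun z => u z - g z) 2 (volume.restrict V) :=
    (ad.memL2.mono_measure (Measure.restrict_mono_set _ hVΩ)).sub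
      ((hg.mono_measure (Measure.restrict_mono_set _ hVΩ)).mono_exponent le_top)
  have key : (∫ z in V \ K, inner ℝ (G z) (gr φ z)) + ∫ z in V, inner ℝ (u z - g z) (φ z) = 0 := by
    refine lin_EL0 (B := (∫ z in V \ K, ‖gr φ z‖ ^ 2) + ∫ z in V, ‖φ z‖ ^ 2) fun t => ?_
    have ad' : Admissible Ω (fun z => u z + t * φ z) (fun z => G z + (t : ℂ) * gr φ z) K :=
      ⟨ad.sub, hU, ad.finite, ad.memL2.add ((l1.restrict Ω).const_mul t),
        ad.gradL2.add ((l2.restrict _).const_mul (t : ℂ)),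
        wg_add hU ad.weak (wg_of_lip hU
          ((hφ.of_le (m := 1) (by simp)).locallyLipschitz.locallyLipschitzOn)) (li_EL0 hU u2)
          (li_EL0 hU (l1.restrict _)) (li_EL0 hU ad.gradL2) (li_EL0 hU (l2.restrict _)) t⟩
    have h1 := hmin.min V hV hVc (hVU.trans diff_subset) _ _ K ad' (tsupport φ) hc hCV (by simp)
      ((ae_restrict_mem (hΩ.measurableSet.diff (isClosed_tsupport φ).measurableSet)).mono
        fun z hz => by simp [z0 z hz.2])
    have e1 : ∀ z, G z + (t : ℂ) * gr φ z = G z + t • gr φ z := fun z => by simp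
    have e2 : ∀ z, u z + t * φ z - g z = u z - g z + t • φ z := fun z => by
      rw [smul_eq_mul]
      ring
    have b1 : MemLp (fun z => G z + t • gr φ z) 2 (volume.restrict (V \ K)) :=
      a1.add ((l2.restrict _).const_smul t)
    have b2 : MemLp (fun z => u z - g z + t • φ z) 2 (volume.restrict V) :=
      a2.add ((l1.restrict _).const_smul t)
    simp only [energy, e1, e2] at h1
    rw [lint_EL0 a1, lint_EL0 a2, lint_EL0 b1, lint_EL0 b2] at h1
    have h2 := cancel_EL0 ((measure_mono inter_subset_left).trans_lt ad.finite).ne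
      (integral_nonneg fun _ => sq_nonneg _) (integral_nonneg fun _ => sq_nonneg _)
      (integral_nonneg fun _ => sq_nonneg _) (integral_nonneg fun _ => sq_nonneg _) h1
    rw [quad_EL0 a1 (l2.restrict _), quad_EL0 a2 (l1.restrict _)] at h2
    linarith
  have s1 : ∫ z in Ω \ K, inner ℝ (G z) (gr φ z) = ∫ z in V \ K, inner ℝ (G z) (gr φ z) :=
    setIntegral_eq_of_subset_of_forall_diff_eq_zero hU.measurableSet (diff_subset_diff_left hVΩ)
      fun z hz => by rw [z1 z fun h => hz.2 ⟨hCV h, hz.1.2⟩, inner_zero_right]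
  have s2 : ∫ z in Ω \ K, (u z - g z) * φ z = ∫ z in V, inner ℝ (u z - g z) (φ z) := by
    rw [setIntegral_eq_of_subset_of_forall_diff_eq_zero hU.measurableSet hVU'
      fun z hz => by rw [z0 z fun h => hz.2 (hCV h), mul_zero]]
    exact integral_congr_ae (Eventually.of_forall fun z => by simp [mul_comm])
  rw [wg_curl hU ad.weak (li_EL0 hU ad.gradL2) hφ hc hs, integral_complex_ofReal, s1, s2,
    ← Complex.ofReal_neg, Complex.ofReal_inj]
  linarith

end Vale.Agent.P128.B0
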