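import Vale.Agent.P128.B0.Weak

/-! P128 B0/EL  (helper names end with _EL)

The Euler-Lagrange equation.  `K` is null (`vol_zero_of_len`), so `volume.restrict Ω = volume.restrict (Ω \ K)`.  Competitor `(u + t ψ, G + t gr ψ, K)` (`weakGrad_of_locLip`, `wg_add`, `EARN.dir_eq`; `ψ` is continuous on `Ω \ K`, bounded, zero off `C`, so it is in `L²`),
`V` from `exists_open_between_and_isCompact_closure`.  With `energy_eq` the minimality reads `0 ≤ 2 t I + t ^ 2 J` for all real `t`; `gr ψ = 0` off the closed set `C`, so the integrals over `V \ K` and `Ω \ K` agree.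
-/

namespace Vale.Agent.P128.B0

open MeasureTheory Set Metric Filter Topology
open scoped ENNReal

noncomputable section

variable {Ω K V C : Set ℂ} {g u w ψ : ℂ → ℝ} {G H : ℂ → ℂ}

theorem restrict_eq (h : Admissible Ω u G K) : volume.restrict (Ω \ K) = volume.restrict Ω := by
  exact Measure.restrict_congr_set (sdiff_null_ae_eq_self (vol_zero_of_len h.finite))

theorem fid_mem (hg : MemLp g ∞ (volume.restrict Ω)) (hu : MemLp u 2 (volume.restrict Ω))
    (hV : MeasurableSet V) (hVΩ : V ⊆ Ω) (hf : volume V < ∞) :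
    MemLp (fun z => u z - g z) 2 (volume.restrict V) := by
  have : IsFiniteMeasure (volume.restrict V) := isFiniteMeasure_restrict.2 hf.ne
  exact (hu.mono_measure (Measure.restrict_mono hVΩ le_rfl)).sub
    ((hg.mono_measure (Measure.restrict_mono hVΩ le_rfl)).mono_exponent le_top)

theorem sq_EL {F : Type} [NormedAddCommGroup F] {f : ℂ → F} {μ : Measure ℂ} (h : MemLp f 2 μ) :
    ∫⁻ z, ‖f z‖ₑ ^ 2 ∂μ = ENNReal.ofReal (∫ z, ‖f z‖ ^ 2 ∂μ) := by
  rw [ofReal_integral_eq_lintegral_ofReal ((memLp_two_iff_integrable_sq_norm h.1).1 h)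
    (Eventually.of_forall fun z => sq_nonneg _)]
  exact lintegral_congr fun z => by rw [ENNReal.ofReal_pow (norm_nonneg _), ofReal_norm]

theorem exp_EL {F : Type} [NormedAddCommGroup F] [InnerProductSpace ℝ F] {f h : ℂ → F}
    {μ : Measure ℂ} (hf : MemLp f 2 μ) (hh : MemLp h 2 μ) :
    Integrable (fun z => inner ℝ (f z) (h z)) μ ∧ ∀ t : ℝ, ∫ z, ‖f z + t • h z‖ ^ 2 ∂μ =
      ∫ z, ‖f z‖ ^ 2 ∂μ + (2 * t * ∫ z, inner ℝ (f z) (h z) ∂μ + t ^ 2 * ∫ z, ‖h z‖ ^ 2 ∂μ) := by
  have i1 := (memLp_two_iff_integrable_sq_norm hf.1).1 hf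
  have i2 := (memLp_two_iff_integrable_sq_norm hh.1).1 hh
  have i3 : Integrable (fun z => inner ℝ (f z) (h z)) μ :=
    (i1.add i2).mono' (hf.1.inner hh.1) (Eventually.of_forall fun z => by
      have := norm_inner_le_norm (𝕜 := ℝ) (f z) (h z)
      have := mul_nonneg (norm_nonneg (f z)) (norm_nonneg (h z))
      simp only [Pi.add_apply]
      nlinarith [sq_nonneg (‖f z‖ - ‖h z‖)])
  refine ⟨i3, fun t => ?_⟩
  have i4 : Integrable (fun z => 2 * t * inner ℝ (f z) (h z) + t ^ 2 * ‖h z‖ ^ 2) μ :=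
    (i3.const_mul _).add (i2.const_mul _)
  rw [← integral_const_mul, ← integral_const_mul,
    ← integral_add (i3.const_mul _) (i2.const_mul _), ← integral_add i1 i4]
  refine integral_congr_ae (Eventually.of_forall fun z => ?_)
  simp only [norm_add_sq_real, real_inner_smul_right, norm_smul, mul_pow, Real.norm_eq_abs, sq_abs]
  ring

theorem quad_EL {I J : ℝ} (h : ∀ t : ℝ, 0 ≤ 2 * t * I + t ^ 2 * J) : I = 0 := by
  have s0 : 0 < 1 / (|J| + 1) := by positivity
  have s1 : 1 / (|J| + 1) * J ≤ 1 := by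
    rw [one_div, inv_mul_le_iff₀ (by positivity)]
    linarith [le_abs_self J]
  generalize 1 / (|J| + 1) = s at s0 s1
  have h1 := h (-(I * s))
  have h2 := mul_le_mul_of_nonneg_left s1 (mul_nonneg s0.le (sq_nonneg I))
  have h3 : s * I ^ 2 ≤ s * 0 := by linarith
  exact pow_eq_zero_iff two_ne_zero |>.1 (le_antisymm (le_of_mul_le_mul_left h3 s0) (sq_nonneg I))

theorem energy_eq (hg : MemLp g ∞ (volume.restrict Ω)) (h : Admissible Ω u G K) (hV : IsOpen V)
    (hVΩ : V ⊆ Ω) (hf : volume V < ∞) : energy g u G K V = ENNReal.ofReal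
      ((∫ z in V \ K, ‖G z‖ ^ 2) + (μH[1] (K ∩ V)).toReal + ∫ z in V \ K, (u z - g z) ^ 2) := by
  have e : volume.restrict (V \ K) = volume.restrict V :=
    Measure.restrict_congr_set (sdiff_null_ae_eq_self (vol_zero_of_len h.finite))
  have h1 := sq_EL (h.gradL2.mono_measure
    (Measure.restrict_mono (sdiff_subset_sdiff_left hVΩ) le_rfl))
  have h2 := sq_EL (fid_mem hg h.memL2 hV.measurableSet hVΩ hf)
  simp only [Real.norm_eq_abs, sq_abs] at h2
  have h3 : μH[1] (K ∩ V) ≠ ∞ := ((measure_mono inter_subset_left).trans_lt h.finite).ne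
  rw [energy, h1, h2, ENNReal.ofReal_add (by positivity) (by positivity),
    ENNReal.ofReal_add (by positivity) ENNReal.toReal_nonneg, ENNReal.ofReal_toReal h3, e]

theorem euler (hΩ : IsOpen Ω) (hg : MemLp g ∞ (volume.restrict Ω)) (hmin : Minimizer Ω g u G K)
    (hC : IsCompact C) (hCΩ : C ⊆ Ω) (h0 : ∀ z, z ∉ C → ψ z = 0) (hl : LocallyLipschitzOn (Ω \ K) ψ)
    (hb : ∃ M, ∀ z, |ψ z| ≤ M) (hd : Dir ψ (Ω \ K) < ∞) :
    IntegrableOn (fun z => inner ℝ (G z) (gr ψ z)) (Ω \ K) ∧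
    IntegrableOn (fun z => (u z - g z) * ψ z) (Ω \ K) ∧
    ∫ z in Ω \ K, inner ℝ (G z) (gr ψ z) = -∫ z in Ω \ K, (u z - g z) * ψ z := by
  have ha := hmin.adm
  have hU := ha.relClosed
  obtain ⟨M, hM⟩ := hb
  obtain ⟨V, hV, hCV, hVΩ, hVc⟩ := exists_open_between_and_isCompact_closure hC hΩ hCΩ
  have hVΩ' : V ⊆ Ω := subset_closure.trans hVΩ
  have hf : volume V < ∞ := (measure_mono subset_closure).trans_lt hVc.measure_lt_top
  have hsub : V \ K ⊆ Ω \ K := sdiff_subset_sdiff_left hVΩ'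
  have hle : volume.restrict (V \ K) ≤ volume.restrict (Ω \ K) := Measure.restrict_mono hsub le_rfl
  have p1 : MemLp ψ 2 (volume.restrict (Ω \ K)) := by
    refine ((memLp_indicator_const 2 hC.measurableSet M
      (Or.inr hC.measure_lt_top.ne)).restrict (Ω \ K)).mono'
      (hl.continuousOn.aestronglyMeasurable hU.measurableSet) (Eventually.of_forall fun z => ?_)
    by_cases hz : z ∈ C
    · rw [indicator_of_mem hz]
      exact hM z
    · rw [indicator_of_notMem hz, h0 z hz, norm_zero]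
  have p2 : MemLp (gr ψ) 2 (volume.restrict (Ω \ K)) := (EARN.dir_eq ψ _).1.1 hd
  have p3 : MemLp u 2 (volume.restrict (Ω \ K)) := restrict_eq ha ▸ ha.memL2
  have p4 : MemLp (fun z => u z - g z) 2 (volume.restrict (V \ K)) :=
    (fid_mem hg ha.memL2 hV.measurableSet hVΩ' hf).mono_measure
      (Measure.restrict_mono sdiff_subset le_rfl)
  obtain ⟨i1, e1⟩ := exp_EL (ha.gradL2.mono_measure hle) (p2.mono_measure hle)
  obtain ⟨i2, e2⟩ := exp_EL p4 (p1.mono_measure hle)
  have ei : ∀ a b : ℝ, inner ℝ a b = a * b := fun a b => by simp [mul_comm]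
  simp only [Real.norm_eq_abs, sq_abs, smul_eq_mul, ei] at i2 e2
  have key := quad_EL (I := (∫ z in V \ K, inner ℝ (G z) (gr ψ z)) +
      ∫ z in V \ K, (u z - g z) * ψ z)
      (J := (∫ z in V \ K, ‖gr ψ z‖ ^ 2) + ∫ z in V \ K, ψ z ^ 2) fun t => by
    have hb : Admissible Ω (fun z => u z + t * ψ z) (fun z => G z + t • gr ψ z) K :=
      ⟨ha.sub, hU, ha.finite, restrict_eq ha ▸ p3.add (p1.const_mul t),
        ha.gradL2.add (p2.const_smul t), wg_add hU ha.weak (weakGrad_of_locLip hU hl)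
          (locInt_of_L2 hU p3) (locInt_of_L2 hU p1) (locInt_of_L2 hU ha.gradL2)
          (locInt_of_L2 hU p2) t⟩
    have h1 := hmin.min V hV hVc hVΩ _ _ K hb C hC hCV (by simp)
      ((ae_restrict_iff' (hΩ.measurableSet.diff hC.measurableSet)).2
        (Eventually.of_forall fun z hz => by rw [h0 z hz.2, mul_zero, add_zero]))
    rw [energy_eq hg ha hV hVΩ' hf, energy_eq hg hb hV hVΩ' hf,
      ENNReal.ofReal_le_ofReal_iff (by positivity), e1 t] at h1
    have h2 := e2 t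
    simp only [sub_add_eq_add_sub] at h2
    rw [h2] at h1
    linarith
  have z1 : ∀ z ∈ (Ω \ K) \ (V \ K), z ∉ C := fun z hz hc => hz.2 ⟨hCV hc, hz.1.2⟩
  have z2 : ∀ z ∈ (Ω \ K) \ (V \ K), inner ℝ (G z) (gr ψ z) = 0 := fun z hz => by
    have h1 : ψ =ᶠ[𝓝 z] fun _ => 0 :=
      mem_of_superset (hC.isClosed.isOpen_compl.mem_nhds (z1 z hz)) fun y hy => h0 y hy
    rw [(EARN.gr_congr h1).1]
    simp [gr]
  have z3 : ∀ z ∈ (Ω \ K) \ (V \ K), (u z - g z) * ψ z = 0 := fun z hz => by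
    rw [h0 z (z1 z hz), mul_zero]
  refine ⟨IntegrableOn.of_forall_sdiff_eq_zero i1 hU.measurableSet z2,
    IntegrableOn.of_forall_sdiff_eq_zero i2 hU.measurableSet z3, ?_⟩
  rw [setIntegral_eq_of_subset_of_forall_sdiff_eq_zero hU.measurableSet hsub z2,
    setIntegral_eq_of_subset_of_forall_sdiff_eq_zero hU.measurableSet hsub z3]
  linarith


end

end Vale.Agent.P128.B0
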