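import Vale.Agent.P128.B0.Min
import Vale.Agent.P128.B0.Corr

/-! P128 B0/Fin. Assembly of the almost minimizer. Plan: tau = 4 M r, v = u - p,
eps = 100 (tau + M^2 sqrt r), a = 2 M; radii of closed balls inside ball x r are at most r; outer
from CM.outer and |fderiv psi z (gr p z)| <= tau |fderiv psi z|. -/

namespace Vale.Agent.P128.B0

open MeasureTheory Set Metric Filter Topology
open scoped ENNReal

theorem rad_Fin {x y : ℂ} {r t : ℝ} (ht : 0 < t) (h : closedBall y t ⊆ ball x r) : t ≤ r := by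
  have n1 : ‖(t : ℂ)‖ = t := by rw [Complex.norm_real, Real.norm_eq_abs, abs_of_pos ht]
  have h1 : y + t ∈ ball x r := h (by simp [mem_closedBall, abs_of_pos ht])
  have h2 : y - t ∈ ball x r := h (by simp [mem_closedBall, abs_of_pos ht])
  have h3 := dist_triangle_right (y + t) (y - t) x
  have h4 : dist (y + t) (y - t) = 2 * t := by
    rw [dist_eq_norm, show y + t - (y - t) = 2 * (t : ℂ) by ring, norm_mul, n1]
    simp
  rw [mem_ball] at h1 h2
  linarith

theorem outer_Fin {x : ℂ} {r : ℝ} {g u p : ℂ → ℝ} {K : Set ℂ} (h : CM (ball x r) g u K) {M τ : ℝ}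
    (hτ0 : 0 ≤ τ) (hu : ∀ z ∈ ball x r \ K, |u z| ≤ M)
    (hg : ∀ᵐ z ∂(volume.restrict (ball x r)), |g z| ≤ M) (hM : 0 ≤ M) (hp : ContDiff ℝ 1 p)
    (hτ : ∀ z ∈ ball x r, ‖fderiv ℝ p z‖ ≤ τ) {ψ : ℂ → ℝ} {C : Set ℂ} (hC : IsCompact C)
    (hCs : C ⊆ ball x r) (h0 : ∀ z, z ∉ C → ψ z = 0) (hl : LocallyLipschitzOn (ball x r \ K) ψ)
    (hb : ∃ M, ∀ z, |ψ z| ≤ M) (hf : Dir ψ (ball x r \ K) < ∞) :
    |∫ z in ball x r \ K, fderiv ℝ ψ z (gr (fun z => u z - p z) z)| ≤
      2 * M * (∫ z in ball x r \ K, |ψ z|) + τ * ∫ z in ball x r \ K, ‖fderiv ℝ ψ z‖ := by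
  obtain ⟨-, hop, -, hdiff, -⟩ := h.basic
  have hms := hop.measurableSet
  have hfin : IsFiniteMeasure (volume.restrict (ball x r \ K)) :=
    isFiniteMeasure_restrict.2 ((measure_mono sdiff_subset).trans_lt measure_ball_lt_top).ne
  have e : ∫ z in ball x r \ K, fderiv ℝ ψ z (gr (fun z => u z - p z) z) =
      ∫ z in ball x r \ K, (fderiv ℝ ψ z (gr u z) - fderiv ℝ ψ z (gr p z)) :=
    setIntegral_congr_fun hms fun z hz => by
      simp only [(EARN.gr_add (hdiff z hz) (hp.differentiable one_ne_zero z)).2.1, map_sub]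
  have i1 : Integrable (fun z => ‖fderiv ℝ ψ z‖) (volume.restrict (ball x r \ K)) := by
    have := (((EARN.dir_eq ψ _).1.1 hf).integrable one_le_two).norm
    simpa only [(norm_dz ψ _).2.1] using this
  have b2 : ∀ᵐ z ∂(volume.restrict (ball x r \ K)),
      ‖fderiv ℝ ψ z (gr p z)‖ ≤ τ * ‖fderiv ℝ ψ z‖ := by
    filter_upwards [ae_restrict_mem hms] with z hz
    refine ((fderiv ℝ ψ z).le_opNorm _).trans ?_
    rw [(norm_dz p z).2.1, mul_comm]
    exact mul_le_mul_of_nonneg_right (hτ z hz.1) (norm_nonneg _)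
  have i2 : Integrable (fun z => fderiv ℝ ψ z (gr p z)) (volume.restrict (ball x r \ K)) := by
    refine (i1.const_mul τ).mono' ?_ b2
    simp only [EARN.fderiv_eq_inner]
    exact ((EARN.measurable_gr ψ).1.inner (EARN.measurable_gr p).1).aestronglyMeasurable
  have i3 : Integrable (fun z => |ψ z|) (volume.restrict (ball x r \ K)) := by
    obtain ⟨B, hB⟩ := hb
    exact ((integrable_const B).mono' (hl.continuousOn.aestronglyMeasurable hms)
      (Eventually.of_forall hB)).abs
  have n1 : 0 ≤ ∫ z in ball x r \ K, |ψ z| := integral_nonneg fun _ => abs_nonneg _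
  have n2 : 0 ≤ ∫ z in ball x r \ K, ‖fderiv ℝ ψ z‖ := integral_nonneg fun _ => norm_nonneg _
  rw [e]
  by_cases i4 : Integrable (fun z => fderiv ℝ ψ z (gr u z)) (volume.restrict (ball x r \ K))
  · rw [integral_sub i4 i2, h.outer hC hCs h0 hl hb hf]
    have k1 := norm_integral_le_of_norm_le (i1.const_mul τ) b2
    have k2 := norm_integral_le_of_norm_le (f := fun z => (u z - g z) * ψ z)
      (i3.const_mul (2 * M)) (by
        filter_upwards [ae_restrict_mem hms, ae_restrict_of_ae_restrict_of_subset sdiff_subset hg]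
          with z hz hz'
        rw [Real.norm_eq_abs, abs_mul]
        refine mul_le_mul_of_nonneg_right ((abs_sub _ _).trans ?_) (abs_nonneg _)
        linarith [hu z hz])
    rw [integral_const_mul, Real.norm_eq_abs] at k1 k2
    have k1 := abs_le.1 k1
    have k2 := abs_le.1 k2
    rw [abs_le]
    constructor <;> linarith [k1.1, k1.2, k2.1, k2.2]
  · rw [integral_undef fun i5 => i4 ((i5.add i2).congr (Eventually.of_forall fun z => by simp)), abs_zero]
    positivity

theorem am0_of_cm {x : ℂ} {r : ℝ} (hr : 0 < r) {g u : ℂ → ℝ} {K : Set ℂ}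
    (h : CM (ball x r) g u K) {M : ℝ} (hM : 1 ≤ M) (hu : ∀ z ∈ ball x r \ K, |u z| ≤ M)
    (hg : ∀ᵐ z ∂(volume.restrict (ball x r)), |g z| ≤ M) (hs : 1000 * M ^ 2 * r ≤ 1) :
    ∃ v : ℂ → ℝ, AM0 (ball x r) (100 * (4 * M * r + M ^ 2 * √r)) False v K := by
  have hM0 : 0 < M := by linarith
  obtain ⟨p, hp, hb, hol⟩ := corrector hr h hM0.le hu hg
  have hq : √r * √r = r := Real.mul_self_sqrt hr.le
  have hq0 : 0 < √r := Real.sqrt_pos.2 hr
  have hM2 : M ≤ M ^ 2 := by nlinarith
  have hr1 : r ≤ 1 := by nlinarith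
  have hq1 : √r ≤ 1 := Real.sqrt_le_one.2 hr1
  have hMr : 0 < M * r := by positivity
  have hMq : 0 < M ^ 2 * √r := by positivity
  have hsq : ∀ y t, 0 < t → closedBall y t ⊆ ball x r → √t ≤ √r := fun y t ht hB =>
    Real.sqrt_le_sqrt (rad_Fin ht hB)
  refine ⟨fun z => u z - p z, isOpen_ball, h.closed, by positivity, False.elim, ?_, ?_, hol, ?_,
    2 * M, by positivity, fun y t ht hB => ⟨?_, fun z hz => ?_⟩, ?_⟩
  · intro y t ht hB
    have h3 : M * r * √r ≤ M ^ 2 * r := by
      have : M * √r ≤ M ^ 2 := by nlinarith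
      nlinarith
    calc 100 * (4 * M * r + M ^ 2 * √r) * √t ≤ 100 * (4 * M * r + M ^ 2 * √r) * √r :=
          mul_le_mul_of_nonneg_left (hsq y t ht hB) (by positivity)
      _ = 400 * (M * r * √r) + 100 * M ^ 2 * (√r * √r) := by ring
      _ ≤ 1 := by rw [hq]; linarith
  · intro z hz
    exact (h.basic.2.2.2.1 z hz).sub (hp.differentiable one_ne_zero z)
  · intro y t w L ht hB hC
    refine am_min h hM0.le (by positivity) hu hg hp (fun z hz => (hb z hz).1) (by linarith) ?_
      ht hB hC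
    have h3 : M ^ 2 * r * (r * r) ≤ M ^ 2 * r * 1 :=
      mul_le_mul_of_nonneg_left (by nlinarith) (by positivity)
    linarith
  · have := mul_le_mul_of_nonneg_left (rad_Fin ht hB) hM0.le
    linarith
  · have h3 : |u z - p z| ≤ 5 * M := by
      have h4 : M * (r * r) ≤ M * 1 := mul_le_mul_of_nonneg_left (by nlinarith) hM0.le
      linarith [abs_sub (u z) (p z), hu z hz, (hb z hz.1).2]
    have h4 : 2 * M * |u z - p z| * √t ≤ 2 * M * (5 * M) * √r :=
      mul_le_mul (mul_le_mul_of_nonneg_left h3 (by positivity)) (hsq y t ht hB)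
        (Real.sqrt_nonneg _) (by positivity)
    linarith
  · intro ψ C hC hCs h0 hl hbd hf
    refine (outer_Fin h (by positivity) hu hg hM0.le hp (fun z hz => (hb z hz).1) hC hCs h0 hl hbd
      hf).trans (add_le_add le_rfl (mul_le_mul_of_nonneg_right (by linarith)
        (integral_nonneg fun _ => norm_nonneg _)))

end Vale.Agent.P128.B0
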