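import Vale.Agent.P128.B0.Poin

/-! P128 B0/Hil  (helper names end with _Hil)

Existence of a weak solution by Hahn-Banach and Riesz.  `T` = submodule of `ℂ → ℝ` of the test functions on the ball, `Λ : T →ₗ[ℝ] Lp ℝ 2 volume`, `φ ↦ (lap_mem ..).toLp` (`EARN.lap_add`, `lap (t φ) = t lap φ` from the product rule or directly), `ℓ φ = ∫ φ * f`,
`|ℓ φ| ≤ ‖f‖ R ^ 2 ‖Λ φ‖` (Cauchy-Schwarz in `Lp`, `L2.inner_def`, `poincare_lap`).  `abstract`: `Λ` kills only elements killed by `ℓ`; define the functional on `LinearMap.range Λ` (`LinearMap.quotKerEquivRange`, `Submodule.liftQ`, or `Classical.choose`),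
`LinearMap.mkContinuous`, `Real.exists_extension_norm_eq`, `InnerProductSpace.toDual`.
-/

namespace Vale.Agent.P128.B0

open MeasureTheory Set Metric Filter Topology
open scoped ENNReal

noncomputable section

theorem abstract {T H : Type} [AddCommGroup T] [Module ℝ T] [NormedAddCommGroup H] [InnerProductSpace ℝ H]
    [CompleteSpace H] (Λ : T →ₗ[ℝ] H) (l : T →ₗ[ℝ] ℝ) {C : ℝ} (h : ∀ φ, |l φ| ≤ C * ‖Λ φ‖) :
    ∃ v : H, ∀ φ, inner ℝ (Λ φ) v = l φ := by
  obtain ⟨g, hg⟩ := Λ.rangeRestrict.exists_rightInverse_of_surjective Λ.range_rangeRestrict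
  have h1 : ∀ y : LinearMap.range Λ, Λ (g y) = y := fun y =>
    congrArg Subtype.val (LinearMap.congr_fun hg y)
  obtain ⟨F, hF, -⟩ := exists_extension_norm_eq (LinearMap.range Λ)
    ((l.comp g).mkContinuous C fun y => by
      have := h (g y)
      rwa [h1] at this)
  refine ⟨(InnerProductSpace.toDual ℝ H).symm F, fun φ => ?_⟩
  rw [real_inner_comm, InnerProductSpace.toDual_symm_apply]
  have h2 := hF ⟨Λ φ, φ, rfl⟩
  have h3 := h (g ⟨Λ φ, φ, rfl⟩ - φ)
  rw [map_sub, map_sub, h1, sub_self, norm_zero, mul_zero, abs_nonpos_iff, sub_eq_zero] at h3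
  exact h2.trans h3

theorem inner_Hil {a b : ℂ → ℝ} (ha : MemLp a 2 volume) (hb : MemLp b 2 volume) :
    inner ℝ (ha.toLp a) (hb.toLp b) = ∫ z, a z * b z := by
  rw [L2.inner_def]
  refine integral_congr_ae ?_
  filter_upwards [ha.coeFn_toLp, hb.coeFn_toLp] with z h1 h2
  rw [h1, h2, real_inner_comm]
  simp

theorem smul_Hil (t : ℝ) (φ : ℂ → ℝ) : EARN.lap (t • φ) = t • EARN.lap φ := by
  funext z
  have h1 : ∀ v : ℂ, (fun w => fderiv ℝ (t • φ) w v) = t • fun w => fderiv ℝ φ w v := fun v => by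
    funext w
    rw [fderiv_const_smul_field]
    rfl
  rw [EARN.lap, h1, h1, fderiv_const_smul_field, fderiv_const_smul_field, Pi.smul_apply,
    Pi.smul_apply, Pi.smul_apply, EARN.lap, smul_add]
  rfl

/-- Test functions on a set. -/
def T_Hil (O : Set ℂ) : Submodule ℝ (ℂ → ℝ) where
  carrier := {φ | ContDiff ℝ (⊤ : ℕ∞) φ ∧ HasCompactSupport φ ∧ tsupport φ ⊆ O}
  add_mem' := fun ha hb => ⟨ha.1.add hb.1, ha.2.1.add hb.2.1,
    (tsupport_add _ _).trans (union_subset ha.2.2 hb.2.2)⟩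
  zero_mem' := ⟨contDiff_const, HasCompactSupport.zero, by simp⟩
  smul_mem' := fun c _ ha => ⟨ha.1.const_smul c, ha.2.1.smul_left,
    (tsupport_smul_subset_right (fun _ => c) _).trans ha.2.2⟩

theorem exists_sol {f : ℂ → ℝ} (hf : MemLp f 2 volume) (x : ℂ) {R : ℝ} (hR : 0 < R) :
    ∃ h : ℂ → ℝ, MemLp h 2 volume ∧ WEc (ball x R) h f := by
  have m1 : ∀ φ : T_Hil (ball x R), MemLp (EARN.lap φ) 2 volume := fun φ =>
    (lap_mem φ.2.1 φ.2.2.1).2.2
  have m2 : ∀ φ : T_Hil (ball x R), MemLp (φ : ℂ → ℝ) 2 volume := fun φ =>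
    φ.2.1.continuous.memLp_of_hasCompactSupport φ.2.2.1
  have h0 : (2 : WithTop ℕ∞) ≤ (⊤ : ℕ∞) := WithTop.coe_le_coe.2 (le_top (a := (2 : ℕ∞)))
  let Λ : T_Hil (ball x R) →ₗ[ℝ] Lp ℝ 2 (volume : Measure ℂ) :=
    { toFun := fun φ => (m1 φ).toLp _
      map_add' := fun φ ψ => by
        rw [← MemLp.toLp_add]
        refine MemLp.toLp_congr _ _ (Eventually.of_forall fun z => ?_)
        exact (EARN.lap_add (φ.2.1.contDiffAt.of_le h0) (ψ.2.1.contDiffAt.of_le h0)).1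
      map_smul' := fun t φ => by
        rw [RingHom.id_apply, ← MemLp.toLp_const_smul]
        exact MemLp.toLp_congr _ _ (Eventually.of_forall (congrFun (smul_Hil t φ))) }
  let l : T_Hil (ball x R) →ₗ[ℝ] ℝ :=
    { toFun := fun φ => inner ℝ ((m2 φ).toLp _) (hf.toLp f)
      map_add' := fun φ ψ => by
        rw [← inner_add_left, ← MemLp.toLp_add]
        rfl
      map_smul' := fun t φ => by
        rw [RingHom.id_apply, smul_eq_mul, ← real_inner_smul_left, ← MemLp.toLp_const_smul]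
        rfl }
  obtain ⟨v, hv⟩ := abstract Λ l (C := ‖hf.toLp f‖ * R ^ 2) fun φ => by
    refine (abs_real_inner_le_norm ((m2 φ).toLp _) (hf.toLp f)).trans ?_
    rw [mul_comm, mul_assoc]
    refine mul_le_mul_of_nonneg_left ?_ (norm_nonneg _)
    refine abs_le_of_sq_le_sq' ?_ (by positivity) |>.2
    have h1 := poincare_lap hR φ.2.1 φ.2.2.1 φ.2.2.2
    have h2 : ‖Λ φ‖ ^ 2 = ∫ z, EARN.lap φ z ^ 2 := by
      rw [← real_inner_self_eq_norm_sq]
      exact (inner_Hil (m1 φ) (m1 φ)).trans (by simp only [sq])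
    rw [mul_pow, h2, ← real_inner_self_eq_norm_sq, inner_Hil, ← pow_mul]
    simpa only [sq] using h1
  refine ⟨v, Lp.memLp v, fun φ h1 h2 h3 => ?_⟩
  have h4 := hv ⟨φ, h1, h2, h3⟩
  rw [← inner_Hil (m2 ⟨φ, h1, h2, h3⟩) hf, ← inner_Hil (m1 ⟨φ, h1, h2, h3⟩) (Lp.memLp v),
    Lp.toLp_coeFn]
  exact h4

end

end Vale.Agent.P128.B0
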