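import Vale.Agent.P128.B0.Defs
import Vale.Agent.P128.EARN.PotA

/-! P128 B0/Ker. The kernels. Plan: local integrability by polar coordinates or
integrableOn_ball_of_norm_le_rpow; pomp from int_PotA (EARN/PotA) after a change of variables;
log_ibp: regularize with log(|w|^2 + d^2)/2, integral_mul_fderiv_eq_neg_fderiv_mul_of_integrable,
dominated convergence as d tends to 0. -/

namespace Vale.Agent.P128.B0

open MeasureTheory Set Metric Filter Topology
open scoped ENNReal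

theorem inv_Ker : LocallyIntegrable (fun w : ℂ => w⁻¹) volume :=
  locallyIntegrable_of_norm_le_rpow (C := 1) (α := 1) (by simp) (by simp)
    (Eventually.of_forall fun w => by simp [Real.rpow_neg_one]) measurable_inv.aestronglyMeasurable

theorem ninv_Ker : LocallyIntegrable (fun w : ℂ => ‖w‖⁻¹) volume :=
  inv_Ker.mono measurable_norm.inv.aestronglyMeasurable (ae_of_all _ fun w => by simp)

theorem sq_Ker {t : ℝ} (ht : 0 ≤ t) : Real.log t ^ 2 ≤ 4 * (t + t⁻¹) := by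
  rcases ht.eq_or_lt with rfl | h0
  · simp
  obtain ⟨s, hs, rfl⟩ : ∃ s, 0 < s ∧ t = s ^ 2 := ⟨√t, Real.sqrt_pos.2 h0, (Real.sq_sqrt ht).symm⟩
  have h1 := Real.log_le_sub_one_of_pos hs
  have h2 := Real.log_le_sub_one_of_pos (inv_pos.2 hs)
  have h3 := inv_pos.2 hs
  rw [Real.log_inv] at h2
  rw [Real.log_pow, ← inv_pow]
  push_cast
  rcases le_total 0 (Real.log s) with h | h <;> nlinarith

theorem log2_Ker : LocallyIntegrable (fun w : ℂ => Real.log ‖w‖ ^ 2) volume := by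
  refine ((continuous_norm.locallyIntegrable.add ninv_Ker).smul (4 : ℝ)).mono
    (measurable_norm.log.pow_const 2).aestronglyMeasurable (ae_of_all _ fun w => ?_)
  rw [Real.norm_of_nonneg (sq_nonneg _)]
  exact (sq_Ker (norm_nonneg w)).trans (le_abs_self _)

theorem log_Ker : LocallyIntegrable (fun w : ℂ => Real.log ‖w‖) volume := by
  refine ((locallyIntegrable_const (1 : ℝ)).add log2_Ker).mono
    measurable_norm.log.aestronglyMeasurable (ae_of_all _ fun w => ?_)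
  refine le_trans (abs_le.2 ⟨?_, ?_⟩) (le_abs_self (1 + Real.log ‖w‖ ^ 2))
  · nlinarith [sq_nonneg (Real.log ‖w‖ + 1)]
  · nlinarith [sq_nonneg (Real.log ‖w‖ - 1)]

theorem ball_Ker {R : ℝ} (hR : 0 < R) : ∫ w in ball (0 : ℂ) R, ‖w‖⁻¹ = 2 * Real.pi * R := by
  have h1 : ∫ w in ball (0 : ℂ) R, ‖w‖⁻¹ = ∫ w : ℂ, (Iio R).indicator (fun t : ℝ => t⁻¹) ‖w‖ := by
    rw [← integral_indicator measurableSet_ball]
    refine integral_congr_ae (ae_of_all _ fun w => ?_)
    simp only [indicator, mem_ball_zero_iff, mem_Iio]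
  have h2 : ∫ y in Ioi (0 : ℝ), y ^ (2 - 1) • (Iio R).indicator (fun t : ℝ => t⁻¹) y =
      ∫ y in Ioi (0 : ℝ), (Iio R).indicator (fun _ => (1 : ℝ)) y := by
    refine setIntegral_congr_fun measurableSet_Ioi fun y hy => ?_
    by_cases h : y ∈ Iio R
    · simp [h, (ne_of_gt hy : y ≠ 0)]
    · simp [h]
  rw [h1, integral_fun_norm_addHaar, Complex.finrank_real_complex, h2,
    setIntegral_indicator measurableSet_Iio, Ioi_inter_Iio, setIntegral_const,
    Real.volume_real_Ioo_of_le hR.le, Measure.real, Complex.volume_ball]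
  simp [mul_assoc]

theorem ker_int : LocallyIntegrable (fun w : ℂ => w⁻¹) volume ∧
    LocallyIntegrable (fun w : ℂ => Real.log ‖w‖) volume ∧
    LocallyIntegrable (fun w : ℂ => Real.log ‖w‖ ^ 2) volume ∧
    ∀ R : ℝ, 0 < R → ∫ w in ball (0 : ℂ) R, ‖w‖⁻¹ ≤ 2 * Real.pi * R := by
  exact ⟨inv_Ker, log_Ker, log2_Ker, fun R hR => (ball_Ker hR).le⟩

theorem pomp {φ : ℂ → ℝ} (hφ : ContDiff ℝ 1 φ) (hc : HasCompactSupport φ) (ζ : ℂ) :
    ∫ z, gr φ z * (z - ζ)⁻¹ = -((2 * Real.pi * φ ζ : ℝ) : ℂ) := by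
  obtain ⟨h1, h2⟩ := EARN.int_PotA hφ hc ζ
  have hD := hφ.continuous_fderiv one_ne_zero
  have c1 : Continuous fun w => gr φ (ζ - w) := by
    unfold gr
    fun_prop
  have s1 : HasCompactSupport fun w => gr φ (ζ - w) := by
    refine HasCompactSupport.intro (hc.comp_homeomorph (Homeomorph.subLeft ζ)).isCompact
      fun w hw => ?_
    have h3 : ζ - w ∉ tsupport φ := fun h => hw (by
      rw [tsupport_comp_eq_preimage]
      exact h)
    simp [gr, fderiv_of_notMem_tsupport ℝ h3]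
  have hI : Integrable fun w => gr φ (ζ - w) * w⁻¹ :=
    inv_Ker.integrable_smul_left_of_hasCompactSupport c1 s1
  have hl : ∀ (D : ℂ →L[ℝ] ℝ) (v : ℂ), D v = D 1 * v.re + D Complex.I * v.im := fun D v => by
    conv_lhs => rw [show v = v.re • (1 : ℂ) + v.im • Complex.I by simp]
    rw [map_add, map_smul, map_smul, smul_eq_mul, smul_eq_mul, mul_comm, mul_comm v.im]
  rw [← integral_sub_left_eq_self _ volume ζ]
  simp only [sub_sub_cancel_left, inv_neg, mul_neg]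
  rw [integral_neg, neg_inj]
  refine Complex.ext ?_ ?_
  · rw [Complex.ofReal_re, ← h1]
    refine (Complex.reCLM.integral_comp_comm hI).symm.trans
      (integral_congr_ae (ae_of_all _ fun w => ?_))
    beta_reduce
    rw [hl (fderiv ℝ φ (ζ - w)), ← map_inv₀]
    generalize w⁻¹ = v
    simp [gr, sub_eq_add_neg]
  · rw [Complex.ofReal_im, ← h2]
    refine (Complex.imCLM.integral_comp_comm hI).symm.trans
      (integral_congr_ae (ae_of_all _ fun w => ?_))
    beta_reduce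
    rw [hl (fderiv ℝ φ (ζ - w)), ← map_inv₀]
    generalize w⁻¹ = v
    simp [gr]

theorem der_Ker {d : ℝ} (hd : 0 < d) (w e : ℂ) :
    DifferentiableAt ℝ (fun w : ℂ => 2⁻¹ * Real.log (‖w‖ ^ 2 + d)) w ∧
    fderiv ℝ (fun w : ℂ => 2⁻¹ * Real.log (‖w‖ ^ 2 + d)) w e = inner ℝ w e / (‖w‖ ^ 2 + d) := by
  have h := (((hasStrictFDerivAt_norm_sq w).hasFDerivAt.add_const d).log
    (by positivity)).const_mul 2⁻¹
  refine ⟨h.differentiableAt, ?_⟩
  rw [h.fderiv]
  simp only [_root_.smul_apply, innerSL_apply_apply, smul_eq_mul, nsmul_eq_mul]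
  push_cast
  ring

theorem c2_Ker {d : ℝ} (hd : 0 < d) : Continuous fun w : ℂ => 2⁻¹ * Real.log (‖w‖ ^ 2 + d) :=
  continuous_iff_continuousAt.2 fun w => (der_Ker hd w 0).1.continuousAt

theorem c3_Ker {d : ℝ} (hd : 0 < d) (e : ℂ) :
    Continuous fun w : ℂ => inner ℝ w e / (‖w‖ ^ 2 + d) :=
  Continuous.div (continuous_id.inner continuous_const) (by fun_prop) fun w => by positivity

theorem t0_Ker (w : ℂ) : Tendsto (fun d : ℝ => ‖w‖ ^ 2 + d) (𝓝[>] 0) (𝓝 (‖w‖ ^ 2)) := by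
  have : Tendsto (fun d : ℝ => ‖w‖ ^ 2 + d) (𝓝 0) (𝓝 (‖w‖ ^ 2 + 0)) :=
    tendsto_const_nhds.add tendsto_id
  rw [add_zero] at this
  exact this.mono_left nhdsWithin_le_nhds

theorem b1_Ker {r d : ℝ} (hr : 0 < r) (hd : d ∈ Ioo (0 : ℝ) 1) :
    |2⁻¹ * Real.log (r ^ 2 + d)| ≤ |Real.log r| + r ^ 2 := by
  have h0 := sq_nonneg r
  have h1 : Real.log (r ^ 2) ≤ Real.log (r ^ 2 + d) :=
    Real.log_le_log (by positivity) (by linarith [hd.1])
  have h2 := Real.log_le_sub_one_of_pos (show 0 < r ^ 2 + d by linarith [hd.1])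
  rw [Real.log_pow, Nat.cast_ofNat] at h1
  exact abs_le.2 ⟨by linarith [neg_abs_le (Real.log r)],
    by linarith [abs_nonneg (Real.log r), hd.2]⟩

theorem t1_Ker {a : ℂ → ℝ} (c1 : Continuous a) (s1 : HasCompactSupport a) :
    Tendsto (fun d : ℝ => ∫ z, a z * (2⁻¹ * Real.log (‖z‖ ^ 2 + d))) (𝓝[>] 0)
      (𝓝 (∫ z, a z * Real.log ‖z‖)) := by
  have h0 : ∀ᵐ w : ℂ, w ≠ 0 := compl_mem_ae_iff.2 (measure_singleton 0)
  have h1 : ∀ᶠ d in 𝓝[>] (0 : ℝ), d ∈ Ioo (0 : ℝ) 1 := Ioo_mem_nhdsGT one_pos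
  have i1 : Integrable fun z => a z * Real.log ‖z‖ :=
    log_Ker.integrable_smul_left_of_hasCompactSupport c1 s1
  have i2 : Integrable fun z => a z * ‖z‖ ^ 2 :=
    (c1.mul (continuous_norm.pow 2)).integrable_of_hasCompactSupport s1.mul_right
  refine tendsto_integral_filter_of_dominated_convergence
    (fun z => |a z * Real.log ‖z‖| + |a z * ‖z‖ ^ 2|)
    (h1.mono fun d hd => (c1.mul (c2_Ker hd.1)).aestronglyMeasurable)
    (h1.mono fun d hd => h0.mono fun w hw => ?_) (i1.abs.add i2.abs) (h0.mono fun w hw => ?_)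
  · rw [Real.norm_eq_abs, abs_mul, abs_mul (a w), abs_mul (a w), ← mul_add,
      abs_of_nonneg (sq_nonneg ‖w‖)]
    exact mul_le_mul_of_nonneg_left (b1_Ker (norm_pos_iff.2 hw) hd) (abs_nonneg _)
  · have hr := norm_pos_iff.2 hw
    have h2 := (((t0_Ker w).log (by positivity)).const_mul 2⁻¹).const_mul (a w)
    rw [Real.log_pow, Nat.cast_ofNat, inv_mul_cancel_left₀ two_ne_zero] at h2
    exact h2

theorem b2_Ker {w : ℂ} (hw : w ≠ 0) (e : ℂ) {d : ℝ} (hd : 0 < d) :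
    |inner ℝ w e / (‖w‖ ^ 2 + d)| ≤ ‖w‖⁻¹ * ‖e‖ := by
  have hr := norm_pos_iff.2 hw
  rw [abs_div, abs_of_nonneg (show 0 ≤ ‖w‖ ^ 2 + d by positivity)]
  calc _ ≤ ‖w‖ * ‖e‖ / ‖w‖ ^ 2 :=
        div_le_div₀ (by positivity) (abs_real_inner_le_norm w e) (by positivity) (by linarith)
    _ = _ := by rw [sq, mul_div_mul_left _ _ hr.ne', div_eq_inv_mul]

theorem t2_Ker {a : ℂ → ℝ} (c0 : Continuous a) (hc : HasCompactSupport a) (e : ℂ) :
    Tendsto (fun d : ℝ => ∫ z, a z * (inner ℝ z e / (‖z‖ ^ 2 + d))) (𝓝[>] 0)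
      (𝓝 (∫ z, a z * (z⁻¹ * e).re)) := by
  have h0 : ∀ᵐ w : ℂ, w ≠ 0 := compl_mem_ae_iff.2 (measure_singleton 0)
  have h1 : ∀ᶠ d in 𝓝[>] (0 : ℝ), 0 < d := self_mem_nhdsWithin
  have i1 : Integrable fun z => a z * ‖z‖⁻¹ :=
    ninv_Ker.integrable_smul_left_of_hasCompactSupport c0 hc
  refine tendsto_integral_filter_of_dominated_convergence (fun z => |a z * ‖z‖⁻¹| * ‖e‖)
    (h1.mono fun d hd => (c0.mul (c3_Ker hd e)).aestronglyMeasurable)
    (h1.mono fun d hd => h0.mono fun w hw => ?_) (i1.abs.mul_const _) (h0.mono fun w hw => ?_)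
  · rw [Real.norm_eq_abs, abs_mul, abs_mul, mul_assoc, abs_inv, abs_norm]
    exact mul_le_mul_of_nonneg_left (b2_Ker hw e hd) (abs_nonneg _)
  · have hr := norm_pos_iff.2 hw
    have h3 : (w⁻¹ * e).re = inner ℝ w e / ‖w‖ ^ 2 := by
      rw [Complex.inner, Complex.inv_def, mul_right_comm, Complex.re_mul_ofReal, mul_comm e,
        Complex.sq_norm, div_eq_mul_inv]
    rw [h3]
    exact (tendsto_const_nhds.div (t0_Ker w) (by positivity)).const_mul (a w)

theorem ibp_Ker {φ : ℂ → ℝ} (hφ : ContDiff ℝ 1 φ) (hc : HasCompactSupport φ) (e : ℂ) :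
    ∫ z, fderiv ℝ φ z e * Real.log ‖z‖ = -∫ z, φ z * (z⁻¹ * e).re := by
  have c0 := hφ.continuous
  have c1 : Continuous fun z => fderiv ℝ φ z e :=
    (hφ.continuous_fderiv one_ne_zero).clm_apply continuous_const
  have s1 : HasCompactSupport fun z => fderiv ℝ φ z e := hc.fderiv_apply ℝ e
  have h1 : ∀ᶠ d in 𝓝[>] (0 : ℝ), 0 < d := self_mem_nhdsWithin
  refine tendsto_nhds_unique (t1_Ker c1 s1) ((t2_Ker c0 hc e).neg.congr' (h1.mono fun d hd => ?_))
  have h2 := integral_mul_fderiv_eq_neg_fderiv_mul_of_integrable (μ := volume) (f := φ)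
    (g := fun w : ℂ => 2⁻¹ * Real.log (‖w‖ ^ 2 + d)) (v := e)
    ((c1.mul (c2_Ker hd)).integrable_of_hasCompactSupport s1.mul_right) (by
      simp only [fun w => (der_Ker hd w e).2]
      exact (c0.mul (c3_Ker hd e)).integrable_of_hasCompactSupport hc.mul_right)
    ((c0.mul (c2_Ker hd)).integrable_of_hasCompactSupport hc.mul_right)
    (fun w _ => hφ.differentiable one_ne_zero w) fun w _ => (der_Ker hd w e).1
  simp only [fun w => (der_Ker hd w e).2] at h2
  simp only [h2, neg_neg]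

theorem log_ibp {φ : ℂ → ℝ} (hφ : ContDiff ℝ 1 φ) (hc : HasCompactSupport φ) (ζ e : ℂ) :
    ∫ z, fderiv ℝ φ z e * Real.log ‖z - ζ‖ = -∫ z, φ z * ((z - ζ)⁻¹ * e).re := by
  have h := ibp_Ker (φ := fun w => φ (w + ζ)) (hφ.comp (contDiff_id.add contDiff_const))
    (hc.comp_homeomorph (Homeomorph.addRight ζ)) e
  simp only [fderiv_comp_add_right] at h
  rw [← integral_add_right_eq_self _ ζ,
    ← integral_add_right_eq_self (fun z => φ z * ((z - ζ)⁻¹ * e).re) ζ]
  simpa only [add_sub_cancel_right] using h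

end Vale.Agent.P128.B0
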