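import Vale.Agent.P128.B0.Rep
import Vale.Agent.P128.B0.CMin
import Vale.Agent.P128.B0.Bound
import Vale.Agent.P128.B0.Fin

/-! P128 block B0: from minimizers to almost minimizers. -/

namespace Vale.Agent.P128

open MeasureTheory Set Metric Filter Topology
open scoped ENNReal

theorem reduce {Ω : Set ℂ} (hΩ : IsOpen Ω) {g u : ℂ → ℝ} {G : ℂ → ℂ} {K : Set ℂ}
    (hg : MemLp g ∞ (volume.restrict Ω)) (hmin : Minimizer Ω g u G K) {x : ℂ} (hx : x ∈ Ω)
    {ε₀ : ℝ} (hε₀ : 0 < ε₀) :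
    ∃ (r ε : ℝ) (v : ℂ → ℝ), 0 < r ∧ closedBall x r ⊆ Ω ∧ ε * √r ≤ ε₀ ∧
      AM0 (ball x r) ε False v (K ∩ closedBall x r) := by
  obtain ⟨r₀, hr₀, hB₀⟩ := nhds_basis_closedBall.mem_iff.1 (hΩ.mem_nhds hx)
  obtain ⟨v, hv, hae⟩ := B0.rep hΩ hg hmin
  obtain ⟨s, M, hs, hsr, hM, hu, hgM⟩ := (B0.cm_of_min hΩ hg hmin hv hae hr₀ hB₀).bdd hr₀
  have hM2 : 0 < M ^ 2 := by positivity
  set r := min s (min (1 / (1000 * M ^ 2)) (ε₀ / (500 * M ^ 2))) with hr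
  have hr0 : 0 < r := lt_min hs (lt_min (by positivity) (by positivity))
  have hrs : r ≤ s := min_le_left _ _
  have h1 : 1000 * M ^ 2 * r ≤ 1 := by
    have : r ≤ 1 / (1000 * M ^ 2) := (min_le_right _ _).trans (min_le_left _ _)
    rw [le_div_iff₀ (by positivity)] at this
    linarith
  have h2 : 500 * M ^ 2 * r ≤ ε₀ := by
    have : r ≤ ε₀ / (500 * M ^ 2) := (min_le_right _ _).trans (min_le_right _ _)
    rw [le_div_iff₀ (by positivity)] at this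
    linarith
  have hB : closedBall x r ⊆ Ω := (closedBall_subset_closedBall (hrs.trans hsr.le)).trans hB₀
  obtain ⟨w, hw⟩ := B0.am0_of_cm hr0 (B0.cm_of_min hΩ hg hmin hv hae hr0 hB) hM
    (fun z hz => hu z ⟨ball_subset_ball hrs hz.1,
      fun hk => hz.2 ⟨hk.1, ball_subset_closedBall hz.1⟩⟩)
    (ae_restrict_of_ae_restrict_of_subset (ball_subset_ball (hrs.trans hsr.le)) hgM) h1
  refine ⟨r, _, w, hr0, hB, ?_, hw⟩
  have hq : √r * √r = r := Real.mul_self_sqrt hr0.le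
  have hq0 : 0 ≤ √r := Real.sqrt_nonneg r
  have hr1 : r ≤ 1 := by nlinarith
  have hq1 : √r ≤ 1 := Real.sqrt_le_one.2 hr1
  have h3 : M * r * √r ≤ M ^ 2 * r := by
    have : M * √r ≤ M ^ 2 := by nlinarith
    nlinarith
  calc 100 * (4 * M * r + M ^ 2 * √r) * √r = 400 * (M * r * √r) + 100 * M ^ 2 * (√r * √r) := by
        ring
    _ ≤ ε₀ := by rw [hq]; linarith

end Vale.Agent.P128
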