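import Vale.Agent.P128.B0.Trc

/-! P128 B0/Min  (helper names end with _Min)

Almost minimality.  `B = closedBall y t`, `v = u - h`, `l = √t ≤ 1`, `volume B = π t ^ 2`, `C₀ = 7 + 13 M ^ 2`.  `dir_add` (for `u + (-h)` on `B \ K`) and `upper_local`: `En v ≤ En u + (C₀ + 7 A ^ 2) t √t` and `En v ≤ (2 C₀ + 7 A ^ 2) t`.
If `En v ≤ En w` we are done; otherwise `Dir w (B \ L) ≤ (2 C₀ + 7 A ^ 2) t` and `cmp_trunc`, `dir_add` give `En u ≤ En w + (2 C₀ + 14 A ^ 2 + 13 M ^ 2) t √t`.  `K ∩ closedBall x r` and `K` agree on `B`.  It is convenient to pass to real numbers (`ENNReal.ofReal_toReal`).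
-/

namespace Vale.Agent.P128.B0

open MeasureTheory Set Metric Filter Topology
open scoped ENNReal

noncomputable section

theorem step_Min {L : Set ℂ} {w h : ℂ → ℝ} {y : ℂ} {t A C : ℝ} (ht : 0 < t) (ht1 : t ≤ 1)
    (hC : 0 ≤ C) (hS : MeasurableSet (closedBall y t \ L))
    (hw : ∀ᵐ z ∂(volume.restrict (closedBall y t \ L)), DifferentiableAt ℝ w z)
    (hh : ∀ z ∈ closedBall y t \ L, DifferentiableAt ℝ h z ∧ ‖fderiv ℝ h z‖ ≤ A)
    (hE : En w L (closedBall y t) ≤ ENNReal.ofReal (C * t)) :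
    En (fun z => w z + h z) L (closedBall y t) ≤
      En w L (closedBall y t) + ENNReal.ofReal ((C + 7 * A ^ 2) * t * √t) := by
  have l0 := Real.sqrt_pos.2 ht
  have l1 := Real.sqrt_le_one.2 ht1
  have l2 := Real.mul_self_sqrt ht.le
  have h1 := dir_add hS l0 hw hh
  have h2 : volume (closedBall y t \ L) ≤ ENNReal.ofReal (t ^ 2 * Real.pi) := by
    refine (measure_mono sdiff_subset).trans (le_of_eq ?_)
    rw [Complex.volume_closedBall, ENNReal.ofReal_mul (sq_nonneg t), ENNReal.ofReal_pow ht.le,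
      ← NNReal.coe_real_pi, ENNReal.ofReal_coe_nnreal]
  have h3 : Dir w (closedBall y t \ L) ≤ ENNReal.ofReal (C * t) := le_self_add.trans hE
  generalize √t = l at *
  have h4 : (1 + 1 / l) * A ^ 2 * (t ^ 2 * Real.pi) ≤ 7 * A ^ 2 * t * l := by
    have e : (1 + 1 / l) * A ^ 2 * (t ^ 2 * Real.pi) = (l + 1) * Real.pi * (A ^ 2 * t * l) := by
      rw [sq t]
      nth_rewrite 1 [← l2]
      field_simp
    have e2 : (l + 1) * Real.pi ≤ 7 := by nlinarith [Real.pi_lt_d2, Real.pi_pos]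
    have e3 := mul_le_mul_of_nonneg_right e2 (by positivity : 0 ≤ A ^ 2 * t * l)
    linarith
  rw [ENNReal.ofReal_add zero_le_one l0.le, ENNReal.ofReal_one, add_mul, one_mul] at h1
  have h5 : ENNReal.ofReal l * Dir w (closedBall y t \ L) +
      ENNReal.ofReal ((1 + 1 / l) * A ^ 2) * volume (closedBall y t \ L) ≤
      ENNReal.ofReal ((C + 7 * A ^ 2) * t * l) := by
    refine (add_le_add (mul_le_mul_right h3 _) (mul_le_mul_right h2 _)).trans ?_
    rw [← ENNReal.ofReal_mul l0.le, ← ENNReal.ofReal_mul (by positivity),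
      ← ENNReal.ofReal_add (by positivity) (by positivity)]
    exact ENNReal.ofReal_le_ofReal (by linarith)
  rw [add_assoc] at h1
  rw [En, En, add_right_comm]
  exact add_le_add (h1.trans (add_le_add le_rfl h5)) le_rfl

theorem almost_min {Ω K L : Set ℂ} {g u w h : ℂ → ℝ} {x y : ℂ} {r t M A : ℝ} (hΩ : IsOpen Ω)
    (hg : MemLp g ∞ (volume.restrict Ω)) (hu : ContDiffOn ℝ 1 u (Ω \ K))
    (hmin : Minimizer Ω g u (gr u) K) (hr : closedBall x r ⊆ Ω) (hM : ∀ z ∈ ball x r \ K, |u z| ≤ M)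
    (hM0 : 0 ≤ M) (hgM : ∀ᵐ z ∂(volume.restrict Ω), |g z| ≤ M) (hh : ContDiffOn ℝ 1 h (ball x r))
    (hA : ∀ z ∈ ball x r, ‖fderiv ℝ h z‖ ≤ A) (ht : 0 < t) (ht1 : t ≤ 1)
    (hB : closedBall y t ⊆ ball x r)
    (hc : Comp (ball x r) False (fun z => u z - h z) (K ∩ closedBall x r) y t w L) :
    En (fun z => u z - h z) (K ∩ closedBall x r) (closedBall y t) ≤ En w L (closedBall y t) +
      ENNReal.ofReal ((30 + 60 * M ^ 2 + 30 * A ^ 2) * t * √t) := by
  have l0 := Real.sqrt_pos.2 ht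
  have l1 := Real.sqrt_le_one.2 ht1
  have l2 := Real.mul_self_sqrt ht.le
  have hx : ball x r ⊆ closedBall x r := ball_subset_closedBall
  have hBΩ := hB.trans (hx.trans hr)
  have dh : ∀ z ∈ closedBall y t, DifferentiableAt ℝ h z := fun z hz =>
    (hh.differentiableOn one_ne_zero).differentiableAt (isOpen_ball.mem_nhds (hB hz))
  have e0 : En (fun z => u z - h z) (K ∩ closedBall x r) (closedBall y t) =
      En (fun z => u z + -h z) K (closedBall y t) := by
    have a1 : closedBall y t \ (K ∩ closedBall x r) = closedBall y t \ K :=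
      Set.ext fun z => ⟨fun a => ⟨a.1, fun b => a.2 ⟨b, hx (hB a.1)⟩⟩, fun a => ⟨a.1, fun b => a.2 b.1⟩⟩
    rw [En, En, a1, inter_assoc, inter_eq_self_of_subset_right (hB.trans hx)]
    simp only [sub_eq_add_neg]
  have mK : MeasurableSet (closedBall y t \ K) := by
    have a1 : closedBall y t \ K = closedBall y t ∩ (Ω \ K) :=
      Set.ext fun z => ⟨fun a => ⟨a.1, hBΩ a.1, a.2⟩, fun a => ⟨a.1, a.2.2⟩⟩
    rw [a1]
    exact measurableSet_closedBall.inter hmin.adm.relClosed.measurableSet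
  have u1 := upper_local hΩ hg hu hmin ht ht1 hBΩ hM0 hgM
  have u2 := step_Min (h := fun z => -h z) (A := A) ht ht1 (by positivity) mK
    (ae_restrict_of_forall_mem mK fun z hz => (hu.differentiableOn one_ne_zero).differentiableAt
      (hmin.adm.relClosed.mem_nhds ⟨hBΩ hz.1, hz.2⟩))
    (fun z hz => ⟨(dh z hz.1).fun_neg, by rw [fderiv_fun_neg, norm_neg]; exact hA z (hB hz.1)⟩) u1
  rw [e0]
  rcases le_total (En (fun z => u z + -h z) K (closedBall y t)) (En w L (closedBall y t)) with c | c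
  · exact c.trans le_self_add
  have tl : t * √t ≤ t := mul_le_of_le_one_right ht.le l1
  have tt : t ^ 2 ≤ t * √t := by nlinarith
  have u3 : En w L (closedBall y t) ≤ ENNReal.ofReal ((14 + 26 * M ^ 2 + 7 * A ^ 2) * t) := by
    refine (c.trans u2).trans ((add_le_add u1 le_rfl).trans ?_)
    rw [← ENNReal.ofReal_add (by positivity) (by positivity)]
    refine ENNReal.ofReal_le_ofReal ?_
    have := mul_le_mul_of_nonneg_left tl (by positivity : 0 ≤ 7 + 13 * M ^ 2 + 7 * A ^ 2)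
    linarith
  have u4 := step_Min (h := h) (A := A) ht ht1 (by positivity)
    (measurableSet_closedBall.diff hc.closed.measurableSet)
    (ae_restrict_of_ae_restrict_of_subset (sdiff_subset_sdiff_left hB)
      (locLip_ae_diff (isOpen_ball.sdiff hc.closed) hc.lip))
    (fun z hz => ⟨dh z hz.1, hA z (hB hz.1)⟩) u3
  have u5 := cmp_trunc hΩ hg hu hmin hr hM hM0 hgM hh ht hB hc
  refine u2.trans ((add_le_add (u5.trans (add_le_add u4 le_rfl)) le_rfl).trans ?_)
  rw [add_assoc, add_assoc, ← ENNReal.ofReal_add (by positivity) (by positivity),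
    ← ENNReal.ofReal_add (by positivity) (by positivity)]
  refine add_le_add le_rfl (ENNReal.ofReal_le_ofReal ?_)
  have a1 := mul_le_mul_of_nonneg_left tt (by positivity : 0 ≤ 13 * M ^ 2)
  have a2 : 0 ≤ (9 + 8 * M ^ 2 + 9 * A ^ 2) * (t * √t) := by positivity
  linarith

end

end Vale.Agent.P128.B0
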