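import Vale.Agent.P128.B0.Repy

/-! P128 B0/Out  (helper names end with _Out)

The outer variation.  `U = ball x r \ (K ∩ closedBall x r) = ball x r \ K`.  `ψ` vanishes near each point off `C`, so it is locally Lipschitz on `Ω \ K` (`locLip_iff`) and `Dir`, integrals over `Ω \ K` and `U` agree.  `euler`; on `U`: `fderiv ψ z (gr (u - h) z) = inner (gr u) (gr ψ) - fderiv ψ z (gr h z)` (`EARN.gr_add`, `EARN.fderiv_eq_inner`),
`|fderiv ψ z (gr h z)| ≤ A ‖fderiv ψ z‖` (`norm_dz`), `‖fderiv ψ‖` is integrable on `U` (`ofm_int`, finite measure), `|(u - g) ψ| ≤ 2 M |ψ|` a.e.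
-/

namespace Vale.Agent.P128.B0

open MeasureTheory Set Metric Filter Topology
open scoped ENNReal

noncomputable section

theorem zero_Out {C : Set ℂ} {ψ : ℂ → ℝ} (hC : IsCompact C) (h0 : ∀ z, z ∉ C → ψ z = 0) {z : ℂ}
    (hz : z ∉ C) : ψ =ᶠ[𝓝 z] fun _ => 0 := by
  filter_upwards [hC.isClosed.isOpen_compl.mem_nhds hz] with w hw
  exact h0 w hw

theorem fd_Out {C : Set ℂ} {ψ : ℂ → ℝ} (hC : IsCompact C) (h0 : ∀ z, z ∉ C → ψ z = 0) {z : ℂ}
    (hz : z ∉ C) : fderiv ℝ ψ z = 0 := by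
  rw [(zero_Out hC h0 hz).fderiv_eq]
  exact fderiv_const_apply 0

theorem outer_est {Ω K C : Set ℂ} {g u h ψ : ℂ → ℝ} {x : ℂ} {r M A : ℝ} (hΩ : IsOpen Ω)
    (hg : MemLp g ∞ (volume.restrict Ω)) (hu : ContDiffOn ℝ 1 u (Ω \ K))
    (hmin : Minimizer Ω g u (gr u) K) (hr : closedBall x r ⊆ Ω) (hM : ∀ z ∈ ball x r \ K, |u z| ≤ M)
    (hgM : ∀ᵐ z ∂(volume.restrict Ω), |g z| ≤ M) (hh : ContDiffOn ℝ 1 h (ball x r))
    (hA : ∀ z ∈ ball x r, ‖fderiv ℝ h z‖ ≤ A) (hC : IsCompact C) (hCB : C ⊆ ball x r)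
    (h0 : ∀ z, z ∉ C → ψ z = 0) (hl : LocallyLipschitzOn (ball x r \ (K ∩ closedBall x r)) ψ)
    (hb : ∃ M', ∀ z, |ψ z| ≤ M') (hd : Dir ψ (ball x r \ (K ∩ closedBall x r)) < ∞) :
    |∫ z in ball x r \ (K ∩ closedBall x r), fderiv ℝ ψ z (gr (fun z => u z - h z) z)| ≤
      2 * M * (∫ z in ball x r \ (K ∩ closedBall x r), |ψ z|) +
        A * ∫ z in ball x r \ (K ∩ closedBall x r), ‖fderiv ℝ ψ z‖ := by
  have hBΩ : ball x r ⊆ Ω := ball_subset_closedBall.trans hr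
  have e : ball x r \ (K ∩ closedBall x r) = ball x r ∩ (Ω \ K) := by
    ext z
    exact ⟨fun hz => ⟨hz.1, hBΩ hz.1, fun hk => hz.2 ⟨hk, ball_subset_closedBall hz.1⟩⟩,
      fun hz => ⟨hz.1, fun hk => hz.2.2 hk.1⟩⟩
  rw [e] at hl hd ⊢
  have hO := hmin.adm.relClosed
  have hU : IsOpen (ball x r ∩ (Ω \ K)) := isOpen_ball.inter hO
  have hoff : ∀ z ∈ (Ω \ K) \ (ball x r ∩ (Ω \ K)), z ∉ C := fun z hz hc => hz.2 ⟨hCB hc, hz.1⟩
  have hl' : LocallyLipschitzOn (Ω \ K) ψ := (locLip_iff hO).2 fun z hz => by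
    by_cases hc : z ∈ C
    · exact (locLip_iff hU).1 hl z ⟨hCB hc, hz⟩
    · exact (lipAt_const 0 z).congr (zero_Out hC h0 hc)
  have hd' : Dir ψ (Ω \ K) < ∞ := by
    refine lt_of_eq_of_lt ?_ hd
    unfold Dir
    rw [← Measure.restrict_restrict measurableSet_ball]
    refine (setLIntegral_eq_of_support_subset fun z hz => ?_).symm
    by_contra hc
    refine hz ?_
    show ‖fderiv ℝ ψ z‖ₑ ^ 2 = 0
    rw [fd_Out hC h0 fun h => hc (hCB h), ← ofReal_norm, norm_zero, ENNReal.ofReal_zero]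
    exact zero_pow two_ne_zero
  obtain ⟨i1, _, i3⟩ := euler hΩ hg hmin hC (hCB.trans hBΩ) h0 hl' hb hd'
  rw [setIntegral_eq_of_subset_of_forall_sdiff_eq_zero hO.measurableSet
      (inter_subset_right (s := ball x r)) fun z hz => by simp [gr, fd_Out hC h0 (hoff z hz)],
    setIntegral_eq_of_subset_of_forall_sdiff_eq_zero (f := fun z => (u z - g z) * ψ z)
      hO.measurableSet (inter_subset_right (s := ball x r))
      fun z hz => by rw [h0 z (hoff z hz), mul_zero]] at i3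
  have hfin : volume (ball x r ∩ (Ω \ K)) ≠ ∞ :=
    ((measure_mono inter_subset_left).trans_lt measure_ball_lt_top).ne
  have j1 : IntegrableOn (fun z => ‖fderiv ℝ ψ z‖) (ball x r ∩ (Ω \ K)) :=
    Integrable.mono' ((ofm_int hd.ne).add (integrableOn_const (C := (1 : ℝ)) hfin))
      (measurable_fderiv ℝ ψ).norm.aestronglyMeasurable (ae_of_all _ fun z => by
        simp only [norm_norm, Pi.add_apply]
        nlinarith [sq_nonneg (‖fderiv ℝ ψ z‖ - 1), norm_nonneg (fderiv ℝ ψ z)])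
  obtain ⟨M', hM'⟩ := hb
  have j2 : IntegrableOn (fun z => |ψ z|) (ball x r ∩ (Ω \ K)) :=
    Integrable.mono' (integrableOn_const (C := M') hfin)
      (hl.continuousOn.abs.aestronglyMeasurable hU.measurableSet) (ae_of_all _ fun z => by
        rw [Real.norm_eq_abs, abs_abs]
        exact hM' z)
  have b1 : ∀ᵐ z ∂(volume.restrict (ball x r ∩ (Ω \ K))),
      ‖inner ℝ (gr ψ z) (gr h z)‖ ≤ A * ‖fderiv ℝ ψ z‖ := by
    filter_upwards [ae_restrict_mem hU.measurableSet] with z hz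
    refine (norm_inner_le_norm _ _).trans ?_
    rw [(norm_dz ψ z).2.1, (norm_dz h z).2.1, mul_comm]
    exact mul_le_mul_of_nonneg_right (hA z hz.1) (norm_nonneg _)
  have j3 : IntegrableOn (fun z => inner ℝ (gr ψ z) (gr h z)) (ball x r ∩ (Ω \ K)) :=
    Integrable.mono' (j1.const_mul A)
      ((EARN.measurable_gr ψ).1.inner (EARN.measurable_gr h).1).aestronglyMeasurable b1
  have b2 : ∀ᵐ z ∂(volume.restrict (ball x r ∩ (Ω \ K))), ‖(u z - g z) * ψ z‖ ≤ 2 * M * |ψ z| := by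
    filter_upwards [ae_restrict_mem hU.measurableSet, ae_restrict_of_ae_restrict_of_subset
      (inter_subset_left.trans hBΩ) hgM] with z hz hz'
    rw [Real.norm_eq_abs, abs_mul]
    refine mul_le_mul_of_nonneg_right ((abs_sub _ _).trans ?_) (abs_nonneg _)
    linarith [hM z ⟨hz.1, hz.2.2⟩]
  have c1 := norm_integral_le_of_norm_le (j1.const_mul A) b1
  have c2 := norm_integral_le_of_norm_le (j2.const_mul (2 * M)) b2
  have e2 : ∫ z in ball x r ∩ (Ω \ K), fderiv ℝ ψ z (gr (fun z => u z - h z) z) =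
      (∫ z in ball x r ∩ (Ω \ K), inner ℝ (gr u z) (gr ψ z)) -
        ∫ z in ball x r ∩ (Ω \ K), inner ℝ (gr ψ z) (gr h z) := by
    rw [← integral_sub (i1.mono_set inter_subset_right) j3]
    refine setIntegral_congr_fun hU.measurableSet fun z hz => ?_
    have d1 := (hu.contDiffAt (hO.mem_nhds hz.2)).differentiableAt one_ne_zero
    have d2 := (hh.contDiffAt (isOpen_ball.mem_nhds hz.1)).differentiableAt one_ne_zero
    rw [EARN.fderiv_eq_inner, (EARN.gr_add d1 d2).2.1, inner_sub_right, real_inner_comm]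
  rw [integral_const_mul, Real.norm_eq_abs] at c1 c2
  rw [e2, i3]
  refine (abs_sub _ _).trans ?_
  rw [abs_neg]
  exact add_le_add c2 c1

end

end Vale.Agent.P128.B0
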