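import Vale.Agent.P128.B0.Repy
import Vale.Agent.P128.B0.Hil

/-! P128 B0/Pot  (helper names end with _Pot)

The correction.  `f = (ball x R).indicator (u - g)` is bounded a.e. (`K` is null) and in `L²` (`fid_mem`); `exists_sol`, `regc_c1` give `h`; `weq_min`; for a test function supported in `ball x R \ K` all integrands vanish off the support (`lap_mem`), `EARN.int_Calc` gives integrability; `weylc`.
-/

namespace Vale.Agent.P128.B0

open MeasureTheory Set Metric Filter Topology
open scoped ENNReal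

noncomputable section

theorem exists_corr {Ω K : Set ℂ} {g u : ℂ → ℝ} {x : ℂ} {R M : ℝ} (hΩ : IsOpen Ω)
    (hg : MemLp g ∞ (volume.restrict Ω)) (hu : ContDiffOn ℝ 1 u (Ω \ K))
    (hmin : Minimizer Ω g u (gr u) K) (hR : 0 < R) (hB : closedBall x R ⊆ Ω)
    (hM : ∀ z ∈ ball x R \ K, |u z| ≤ M) (hgM : ∀ᵐ z ∂(volume.restrict Ω), |g z| ≤ M) :
    ∃ h : ℂ → ℝ, ContDiffOn ℝ 1 h (ball x R) ∧
      DifferentiableOn ℂ (dz fun z => u z - h z) (ball x R \ K) := by
  have hb : ball x R ⊆ Ω := ball_subset_closedBall.trans hB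
  have hK : ∀ᵐ z, z ∉ K := measure_eq_zero_iff_ae_notMem.1 (vol_zero_of_len hmin.adm.finite)
  have hO : IsOpen (ball x R \ K) := by
    have e : ball x R \ K = ball x R ∩ (Ω \ K) :=
      Subset.antisymm (fun z hz => ⟨hz.1, hb hz.1, hz.2⟩) fun z hz => ⟨hz.1, hz.2.2⟩
    rw [e]
    exact isOpen_ball.inter hmin.adm.relClosed
  have f2 : MemLp ((ball x R).indicator fun z => u z - g z) 2 volume :=
    (memLp_indicator_iff_restrict measurableSet_ball).2
      (fid_mem hg hmin.adm.memL2 measurableSet_ball hb measure_ball_lt_top)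
  obtain ⟨h₀, k1, k2⟩ := exists_sol f2 x hR
  obtain ⟨h, k3, k4⟩ := regc_c1 isOpen_ball (k1.locallyIntegrable one_le_two)
    (f2.locallyIntegrable one_le_two) k2 fun y _ => ⟨1, |M + M|, one_pos, by
      filter_upwards [hK, (ae_restrict_iff' hΩ.measurableSet).1 hgM] with z h1 h2 _
      by_cases hz : z ∈ ball x R
      · rw [indicator_of_mem hz]
        exact (abs_sub _ _).trans ((add_le_add (hM z ⟨hz, h1⟩) (h2 (hb hz))).trans (le_abs_self _))
      · rw [indicator_of_notMem hz, abs_zero]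
        exact abs_nonneg _⟩
  have c1 : ContinuousOn u (ball x R \ K) := hu.continuousOn.mono fun z hz => ⟨hb hz.1, hz.2⟩
  have c2 : ContinuousOn h (ball x R \ K) := k3.continuousOn.mono sdiff_subset
  refine ⟨h, k3, weylc hO (c1.sub c2) fun φ p1 p2 p3 => ?_⟩
  obtain ⟨l1, l2, -⟩ := lap_mem p1 p2
  have e1 := weq_min hΩ hg hmin φ p1 p2 fun z hz => ⟨hb (p3 hz).1, (p3 hz).2⟩
  have e2 := k2 φ p1 p2 fun z hz => (p3 hz).1
  have e3 : ∫ z, EARN.lap φ z * Ω.indicator u z = ∫ z, EARN.lap φ z * u z :=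
    integral_congr_ae (ae_of_all _ fun z => by
      by_cases hz : z ∈ tsupport φ
      · simp only [indicator_of_mem (hb (p3 hz).1)]
      · simp only [l2 z hz, zero_mul])
  have e4 : ∫ z, φ z * Ω.indicator (fun z => u z - g z) z =
      ∫ z, φ z * (ball x R).indicator (fun z => u z - g z) z :=
    integral_congr_ae (ae_of_all _ fun z => by
      by_cases hz : z ∈ tsupport φ
      · simp only [indicator_of_mem (hb (p3 hz).1), indicator_of_mem (p3 hz).1]
      · simp only [image_eq_zero_of_notMem_tsupport hz, zero_mul])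
  have e5 : ∫ z, EARN.lap φ z * h z = ∫ z, EARN.lap φ z * h₀ z :=
    integral_congr_ae (k4.mono fun z hz => by simp only [hz])
  simp only [mul_sub, mul_zero, integral_zero]
  rw [integral_sub (EARN.int_Calc p2.isCompact l1 l2 (c1.mono p3))
    (EARN.int_Calc p2.isCompact l1 l2 (c2.mono p3)), e5, e2, ← e4, ← e1, e3, sub_self]

end

end Vale.Agent.P128.B0
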