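import Vale.Agent.P128.TB.Main
import Vale.Agent.P128.B0.Bdd
import Vale.Agent.P128.B0.Pot
import Vale.Agent.P128.B0.Miny
import Vale.Agent.P128.B0.Out

/-! P128 block B0: from minimizers to almost minimizers. Interface; see notes/P128.md. -/

namespace Vale.Agent.P128

open MeasureTheory Set Metric Filter Topology
open scoped ENNReal

theorem b0_rad {x y : ℂ} {r t : ℝ} (ht : 0 < t) (hs : closedBall y t ⊆ ball x r) : t ≤ r := by
  by_contra hlt
  push Not at hlt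
  have h1 : y + (t : ℂ) ∈ ball x r := hs (by simp [abs_of_pos ht])
  have h2 : y - (t : ℂ) ∈ ball x r := hs (by simp [abs_of_pos ht])
  have h3 : dist (y + (t : ℂ)) (y - (t : ℂ)) = 2 * t := by
    rw [dist_eq_norm]
    have : y + (t : ℂ) - (y - (t : ℂ)) = ((2 * t : ℝ) : ℂ) := by push_cast; ring
    rw [this, Complex.norm_real, Real.norm_eq_abs, abs_of_pos (by linarith)]
  have h4 := dist_triangle_right (y + (t : ℂ)) (y - (t : ℂ)) x
  rw [mem_ball] at h1 h2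
  linarith

theorem b0_bound {h : ℂ → ℝ} {x : ℂ} {R : ℝ} (hR : 0 < R) (hh : ContDiffOn ℝ 1 h (ball x R)) :
    ∃ A : ℝ, 0 ≤ A ∧ ∀ z ∈ closedBall x (R / 2), ‖fderiv ℝ h z‖ ≤ A ∧ |h z| ≤ A := by
  have hs : closedBall x (R / 2) ⊆ ball x R := closedBall_subset_ball (by linarith)
  obtain ⟨A1, h1⟩ := (isCompact_closedBall x (R / 2)).exists_bound_of_continuousOn
    ((hh.continuousOn_fderiv_of_isOpen isOpen_ball le_rfl).mono hs)
  obtain ⟨A2, h2⟩ := (isCompact_closedBall x (R / 2)).exists_bound_of_continuousOn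
    (hh.continuousOn.mono hs)
  refine ⟨max (max A1 A2) 0, le_max_right _ _, fun z hz => ⟨?_, ?_⟩⟩
  · exact (h1 z hz).trans ((le_max_left _ _).trans (le_max_left _ _))
  · exact (h2 z hz).trans ((le_max_right _ _).trans (le_max_left _ _))

theorem reduce_y {Ω : Set ℂ} (hΩ : IsOpen Ω) {g u : ℂ → ℝ} {G : ℂ → ℂ} {K : Set ℂ}
    (hg : MemLp g ∞ (volume.restrict Ω)) (hmin : Minimizer Ω g u G K) {x : ℂ} (hx : x ∈ Ω)
    {ε₀ : ℝ} (hε₀ : 0 < ε₀) :
    ∃ (r ε : ℝ) (v : ℂ → ℝ), 0 < r ∧ closedBall x r ⊆ Ω ∧ ε * √r ≤ ε₀ ∧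
      AM0 (ball x r) ε False v (K ∩ closedBall x r) := by
  obtain ⟨w, hw, hm⟩ := B0.exists_rep hΩ hg hmin
  obtain ⟨R, M, hR, hR1, hM0, hB, hM, hgM⟩ := B0.loc_bdd hΩ hg hw hm hx
  obtain ⟨h, hh, hhol⟩ := B0.exists_corr hΩ hg hw hm hR hB hM hgM
  obtain ⟨A, hA0, hA⟩ := b0_bound hR hh
  obtain ⟨ε, hε⟩ : ∃ ε : ℝ, ε = 30 + 60 * M ^ 2 + 30 * A ^ 2 + 2 * M * (M + A) + 2 * M + A := ⟨_, rfl⟩
  have hp : 0 ≤ 2 * M * (M + A) := by positivity
  have hq : 0 ≤ 60 * M ^ 2 + 30 * A ^ 2 := by positivity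
  have hε0 : 0 < ε := by rw [hε]; linarith
  obtain ⟨δ, hδ⟩ : ∃ δ : ℝ, δ = min 1 ε₀ / ε := ⟨_, rfl⟩
  have hδ0 : 0 < δ := by rw [hδ]; exact div_pos (lt_min one_pos hε₀) hε0
  obtain ⟨r, hr⟩ : ∃ r : ℝ, r = min (R / 2) (δ ^ 2) := ⟨_, rfl⟩
  have hr0 : 0 < r := by rw [hr]; exact lt_min (by linarith) (by positivity)
  have hrR : r ≤ R / 2 := by rw [hr]; exact min_le_left _ _
  have hsq : ∀ t : ℝ, t ≤ r → ε * √t ≤ min 1 ε₀ := fun t ht => by
    have h1 : √t ≤ δ := Real.sqrt_le_iff.2 ⟨hδ0.le, ht.trans (by rw [hr]; exact min_le_right _ _)⟩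
    have h2 : ε * δ = min 1 ε₀ := by rw [hδ]; field_simp
    rw [← h2]
    exact mul_le_mul_of_nonneg_left h1 hε0.le
  have hbb : ball x r ⊆ ball x R := ball_subset_ball (by linarith)
  have hbc : ball x r ⊆ closedBall x (R / 2) := ball_subset_closedBall.trans (closedBall_subset_closedBall hrR)
  have hcΩ : closedBall x r ⊆ Ω := (closedBall_subset_closedBall (by linarith)).trans hB
  have hmem : ∀ z ∈ ball x r \ (K ∩ closedBall x r), z ∈ ball x R \ K := fun z hz =>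
    ⟨hbb hz.1, fun hK => hz.2 ⟨hK, ball_subset_closedBall hz.1⟩⟩
  have hM' : ∀ z ∈ ball x r \ K, |w z| ≤ M := fun z hz => hM z ⟨hbb hz.1, hz.2⟩
  have hA' : ∀ z ∈ ball x r, ‖fderiv ℝ h z‖ ≤ A := fun z hz => (hA z (hbc hz)).1
  refine ⟨r, ε, fun z => w z - h z, hr0, hcΩ, (hsq r le_rfl).trans (min_le_right _ _),
    isOpen_ball, B0.closed_cap hm.adm.relClosed hcΩ, hε0.le, False.elim,
    fun y t ht hs => (hsq t (b0_rad ht hs)).trans (min_le_left _ _), fun z hz => ?_,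
    hhol.mono hmem, fun y t w' L ht hs hc => ?_, 2 * M, by positivity, fun y t ht hs => ?_,
    fun ψ C hC hCB h0 hl hb hd => ?_⟩
  · have hz' := hmem z hz
    have h1 : z ∈ Ω \ K := ⟨hB (ball_subset_closedBall hz'.1), hz'.2⟩
    exact ((hw.contDiffAt (hm.adm.relClosed.mem_nhds h1)).differentiableAt one_ne_zero).sub
      ((hh.contDiffAt (isOpen_ball.mem_nhds hz'.1)).differentiableAt one_ne_zero)
  · have ht1 : t ≤ 1 := by linarith [b0_rad ht hs]
    refine (B0.almost_min hΩ hg hw hm hcΩ hM' hM0 hgM (hh.mono hbb) hA' ht ht1 hs hc).trans ?_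
    refine add_le_add le_rfl (ENNReal.ofReal_le_ofReal ?_)
    refine mul_le_mul_of_nonneg_right (mul_le_mul_of_nonneg_right ?_ ht.le) (Real.sqrt_nonneg _)
    rw [hε]; linarith
  · have ht1 : t ≤ 1 := by linarith [b0_rad ht hs]
    refine ⟨?_, fun z hz => ?_⟩
    · have : 2 * M * t ≤ 2 * M := mul_le_of_le_one_right (by positivity) ht1
      rw [hε]; linarith
    · have h1 : |w z - h z| ≤ M + A :=
        (abs_sub _ _).trans (add_le_add (hM z (hmem z hz)) (hA z (hbc hz.1)).2)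
      have h2 : √t ≤ 1 := Real.sqrt_le_one.2 ht1
      have h3 : 2 * M * |w z - h z| * √t ≤ 2 * M * |w z - h z| :=
        mul_le_of_le_one_right (by positivity) h2
      have h4 : 2 * M * |w z - h z| ≤ 2 * M * (M + A) := mul_le_mul_of_nonneg_left h1 (by positivity)
      rw [hε]; linarith
  · refine (B0.outer_est hΩ hg hw hm hcΩ hM' hgM (hh.mono hbb) hA' hC hCB h0 hl hb hd).trans ?_
    refine add_le_add le_rfl (mul_le_mul_of_nonneg_right ?_ (integral_nonneg fun _ => norm_nonneg _))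
    rw [hε]; linarith

end Vale.Agent.P128
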