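import Vale.Agent.P128.B0.EL

/-! P128 B0/Min. Almost minimality of u - p. Plan: dir_add_le pointwise:
(a + tau)^2 <= (1 + l) a^2 + (1 + 1/l) tau^2. am_min: if En v K <= En w L nothing to do; otherwise
Dir w <= En v K <= 30 t; W = clamp M (w + p) is a competitor for u (outside the closed ball
w + p = u and |u| <= M); Fid g W <= 4 pi M^2 t^2; use dir_add_le twice with l = tau sqrt t. -/

namespace Vale.Agent.P128.B0

open MeasureTheory Set Metric Filter Topology
open scoped ENNReal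

theorem pt_Min {w p : ℂ → ℝ} {z : ℂ} {τ : ℝ} (hp : DifferentiableAt ℝ p z)
    (hτ : ‖fderiv ℝ p z‖ ≤ τ) : ‖fderiv ℝ (fun z => w z + p z) z‖ ≤ ‖fderiv ℝ w z‖ + τ := by
  by_cases hw : DifferentiableAt ℝ w z
  · rw [fderiv_fun_add hw hp]
    exact (norm_add_le _ _).trans (by linarith)
  · rw [fderiv_zero_of_not_differentiableAt fun h => hw (by simpa using h.fun_sub hp), norm_zero]
    linarith [norm_nonneg (fderiv ℝ w z), norm_nonneg (fderiv ℝ p z)]

theorem sq_Min (a τ : ℝ) {l : ℝ} (hl : 0 < l) :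
    (a + τ) ^ 2 ≤ (1 + l) * a ^ 2 + (1 + 1 / l) * τ ^ 2 := by
  have h : (1 + l) * a ^ 2 + (1 + 1 / l) * τ ^ 2 - (a + τ) ^ 2 = (l * a - τ) ^ 2 / l := by
    field_simp
    ring
  have h2 : 0 ≤ (l * a - τ) ^ 2 / l := by positivity
  linarith

theorem dir_add_le {U S : Set ℂ} (hU : IsOpen U) (hS : S ⊆ U) {w p : ℂ → ℝ}
    (hw : LocallyLipschitzOn U w) (hp : ContDiff ℝ 1 p) {τ l : ℝ} (hl : 0 < l)
    (hτ : ∀ z ∈ U, ‖fderiv ℝ p z‖ ≤ τ) :
    Dir (fun z => w z + p z) S ≤ ENNReal.ofReal (1 + l) * Dir w S +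
      ENNReal.ofReal ((1 + 1 / l) * τ ^ 2) * volume S := by
  have hm : Measurable fun z => ‖fderiv ℝ w z‖ₑ ^ 2 := (measurable_fderiv ℝ w).enorm.pow_const 2
  have key : ∀ z ∈ S, ‖fderiv ℝ (fun z => w z + p z) z‖ₑ ^ 2 ≤
      ENNReal.ofReal (1 + l) * ‖fderiv ℝ w z‖ₑ ^ 2 + ENNReal.ofReal ((1 + 1 / l) * τ ^ 2) := by
    intro z hz
    have h1 := pt_Min (w := w) (hp.differentiable one_ne_zero z) (hτ z (hS hz))
    rw [← ofReal_norm, ← ofReal_norm, ← ENNReal.ofReal_pow (norm_nonneg _),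
      ← ENNReal.ofReal_pow (norm_nonneg _), ← ENNReal.ofReal_mul (by positivity),
      ← ENNReal.ofReal_add (by positivity) (by positivity)]
    refine ENNReal.ofReal_le_ofReal ((pow_le_pow_left₀ (norm_nonneg _) h1 2).trans ?_)
    exact sq_Min _ _ hl
  refine (setLIntegral_mono ((hm.const_mul _).add_const _) key).trans (le_of_eq ?_)
  rw [lintegral_add_right _ measurable_const, lintegral_const_mul _ hm, setLIntegral_const]
  rfl

theorem vol_Min (y : ℂ) {t : ℝ} (ht : 0 < t) :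
    volume (closedBall y t) ≤ ENNReal.ofReal (4 * t ^ 2) := by
  rw [Complex.volume_closedBall, ← ENNReal.ofReal_pow ht.le, ← ENNReal.ofReal_coe_nnreal,
    ← ENNReal.ofReal_mul (by positivity)]
  refine ENNReal.ofReal_le_ofReal ?_
  have : ((NNReal.pi : NNReal) : ℝ) ≤ 4 := Real.pi_le_four
  nlinarith [sq_nonneg t]

theorem en_Min {U L : Set ℂ} {y : ℂ} {t : ℝ} (hU : IsOpen U) (hS : closedBall y t \ L ⊆ U)
    {w p : ℂ → ℝ} (hw : LocallyLipschitzOn U w) (hp : ContDiff ℝ 1 p) {τ a : ℝ} (ht : 0 < t)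
    (hτ0 : 0 < τ) (h2 : τ ^ 2 * t ≤ 1) (ha : 0 ≤ a) (hτ : ∀ z ∈ U, ‖fderiv ℝ p z‖ ≤ τ)
    (hD : Dir w (closedBall y t \ L) ≤ ENNReal.ofReal (a * t)) :
    En (fun z => w z + p z) L (closedBall y t) ≤
      En w L (closedBall y t) + ENNReal.ofReal ((a + 8) * τ * t * √t) := by
  have hs : 0 < √t := Real.sqrt_pos.2 ht
  have hl : 0 < τ * √t := by positivity
  have h3 := dir_add_le hU hS hw hp hl hτ
  rw [ENNReal.ofReal_add zero_le_one hl.le, ENNReal.ofReal_one, add_mul, one_mul, add_assoc] at h3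
  unfold En
  rw [add_right_comm]
  refine add_le_add (h3.trans (add_le_add le_rfl ((add_le_add (mul_le_mul' le_rfl hD) (mul_le_mul'
    le_rfl ((measure_mono sdiff_subset).trans (vol_Min y ht)))).trans ?_))) le_rfl
  rw [← ENNReal.ofReal_mul hl.le, ← ENNReal.ofReal_mul (by positivity),
    ← ENNReal.ofReal_add (by positivity) (by positivity)]
  refine ENNReal.ofReal_le_ofReal ?_
  have e : t = √t ^ 2 := (Real.sq_sqrt ht.le).symm
  generalize √t = s at e hs hl
  subst e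
  have g3 : τ * s ≤ 1 := by
    refine pow_le_one_iff_of_nonneg hl.le two_ne_zero |>.1 ?_
    rw [mul_pow]
    exact h2
  have e1 : (1 + 1 / (τ * s)) * τ ^ 2 * (4 * (s ^ 2) ^ 2) = 4 * (τ * s ^ 3) * (τ * s + 1) := by
    field_simp
  have g4 : 0 < τ * s ^ 3 := by positivity
  rw [e1]
  nlinarith

theorem fid_Min {g w : ℂ → ℝ} {y : ℂ} {t M : ℝ} (hM : 0 ≤ M) (ht : 0 < t) (hw : ∀ z, |w z| ≤ M)
    (hg : ∀ᵐ z ∂(volume.restrict (closedBall y t)), |g z| ≤ M) :
    Fid g w (closedBall y t) ≤ ENNReal.ofReal (16 * M ^ 2 * t ^ 2) := by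
  have h1 : ∀ᵐ z ∂(volume.restrict (closedBall y t)),
      ‖w z - g z‖ₑ ^ 2 ≤ ENNReal.ofReal ((2 * M) ^ 2) := by
    filter_upwards [hg] with z hz
    rw [← ofReal_norm, ← ENNReal.ofReal_pow (norm_nonneg _)]
    refine ENNReal.ofReal_le_ofReal (pow_le_pow_left₀ (norm_nonneg _) ?_ 2)
    exact (abs_sub _ _).trans (by linarith [hw z])
  refine (lintegral_mono_ae h1).trans ?_
  rw [setLIntegral_const]
  refine (mul_le_mul' le_rfl (vol_Min y ht)).trans ?_
  rw [← ENNReal.ofReal_mul (by positivity)]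
  exact ENNReal.ofReal_le_ofReal (le_of_eq (by ring))

theorem am_min {x : ℂ} {r : ℝ} {g u p : ℂ → ℝ} {K : Set ℂ} (h : CM (ball x r) g u K) {M τ : ℝ}
    (hM : 0 ≤ M) (hτ0 : 0 < τ) (hu : ∀ z ∈ ball x r \ K, |u z| ≤ M)
    (hg : ∀ᵐ z ∂(volume.restrict (ball x r)), |g z| ≤ M) (hp : ContDiff ℝ 1 p)
    (hτ : ∀ z ∈ ball x r, ‖fderiv ℝ p z‖ ≤ τ) (h1 : M ^ 2 * r ≤ 1) (h2 : τ ^ 2 * r ≤ 1)
    {y : ℂ} {t : ℝ} {w : ℂ → ℝ} {L : Set ℂ} (ht : 0 < t) (hB : closedBall y t ⊆ ball x r)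
    (hC : Comp (ball x r) False (fun z => u z - p z) K y t w L) :
    En (fun z => u z - p z) K (closedBall y t) ≤ En w L (closedBall y t) +
      ENNReal.ofReal (100 * (τ + M ^ 2 * √r) * t * √t) := by
  obtain ⟨hK0, hO, hul, -⟩ := h.basic
  have htr : t ≤ r := by
    have a1 := mem_ball_iff_norm.1 (hB (show y + t ∈ closedBall y t by simp [abs_of_pos ht]))
    have a2 := mem_ball_iff_norm.1 (hB (show y - t ∈ closedBall y t by simp [abs_of_pos ht]))
    have a3 := norm_sub_le (y + t - x) (y - t - x)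
    rw [show y + t - x - (y - t - x) = ((2 * t : ℝ) : ℂ) by push_cast; ring, Complex.norm_real,
      Real.norm_of_nonneg (by positivity)] at a3
    linarith
  have g1 : M ^ 2 * t ≤ 1 := (mul_le_mul_of_nonneg_left htr (by positivity)).trans h1
  have g2 : τ ^ 2 * t ≤ 1 := (mul_le_mul_of_nonneg_left htr (by positivity)).trans h2
  have hs : 0 < √t := Real.sqrt_pos.2 ht
  have hss : √t * √t = t := Real.mul_self_sqrt ht.le
  have g3 : τ * √t ≤ 1 := by
    refine pow_le_one_iff_of_nonneg (by positivity) two_ne_zero |>.1 ?_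
    rw [mul_pow, Real.sq_sqrt ht.le]
    exact g2
  have e1 : En u K (closedBall y t) ≤ ENNReal.ofReal (11 * t) :=
    (h.upper hg ht hB).trans (ENNReal.ofReal_le_ofReal (by nlinarith))
  have e2 : En (fun z => u z - p z) K (closedBall y t) ≤
      En u K (closedBall y t) + ENNReal.ofReal ((11 + 8) * τ * t * √t) := by
    have := en_Min (L := K) hO (sdiff_subset_sdiff_left hB) hul hp.neg ht hτ0 g2 (by norm_num)
      (fun z hz => by rw [fderiv_fun_neg, norm_neg]; exact hτ z hz.1) (le_self_add.trans e1)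
    simpa only [← sub_eq_add_neg] using this
  rcases le_total (En (fun z => u z - p z) K (closedBall y t)) (En w L (closedBall y t)) with hc | hc'
  · exact hc.trans le_self_add
  have hc : En w L (closedBall y t) ≤ ENNReal.ofReal (30 * t) := by
    refine hc'.trans (e2.trans ((add_le_add e1 le_rfl).trans ?_))
    rw [← ENNReal.ofReal_add (by positivity) (by positivity)]
    exact ENNReal.ofReal_le_ofReal (by nlinarith)
  have hOL : IsOpen (ball x r \ L) := isOpen_ball.sdiff hC.closed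
  obtain ⟨c1, c2, c3, -⟩ := clamp_basic hM
  have hl : LocallyLipschitzOn (ball x r \ L) fun z => w z + p z :=
    hC.lip.add hp.locallyLipschitz.locallyLipschitzOn
  obtain ⟨d1, d2⟩ := dir_comp_le c1 hOL (sdiff_subset_sdiff_left hB (t := L)) hl
  have hW : Comp (ball x r) False u K y t (fun z => clamp M (w z + p z)) L :=
    ⟨hC.closed, hC.eqL, fun z hz hz' => by
      rw [hC.eqw z hz hz', sub_add_cancel, c3 _ (hu z hz)], d2, False.elim⟩
  have e3 := h.min y t _ L ht hB hW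
  have e4 := en_Min (L := L) hOL (sdiff_subset_sdiff_left hB) hC.lip hp ht hτ0 g2 (by norm_num)
    (fun z hz => hτ z hz.1) (le_self_add.trans hc)
  have e5 : En (fun z => clamp M (w z + p z)) L (closedBall y t) ≤
      En (fun z => w z + p z) L (closedBall y t) := add_le_add d1 le_rfl
  have e6 := fid_Min (g := g) (w := fun z => clamp M (w z + p z)) hM ht (fun z => c2 _)
    (ae_restrict_of_ae_restrict_of_subset hB hg)
  refine e2.trans ((add_le_add (le_self_add.trans (e3.trans (add_le_add (e5.trans e4) e6)))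
    le_rfl).trans ?_)
  rw [add_assoc, add_assoc, ← ENNReal.ofReal_add (by positivity) (by positivity),
    ← ENNReal.ofReal_add (by positivity) (by positivity)]
  refine add_le_add le_rfl (ENNReal.ofReal_le_ofReal ?_)
  have g4 : M ^ 2 * t ^ 2 ≤ M ^ 2 * √r * t * √t := by
    have : √t ≤ √r := Real.sqrt_le_sqrt htr
    calc M ^ 2 * t ^ 2 = M ^ 2 * √t * t * √t := by
          rw [show M ^ 2 * √t * t * √t = M ^ 2 * t * (√t * √t) by ring, hss]; ring
      _ ≤ _ := by gcongr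
  have g5 : 0 ≤ τ * t * √t := by positivity
  have g6 : 0 ≤ M ^ 2 * t ^ 2 := by positivity
  nlinarith

end Vale.Agent.P128.B0
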