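import Vale.Agent.P128.B0.Defs

/-! P128 B0/Poin  (helper names end with _Poin)

A Poincare inequality.  `integral_bilinear_hasLineDerivAt_right_eq_neg_left_of_integrable` / `integral_mul_fderiv_eq_neg_fderiv_mul_of_integrable` (or `EARN.green` with `q z = ‖z - x‖ ^ 2 / 2`, `lap q = 2`, `gr q z = z - x`, test function `φ ^ 2`):
`2 ∫ φ ^ 2 = -2 ∫ φ * inner (gr φ) (z - x)`, so `∫ φ ^ 2 ≤ (1 / 2) ∫ φ ^ 2 + (R ^ 2 / 2) ∫ ‖gr φ‖ ^ 2`.  `EARN.green` with `q = φ`: `∫ ‖gr φ‖ ^ 2 = -∫ φ * lap φ ≤ (2 R ^ 2)⁻¹ ∫ φ ^ 2 + (R ^ 2 / 2) ∫ (lap φ) ^ 2`.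
-/

namespace Vale.Agent.P128.B0

open MeasureTheory Set Metric Filter Topology
open scoped ENNReal

noncomputable section

theorem lapm_Poin {φ : ℂ → ℝ} (hφ : ContDiff ℝ (⊤ : ℕ∞) φ) (hc : HasCompactSupport φ) :
    Continuous (EARN.lap φ) ∧ (∀ z, z ∉ tsupport φ → EARN.lap φ z = 0) ∧
      MemLp (EARN.lap φ) 2 volume := by
  have h1 : Continuous (EARN.lap φ) :=
    continuousOn_univ.1 (EARN.contDiffOn_gr isOpen_univ hφ.contDiffOn).2.2.continuousOn
  have h2 : ∀ z, z ∉ tsupport φ → EARN.lap φ z = 0 := by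
    intro z hz
    rw [(EARN.gr_congr (notMem_tsupport_iff_eventuallyEq.1 hz)).2.2]
    simp [EARN.lap]
  exact ⟨h1, h2, h1.memLp_of_hasCompactSupport (HasCompactSupport.intro hc h2)⟩

theorem quad_Poin (x : ℂ) : ∃ q : ℂ → ℝ, ContDiff ℝ 2 q ∧ (∀ z, fderiv ℝ q z 1 = z.re - x.re) ∧
    (∀ z, fderiv ℝ q z Complex.I = z.im - x.im) ∧ ∀ z, EARN.lap q z = 2 := by
  have hre : ∀ z : ℂ, HasFDerivAt (fun w : ℂ => w.re - x.re) Complex.reCLM z := fun z =>
    Complex.reCLM.hasFDerivAt.sub_const x.re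
  have him : ∀ z : ℂ, HasFDerivAt (fun w : ℂ => w.im - x.im) Complex.imCLM z := fun z =>
    Complex.imCLM.hasFDerivAt.sub_const x.im
  have hd : ∀ z v : ℂ, fderiv ℝ (fun w : ℂ => 1 / 2 * ((w.re - x.re) * (w.re - x.re) +
      (w.im - x.im) * (w.im - x.im))) z v = (z.re - x.re) * v.re + (z.im - x.im) * v.im := by
    intro z v
    rw [((((hre z).fun_mul (hre z)).fun_add ((him z).fun_mul (him z))).const_mul (1 / 2)).fderiv]
    simp only [add_apply, smul_apply, Complex.reCLM_apply, Complex.imCLM_apply, smul_eq_mul]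
    ring
  have c1 : ContDiff ℝ 2 fun w : ℂ => w.re - x.re := Complex.reCLM.contDiff.sub contDiff_const
  have c2 : ContDiff ℝ 2 fun w : ℂ => w.im - x.im := Complex.imCLM.contDiff.sub contDiff_const
  refine ⟨fun w : ℂ => 1 / 2 * ((w.re - x.re) * (w.re - x.re) + (w.im - x.im) * (w.im - x.im)),
    contDiff_const.mul ((c1.mul c1).add (c2.mul c2)), fun z => by rw [hd]; simp,
    fun z => by rw [hd]; simp, fun z => ?_⟩
  unfold EARN.lap
  simp only [hd, Complex.one_re, Complex.one_im, Complex.I_re, Complex.I_im, mul_one, mul_zero,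
    add_zero, zero_add]
  rw [(hre z).fderiv, (him z).fderiv]
  simp only [Complex.reCLM_apply, Complex.imCLM_apply, Complex.one_re, Complex.I_im]
  norm_num

theorem ineq_Poin {f a b p q R : ℝ} (h : p ^ 2 + q ^ 2 ≤ R ^ 2) :
    -((f * a + f * a) * p + (f * b + f * b) * q) ≤ f ^ 2 + R ^ 2 * (a * a + b * b) := by
  have h1 : (p ^ 2 + q ^ 2) * (a * a + b * b) ≤ R ^ 2 * (a * a + b * b) :=
    mul_le_mul_of_nonneg_right h (add_nonneg (mul_self_nonneg a) (mul_self_nonneg b))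
  have h2 := sq_nonneg (f + (a * p + b * q))
  have h3 := sq_nonneg (a * q - b * p)
  nlinarith

theorem grad_Poin {φ : ℂ → ℝ} {x : ℂ} {R : ℝ} (hφ : ContDiff ℝ (⊤ : ℕ∞) φ)
    (hc : HasCompactSupport φ) (hs : tsupport φ ⊆ ball x R)
    (hi : Integrable fun z => φ z ^ 2) (hg : Integrable fun z => inner ℝ (gr φ z) (gr φ z)) :
    ∫ z, φ z ^ 2 ≤ R ^ 2 * ∫ z, inner ℝ (gr φ z) (gr φ z) := by
  obtain ⟨q, q0, q1, q2, q3⟩ := quad_Poin x
  have h1 : ContDiff ℝ 1 φ := hφ.of_le (by simp)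
  have hc2 : HasCompactSupport fun z => φ z * φ z := hc.mul_right
  obtain ⟨i1, -, e⟩ := EARN.green (φ := fun z => φ z * φ z) (h1.mul h1) hc2 isOpen_univ
    (subset_univ _) q0.contDiffOn
  have e2 : ∫ z, φ z * φ z * EARN.lap q z = 2 * ∫ z, φ z ^ 2 := by
    rw [← integral_const_mul]
    refine integral_congr_ae (Eventually.of_forall fun z => ?_)
    simp only [q3]
    ring
  have le : ∫ z, -inner ℝ (gr (fun z => φ z * φ z) z) (gr q z) ≤
      ∫ z, (φ z ^ 2 + R ^ 2 * inner ℝ (gr φ z) (gr φ z)) := by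
    refine integral_mono i1.neg (hi.add (hg.const_mul _)) fun z => ?_
    have hd := (h1.differentiable one_ne_zero z).hasFDerivAt
    simp only [EARN.grgr_Calc, q1, q2, (hd.fun_mul hd).fderiv, add_apply, smul_apply, smul_eq_mul]
    by_cases hz : z ∈ tsupport φ
    · refine ineq_Poin ?_
      have h2 := hs hz
      rw [mem_ball, dist_eq_norm] at h2
      have h3 : ‖z - x‖ ^ 2 ≤ R ^ 2 := pow_le_pow_left₀ (norm_nonneg _) h2.le 2
      rw [Complex.sq_norm, Complex.normSq_apply, Complex.sub_re, Complex.sub_im] at h3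
      linarith
    · rw [image_eq_zero_of_notMem_tsupport hz]
      have := mul_nonneg (sq_nonneg R) (add_nonneg (mul_self_nonneg (fderiv ℝ φ z 1))
        (mul_self_nonneg (fderiv ℝ φ z Complex.I)))
      linarith
  rw [integral_neg, e, e2, integral_add hi (hg.const_mul _), integral_const_mul] at le
  linarith

theorem poincare_lap {φ : ℂ → ℝ} {x : ℂ} {R : ℝ} (hR : 0 < R) (hφ : ContDiff ℝ (⊤ : ℕ∞) φ)
    (hc : HasCompactSupport φ) (hs : tsupport φ ⊆ ball x R) :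
    ∫ z, φ z ^ 2 ≤ R ^ 4 * ∫ z, EARN.lap φ z ^ 2 := by
  have h1 : ContDiff ℝ 1 φ := hφ.of_le (by simp)
  have h2 : ContDiff ℝ 2 φ := contDiff_infty.1 hφ 2
  have hi : Integrable fun z => φ z ^ 2 :=
    (hφ.continuous.memLp_of_hasCompactSupport (p := 2) hc).integrable_sq
  have hL : Integrable fun z => EARN.lap φ z ^ 2 := (lapm_Poin hφ hc).2.2.integrable_sq
  obtain ⟨i1, i2, e⟩ := EARN.green h1 hc isOpen_univ (subset_univ _) h2.contDiffOn
  have k := grad_Poin hφ hc hs hi i1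
  have le : ∫ z, -(2 * R ^ 2) * (φ z * EARN.lap φ z) ≤
      ∫ z, (φ z ^ 2 + R ^ 4 * EARN.lap φ z ^ 2) := by
    refine integral_mono (i2.const_mul _) (hi.add (hL.const_mul _)) fun z => ?_
    have := sq_nonneg (φ z + R ^ 2 * EARN.lap φ z)
    simp only
    nlinarith
  rw [integral_const_mul, integral_add hi (hL.const_mul _), integral_const_mul] at le
  rw [e] at k
  linarith

theorem lap_mem {φ : ℂ → ℝ} (hφ : ContDiff ℝ (⊤ : ℕ∞) φ) (hc : HasCompactSupport φ) :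
    Continuous (EARN.lap φ) ∧ (∀ z, z ∉ tsupport φ → EARN.lap φ z = 0) ∧
      MemLp (EARN.lap φ) 2 volume := by
  exact lapm_Poin hφ hc

end

end Vale.Agent.P128.B0
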