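import Vale.Agent.P098.K.Weyl

/-! P128 B0/RegA  (helper names end with _RegA)

Continuity of weak solutions of `lap u = f` with the radial mollifier of P098 (K/Moll, K/Av; compare P098/A/Cont.lean).
`av_deriv`: `Mol.deriv`, `av_lap_test`, the test function `z ↦ Ψ (r⁻¹ • (z - x))` (support in `closedBall x r`, see `weyl_av`), `av_eq`.
`reg_lim`: `av ρ u x` is `C`-Lipschitz on `Ioc 0 δ`, so it has a limit at `0+` (Cauchy filter, or monotone `av + C r`), `Tendsto.limUnder_eq`.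
`reg_cont`: `w x = limUnder (𝓝[>] 0) (av ρ u x)`; `|r * av Ψ f x r| ≤ r⁻¹ * sup Ψ * ∫ over ball x r of |f|` and `|f| ≤ (r f ^ 2 ... )`: `2 |f| ≤ r f ^ 2 + r⁻¹` gives `∫_{ball x r} |f| ≤ C r` (`Measure.addHaar_ball`, `finrank = 2`);
locally uniform limit of the continuous `av ρ u · r` (`av_contDiff`).
-/

namespace Vale.Agent.P128.B0

open MeasureTheory Set Metric Filter Topology
open scoped ENNReal

noncomputable section

open Vale.Agent.P098
open scoped ContDiff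

variable {d : ℕ} {u f ρ Ψ : E d → ℝ} {c : ℝ} {O : Set (E d)}

/-- The weak equation. -/
def WEq (O : Set (E d)) (u f : E d → ℝ) : Prop :=
  ∀ φ : E d → ℝ, ContDiff ℝ ∞ φ → HasCompactSupport φ → tsupport φ ⊆ O →
    ∫ x, lap φ x * u x = ∫ x, φ x * f x

theorem av_deriv (hm : Mol ρ Ψ c) (hu : LocallyIntegrable u) (hw : WEq O u f) {x : E d} {r : ℝ}
    (hr : 0 < r) (hO : closedBall x r ⊆ O) : HasDerivAt (av ρ u x) (r * av Ψ f x r) r := by
  obtain ⟨h1, h2, h3⟩ := weyl_test hm.sΨ (fun y hy => (hm.z y hy).2) x hr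
  refine (hm.deriv hu x hr).congr_deriv ?_
  rw [av_lap_test Ψ u x hr, hw _ h1 h2 (h3.trans hO), av_eq Ψ f x hr]
  field_simp

theorem tend_RegA (C : ℝ) : Tendsto (fun r : ℝ => C * r) (𝓝[>] 0) (𝓝 0) := by
  have : Tendsto (fun r : ℝ => C * r) (𝓝 0) (𝓝 (C * 0)) := (continuous_const_mul C).tendsto 0
  rw [mul_zero] at this
  exact this.mono_left nhdsWithin_le_nhds

theorem reg_lim (hm : Mol ρ Ψ c) (hu : LocallyIntegrable u) (hw : WEq O u f) {x : E d} {δ C : ℝ}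
    (hO : closedBall x δ ⊆ O) (hC : ∀ r : ℝ, 0 < r → r ≤ δ → |r * av Ψ f x r| ≤ C) {r : ℝ} (hr : 0 < r)
    (hr' : r ≤ δ) : |av ρ u x r - limUnder (𝓝[>] (0 : ℝ)) (av ρ u x)| ≤ C * r := by
  have hC0 : 0 ≤ C := (abs_nonneg _).trans (hC r hr hr')
  have hl : LipschitzOnWith ⟨C, hC0⟩ (av ρ u x) (Ioc 0 δ) :=
    (convex_Ioc (0 : ℝ) δ).lipschitzOnWith_of_nnnorm_hasDerivWithin_le
      (fun s hs => (av_deriv hm hu hw hs.1
        ((closedBall_subset_closedBall hs.2).trans hO)).hasDerivWithinAt) fun s hs => hC s hs.1 hs.2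
  obtain ⟨G, hG, hG'⟩ := hl.extend_real
  have h1 : ∀ s ∈ Ioc 0 δ, |av ρ u x s - G 0| ≤ C * s := fun s hs => by
    have := hG.dist_le_mul s 0
    rwa [Real.dist_eq, Real.dist_eq, sub_zero, abs_of_pos hs.1, ← hG' hs] at this
  have h2 : Tendsto (av ρ u x) (𝓝[>] 0) (𝓝 (G 0)) := by
    rw [tendsto_iff_norm_sub_tendsto_zero]
    refine squeeze_zero' (Eventually.of_forall fun _ => norm_nonneg _) ?_ (tend_RegA C)
    filter_upwards [Ioc_mem_nhdsGT (hr.trans_le hr')] with s hs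
    exact h1 s hs
  rw [h2.limUnder_eq]
  exact h1 r ⟨hr, hr'⟩

theorem reg_ae (hm : Mol ρ Ψ c) (hu : LocallyIntegrable u) :
    (fun x => limUnder (𝓝[>] (0 : ℝ)) (av ρ u x)) =ᵐ[volume] u := by
  filter_upwards [hm.ae_tendsto hu] with x hx
  exact hx.limUnder_eq

theorem bd_RegA {f ρ Ψ : E 2 → ℝ} (hm : Mol ρ Ψ c) {R : ℝ}
    (hf : MemLp f 2 (volume.restrict (ball 0 R))) {x : E 2} {r : ℝ} (hr : 0 < r)
    (hx : ball x r ⊆ ball 0 R) :
    |r * av Ψ f x r| ≤ ((∫ z in ball 0 R, f z ^ 2) + ∫ z, Ψ z ^ 2) / 2 := by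
  obtain ⟨h1, h2, -⟩ := weyl_test hm.sΨ (fun y hy => (hm.z y hy).2) x hr
  have i1 : Integrable ((ball 0 R).indicator fun z => f z ^ 2) :=
    (integrable_indicator_iff measurableSet_ball).2 hf.integrable_sq
  have i2 : Integrable fun z => Ψ (r⁻¹ • (z - x)) ^ 2 := by
    simp only [sq]
    exact (h1.continuous.mul h1.continuous).integrable_of_hasCompactSupport h2.mul_left
  have e := av_eq (fun z => Ψ z ^ 2) (fun _ => 1) x hr
  simp only [av, mul_one] at e
  have h3 : ‖∫ z, Ψ (r⁻¹ • (z - x)) * f z‖ ≤ ∫ z, (r / 2 * (ball 0 R).indicator (fun z => f z ^ 2) z +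
      r⁻¹ / 2 * Ψ (r⁻¹ • (z - x)) ^ 2) := by
    refine norm_integral_le_of_norm_le ((i1.const_mul _).add (i2.const_mul _))
      (Eventually.of_forall fun z => ?_)
    by_cases hz : z ∈ ball x r
    · rw [indicator_of_mem (hx hz), norm_mul, Real.norm_eq_abs, Real.norm_eq_abs,
        ← sq_abs (f z), ← sq_abs (Ψ _)]
      generalize |Ψ (r⁻¹ • (z - x))| = a
      generalize |f z| = b
      have h4 : r / 2 * b ^ 2 + r⁻¹ / 2 * a ^ 2 - a * b = r⁻¹ / 2 * (a - r * b) ^ 2 := by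
        field_simp
        ring
      have h5 : 0 ≤ r⁻¹ / 2 * (a - r * b) ^ 2 := by positivity
      linarith
    · rw [(hm.z _ ?_).2, zero_mul, norm_zero]
      · have : 0 ≤ (ball 0 R).indicator (fun z => f z ^ 2) z :=
          indicator_nonneg (fun _ _ => sq_nonneg _) z
        positivity
      · rw [mem_ball, dist_eq_norm, not_lt] at hz
        rwa [norm_smul, Real.norm_of_nonneg (inv_pos.2 hr).le, le_inv_mul_iff₀ hr, mul_one]
  rw [integral_add (i1.const_mul _) (i2.const_mul _), integral_const_mul, integral_const_mul,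
    integral_indicator measurableSet_ball, Real.norm_eq_abs] at h3
  rw [av_eq Ψ f x hr, ← mul_assoc, abs_mul, abs_of_pos (by positivity : 0 < r * (r ^ 2)⁻¹), e]
  refine (mul_le_mul_of_nonneg_left h3 (by positivity)).trans (le_of_eq ?_)
  field_simp

theorem reg_cont {u f : E 2 → ℝ} {O : Set (E 2)} (hO : IsOpen O) (hu : LocallyIntegrable u)
    (hf : ∀ R : ℝ, MemLp f 2 (volume.restrict (ball 0 R))) (hw : WEq O u f) :
    ∃ w : E 2 → ℝ, ContinuousOn w O ∧ w =ᵐ[volume] u := by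
  obtain ⟨ρ, Ψ, c, hm⟩ := exists_mol (d := 2)
  refine ⟨_, fun x₀ hx₀ => ContinuousAt.continuousWithinAt ?_, reg_ae hm hu⟩
  obtain ⟨ε, hε, hb⟩ := Metric.isOpen_iff.1 hO x₀ hx₀
  have hδ : 0 < ε / 3 := by positivity
  obtain ⟨C, hC⟩ : ∃ C, C = ((∫ z in ball 0 (‖x₀‖ + ε), f z ^ 2) + ∫ z, Ψ z ^ 2) / 2 := ⟨_, rfl⟩
  have h1 : ∀ x ∈ ball x₀ (ε / 3), closedBall x (ε / 3) ⊆ ball x₀ ε := fun x hx =>
    closedBall_subset_ball' (by linarith [mem_ball.1 hx])
  have h2 : ball x₀ ε ⊆ ball 0 (‖x₀‖ + ε) := ball_subset_ball' (by rw [dist_zero_right, add_comm])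
  have h3 : TendstoUniformlyOn (fun (r : ℝ) x => av ρ u x r)
      (fun x => limUnder (𝓝[>] (0 : ℝ)) (av ρ u x)) (𝓝[>] 0) (ball x₀ (ε / 3)) := by
    refine Metric.tendstoUniformlyOn_iff.2 fun η hη => ?_
    filter_upwards [(tend_RegA C).eventually_lt_const hη, Ioc_mem_nhdsGT hδ] with r h4 hr x hx
    rw [dist_comm, Real.dist_eq]
    refine (reg_lim hm hu hw ((h1 x hx).trans hb) (fun s hs hs' => hC ▸ bd_RegA hm (hf _) hs
      (ball_subset_closedBall.trans ((closedBall_subset_closedBall hs').trans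
        ((h1 x hx).trans h2)))) hr.1 hr.2).trans_lt h4
  refine (h3.continuousOn (Eventually.frequently ?_)).continuousAt (ball_mem_nhds x₀ hδ)
  filter_upwards [self_mem_nhdsWithin] with r hr
  exact (av_contDiff hm.sρ hm.av_supp hu hr).continuous.continuousOn

end

end Vale.Agent.P128.B0
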