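import Vale.Agent.P128.B0.RegA

/-! P128 B0/RegB  (helper names end with _RegB)

`reg_c1`: `w x = limUnder (𝓝[>] 0) (av ρ u x)` (`reg_lim`, `reg_ae`).  On a small ball around `x₀ ∈ O` and for `0 < t ≤ δ`: `|av Ψ f x t| ≤ C` and `‖fderiv (av Ψ f · t) x‖ ≤ C / t` (`av_fderiv`, a.e. version of `abs_av_le`; `x + t • y` is quasi measure preserving, or use `av_eq`).
So `t ↦ av ρ u x t - av ρ u y t` has derivative bounded by `C ‖x - y‖` (`av_deriv`, mean value inequality), hence `‖fderiv (av ρ u · r) x - fderiv (av ρ u · s) x‖ ≤ C |r - s|` (`norm_fderiv_le_of_lipschitzOn` or `HasFDerivAt.le_of_lip'`);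
`hasFDerivAt_of_tendstoUniformlyOn` along `r = δ / (n + 1)` (`UniformCauchySeqOn.tendstoUniformlyOn_of_tendsto`), `contDiffAt_one_iff`.
`weyl_loc`: multiply by a `ContDiffBump` equal to one near `x` with support in `O` (`ContinuousOn.continuous_of_tsupport_subset`), `weyl` on a small ball, `lap φ = 0` off `tsupport φ` (`lap_congr`, `lap_const`), `lap_congr`.
-/

namespace Vale.Agent.P128.B0

open MeasureTheory Set Metric Filter Topology
open scoped ENNReal

noncomputable section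

open Vale.Agent.P098
open scoped ContDiff

variable {d : ℕ} {u f : E d → ℝ} {O : Set (E d)}

theorem abs_ae_RegB {φ : E d → ℝ} (hφ : Continuous φ) (hz : ∀ y, 1 ≤ ‖y‖ → φ y = 0) {x : E d}
    {r M : ℝ} (hr : 0 < r) (h : ∀ᵐ y, ‖y - x‖ < r → |f y| ≤ M) :
    |av φ f x r| ≤ (∫ y, |φ y|) * M := by
  have hi : Integrable fun y => |φ y| * M :=
    ((hφ.integrable_of_hasCompactSupport (weyl_cs hz)).abs).mul_const M
  have hq := ((measurePreserving_add_left volume x).quasiMeasurePreserving.comp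
    (Measure.quasiMeasurePreserving_smul volume hr.ne')).ae h
  rw [← integral_mul_const, ← Real.norm_eq_abs]
  refine norm_integral_le_of_norm_le hi ?_
  filter_upwards [hq] with y h
  rw [Real.norm_eq_abs, abs_mul]
  by_cases hy : 1 ≤ ‖y‖
  · simp [hz y hy]
  · refine mul_le_mul_of_nonneg_left (h ?_) (abs_nonneg _)
    simp only [Function.comp_apply]
    rw [add_sub_cancel_left, norm_smul, Real.norm_eq_abs, abs_of_pos hr]
    nlinarith [not_le.1 hy]

theorem fd_RegB {ρ Ψ : E d → ℝ} {c : ℝ} (hm : Mol ρ Ψ c) (hf : LocallyIntegrable f) {x : E d}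
    {r M : ℝ} (hr : 0 < r) (hM : 0 ≤ M) (h : ∀ᵐ y, ‖y - x‖ < r → |f y| ≤ M) :
    ‖fderiv ℝ (fun x => av Ψ f x r) x‖ ≤ M / r := by
  refine ContinuousLinearMap.opNorm_le_bound _ (by positivity) fun v => ?_
  rw [av_fderiv hm.sΨ (weyl_cs fun y hy => (hm.z y hy).2) hf hr x v, Real.norm_eq_abs, abs_div,
    abs_neg, abs_of_pos hr]
  have h1 := abs_ae_RegB (φ := fun y => fderiv ℝ Ψ y v) (av_d_smooth hm.sΨ v).continuous
    (fun y hy => by rw [hm.grad, (hm.z y hy).1, zero_mul, neg_zero]) hr h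
  have h2 : ∫ y, |fderiv ℝ Ψ y v| ≤ ∫ y, ρ y * ‖v‖ := by
    refine integral_mono_of_nonneg (Eventually.of_forall fun y => abs_nonneg _)
      ((hm.sρ.continuous.integrable_of_hasCompactSupport hm.av_supp).mul_const _)
      (Eventually.of_forall fun y => ?_)
    simp only [hm.grad, abs_neg, abs_mul, abs_of_nonneg (hm.ρ0 y)]
    by_cases hy : 1 ≤ ‖y‖
    · simp [(hm.z y hy).1]
    · exact mul_le_mul_of_nonneg_left ((abs_real_inner_le_norm y v).trans
        (mul_le_of_le_one_left (norm_nonneg v) (not_le.1 hy).le)) (hm.ρ0 y)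
  rw [integral_mul_const, hm.one, one_mul] at h2
  rw [div_mul_eq_mul_div, mul_comm M]
  exact div_le_div_of_nonneg_right (h1.trans (mul_le_mul_of_nonneg_right h2 hM)) hr.le

theorem cau_RegB {ρ Ψ : E d → ℝ} {c : ℝ} (hm : Mol ρ Ψ c) (hu : LocallyIntegrable u)
    (hf : LocallyIntegrable f) (hw : WEq O u f) {x₀ : E d} {δ M : ℝ} (hM : 0 ≤ M)
    (hO : ∀ x ∈ ball x₀ δ, closedBall x δ ⊆ O)
    (h : ∀ x ∈ ball x₀ δ, ∀ r, r ≤ δ → ∀ᵐ y, ‖y - x‖ < r → |f y| ≤ M) {x : E d}
    (hx : x ∈ ball x₀ δ) {r s : ℝ} (hr : r ∈ Ioc 0 δ) (hs : s ∈ Ioc 0 δ) :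
    ‖fderiv ℝ (fun x => av ρ u x r) x - fderiv ℝ (fun x => av ρ u x s) x‖ ≤ M * |r - s| := by
  have d1 : ∀ t, 0 < t → HasFDerivAt (fun x => av ρ u x t) (fderiv ℝ (fun x => av ρ u x t) x) x :=
    fun t ht => ((av_contDiff hm.sρ hm.av_supp hu ht).differentiable (by simp) x).hasFDerivAt
  refine ((d1 r hr.1).sub (d1 s hs.1)).le_of_lip' (by positivity) ?_
  filter_upwards [isOpen_ball.mem_nhds hx] with y hy
  have h1 : ∀ t ∈ Ioc 0 δ, ‖t * av Ψ f y t - t * av Ψ f x t‖ ≤ M * ‖y - x‖ := by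
    intro t ht
    have h2 := (convex_ball x₀ δ).norm_image_sub_le_of_norm_fderiv_le (𝕜 := ℝ)
      (f := fun x => av Ψ f x t) (C := M / t) (fun z _ =>
        (av_contDiff hm.sΨ (weyl_cs fun y hy => (hm.z y hy).2) hf ht.1).differentiable (by simp) z)
      (fun z hz => fd_RegB hm hf ht.1 hM (h z hz t ht.2)) hx hy
    rw [← mul_sub, norm_mul, Real.norm_of_nonneg ht.1.le]
    refine (mul_le_mul_of_nonneg_left h2 ht.1.le).trans (le_of_eq ?_)
    have := ht.1.ne'
    field_simp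
  have h3 := (convex_Ioc (0 : ℝ) δ).norm_image_sub_le_of_norm_hasDerivWithin_le
    (f := fun t => av ρ u y t - av ρ u x t) (fun t ht =>
      ((av_deriv hm hu hw ht.1 ((closedBall_subset_closedBall ht.2).trans (hO y hy))).sub
        (av_deriv hm hu hw ht.1
          ((closedBall_subset_closedBall ht.2).trans (hO x hx)))).hasDerivWithinAt) h1 hs hr
  simp only [Pi.sub_apply, Real.norm_eq_abs] at h3 ⊢
  refine le_trans (le_of_eq ?_) (h3.trans (le_of_eq (by ring)))
  congr 1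
  ring

theorem reg_c1 (hO : IsOpen O) (hu : LocallyIntegrable u) (hf : LocallyIntegrable f) (hw : WEq O u f)
    (hb : ∀ x ∈ O, ∃ δ C : ℝ, 0 < δ ∧ ∀ᵐ y, y ∈ ball x δ → |f y| ≤ C) :
    ∃ w : E d → ℝ, ContDiffOn ℝ 1 w O ∧ w =ᵐ[volume] u := by
  obtain ⟨ρ, Ψ, c, hm⟩ := exists_mol (d := d)
  refine ⟨_, fun x₀ hx₀ => ContDiffAt.contDiffWithinAt ?_, reg_ae hm hu⟩
  obtain ⟨δ0, C, h0, hC⟩ := hb x₀ hx₀
  obtain ⟨ε, hε, hεO⟩ := Metric.isOpen_iff.1 hO x₀ hx₀
  obtain ⟨δ, hδ, k1, k2⟩ : ∃ δ : ℝ, 0 < δ ∧ 2 * δ ≤ δ0 ∧ 2 * δ ≤ ε :=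
    ⟨min δ0 ε / 2, half_pos (lt_min h0 hε), by linarith [min_le_left δ0 ε],
      by linarith [min_le_right δ0 ε]⟩
  have hO' : ∀ x ∈ ball x₀ δ, closedBall x δ ⊆ O := fun x hx z hz => hεO (by
    rw [mem_ball] at hx ⊢
    rw [mem_closedBall] at hz
    linarith [dist_triangle z x x₀])
  have hf' : ∀ x ∈ ball x₀ δ, ∀ r, r ≤ δ → ∀ᵐ y, ‖y - x‖ < r → |f y| ≤ |C| := by
    intro x hx r hr
    filter_upwards [hC] with y hy h
    refine (hy ?_).trans (le_abs_self C)
    rw [mem_ball] at hx ⊢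
    rw [← dist_eq_norm] at h
    linarith [dist_triangle y x x₀]
  have r1 : ∀ n : ℕ, δ / (n + 1) ∈ Ioc 0 δ := fun n =>
    ⟨by positivity, div_le_self hδ.le (by linarith [(Nat.cast_nonneg n : (0 : ℝ) ≤ n)])⟩
  have r2 : ∀ A : ℝ, Tendsto (fun n : ℕ => A * (δ / (n + 1))) atTop (𝓝 0) := fun A => by
    simpa only [mul_zero, mul_one_div] using
      (tendsto_one_div_add_atTop_nhds_zero_nat.const_mul δ).const_mul A
  have hc : UniformCauchySeqOn (fun (n : ℕ) x => fderiv ℝ (fun x => av ρ u x (δ / (n + 1))) x)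
      atTop (ball x₀ δ) := by
    rw [Metric.uniformCauchySeqOn_iff]
    intro η hη
    obtain ⟨N, hN⟩ := eventually_atTop.1 ((r2 |C|).eventually (gt_mem_nhds (half_pos hη)))
    refine ⟨N, fun m hm' n hn x hx => ?_⟩
    rw [dist_eq_norm]
    refine (cau_RegB hm hu hf hw (abs_nonneg C) hO' hf' hx (r1 m) (r1 n)).trans_lt ?_
    have a1 : |δ / (m + 1) - δ / (n + 1)| ≤ δ / (m + 1) + δ / (n + 1) :=
      abs_le.2 ⟨by linarith [(r1 m).1], by linarith [(r1 n).1]⟩
    linarith [mul_le_mul_of_nonneg_left a1 (abs_nonneg C), hN m hm', hN n hn]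
  have hl := hc.tendstoUniformlyOn_of_tendsto
    (f := fun x => limUnder atTop fun n : ℕ => fderiv ℝ (fun x => av ρ u x (δ / (n + 1))) x)
    fun x hx => (hc.cauchySeq hx).tendsto_limUnder
  refine contDiffAt_one_iff.2 ⟨_, ball x₀ δ, ball_mem_nhds x₀ hδ,
    hl.continuousOn (Frequently.of_forall fun n =>
      ((av_contDiff hm.sρ hm.av_supp hu (r1 n).1).continuous_fderiv (by simp)).continuousOn),
    fun x hx => hasFDerivAt_of_tendstoUniformlyOn isOpen_ball hl (fun n y _ =>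
      ((av_contDiff hm.sρ hm.av_supp hu (r1 n).1).differentiable (by simp) y).hasFDerivAt)
      (fun y hy => ?_) hx⟩
  rw [tendsto_iff_norm_sub_tendsto_zero]
  refine squeeze_zero (fun n => norm_nonneg _) (fun n => ?_) (r2 (δ * ((∫ y, |Ψ y|) * |C|)))
  refine reg_lim hm hu hw (hO' y hy) (fun r hr hr' => ?_) (r1 n).1 (r1 n).2
  rw [abs_mul, abs_of_pos hr]
  exact mul_le_mul hr' (abs_ae_RegB hm.sΨ.continuous (fun y hy => (hm.z y hy).2) hr
    (hf' y hy r hr')) (abs_nonneg _) hδ.le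

theorem weyl_loc (hO : IsOpen O) (hu : ContinuousOn u O) (hw : WEq O u fun _ => 0) : Harm u O := by
  intro x hx
  obtain ⟨ε, hε, hεO⟩ := Metric.isOpen_iff.1 hO x hx
  let χ : ContDiffBump x := ⟨ε / 2, 3 * ε / 4, by positivity, by linarith⟩
  have hg : Continuous fun y => χ y * u y := by
    refine (χ.continuous.continuousOn.mul hu).continuous_of_tsupport_subset hO ?_
    refine (tsupport_mul_subset_left (f := fun y => χ y) (g := u)).trans ?_
    rw [χ.tsupport_eq]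
    exact (closedBall_subset_ball (show 3 * ε / 4 < ε by linarith)).trans hεO
  have hgu : ∀ y ∈ ball x (ε / 2), χ y * u y = u y := fun y hy => by
    rw [χ.one_of_mem_closedBall (ball_subset_closedBall hy), one_mul]
  have he : u =ᶠ[𝓝 x] fun y => χ y * u y := by
    filter_upwards [ball_mem_nhds x (half_pos hε)] with y hy using (hgu y hy).symm
  have hh := weyl hg (isOpen_ball (x := x) (ε := ε / 2)) (fun φ h1 h2 h3 => by
    have h4 := hw φ h1 h2 (h3.trans ((ball_subset_ball (by linarith)).trans hεO))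
    simp only [mul_zero, integral_zero] at h4
    rw [← h4]
    refine integral_congr_ae (Eventually.of_forall fun y => ?_)
    by_cases hy : y ∈ ball x (ε / 2)
    · simp only [hgu y hy]
    · have h5 : lap φ y = 0 := by
        rw [lap_congr (notMem_tsupport_iff_eventuallyEq.1 fun h => hy (h3 h))]
        exact lap_const 0 y
      simp only [h5, zero_mul]) x (mem_ball_self (half_pos hε))
  exact ⟨hh.1.congr_of_eventuallyEq he, (lap_congr he).trans hh.2⟩


end

end Vale.Agent.P128.B0
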