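import Vale.Agent.P128.B0.Dec
import Vale.Agent.P128.B0.P2
import Vale.Agent.P128.B0.EL0

/-! P128 B0/Rep. A representative of class C1 off K. Plan: loc_rep: ball x rho in
Omega minus K; decomp with f = u - g and pot_bdd give u bounded almost everywhere on ball (rho/8);
decomp again with rho/8, now f is bounded, pot_c1: q = pot + re Phi is C1 on ball (rho/32).
rep: put v z = limUnder (nhdsWithin 0 (Ioi 0)) of the averages of u over ball z s (equals q z on the
small balls because q is continuous), or choose local representatives and glue (they agree on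
overlaps: continuous and equal almost everywhere, Measure.eqOn_open_of_ae_eq); almost everywhere
statements by measure_null_of_locally_null. -/

namespace Vale.Agent.P128.B0

open MeasureTheory Set Metric Filter Topology
open scoped ENNReal

theorem dec_Rep {Ω : Set ℂ} (hΩ : IsOpen Ω) {g u : ℂ → ℝ} {G : ℂ → ℂ} {K : Set ℂ}
    (hg : MemLp g ∞ (volume.restrict Ω)) (hmin : Minimizer Ω g u G K) {x : ℂ} {ρ : ℝ}
    (hρ : 0 < ρ) (hsub : ball x ρ ⊆ Ω \ K) :
    MemLp ((ball x ρ).indicator fun z => u z - g z) 2 volume ∧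
    ∃ Φ : ℂ → ℂ, DifferentiableOn ℂ Φ (ball x (ρ / 2)) ∧
      ∀ᵐ z ∂(volume.restrict (ball x (ρ / 4))),
        u z = pot ((ball x ρ).indicator fun z => u z - g z) z + (Φ z).re ∧
        (starRingEnd ℂ) (G z) = cau ((ball x ρ).indicator fun z => u z - g z) z + deriv Φ z := by
  have : IsFiniteMeasure (volume.restrict (ball x ρ)) :=
    isFiniteMeasure_restrict.2 measure_ball_lt_top.ne
  have h1 : volume.restrict (ball x ρ) ≤ volume.restrict Ω :=
    Measure.restrict_mono (hsub.trans sdiff_subset) le_rfl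
  have hu2 : MemLp u 2 (volume.restrict (ball x ρ)) := hmin.adm.memL2.mono_measure h1
  have hg2 : MemLp g 2 (volume.restrict (ball x ρ)) := (hg.mono_measure h1).mono_exponent le_top
  have hG2 : MemLp G 2 (volume.restrict (ball x ρ)) :=
    hmin.adm.gradL2.mono_measure (Measure.restrict_mono hsub le_rfl)
  have hf2 : MemLp (fun z => u z - g z) 2 (volume.restrict (ball x ρ)) := hu2.sub hg2
  refine ⟨(memLp_indicator_iff_restrict measurableSet_ball).2 hf2,
    decomp hρ (hu2.integrable one_le_two) (hG2.integrable one_le_two) (hf2.integrable one_le_two)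
      (wg_mono hmin.adm.relClosed isOpen_ball hsub hmin.adm.weak) fun φ hφ hc hs => ?_⟩
  have h := el0 hΩ hg hmin hφ hc (hs.trans hsub)
  have hm := hmin.adm.relClosed.measurableSet
  have h0 : ∀ z ∈ (Ω \ K) \ ball x ρ, φ =ᶠ[𝓝 z] 0 := fun z hz =>
    notMem_tsupport_iff_eventuallyEq.1 fun h' => hz.2 (hs h')
  rw [setIntegral_eq_of_subset_of_forall_sdiff_eq_zero hm hsub fun z hz => by
      rw [(EARN.gr_congr (h0 z hz)).1]
      simp [gr],
    setIntegral_eq_of_subset_of_forall_sdiff_eq_zero hm hsub fun z hz => by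
      rw [(h0 z hz).self_of_nhds]
      simp] at h
  exact h

theorem dzre_Rep {Φ : ℂ → ℂ} {z : ℂ} (h : DifferentiableAt ℂ Φ z) :
    dz (fun w => (Φ w).re) z = deriv Φ z := by
  have h1 : HasFDerivAt (fun w => (Φ w).re)
      (Complex.reCLM.comp (deriv Φ z • (1 : ℂ →L[ℝ] ℂ))) z :=
    Complex.reCLM.hasFDerivAt.comp z h.hasDerivAt.complexToReal_fderiv
  rw [dz, h1.fderiv]
  apply Complex.ext <;> simp

theorem conj_Rep (q : ℂ → ℝ) (z : ℂ) : gr q z = (starRingEnd ℂ) (dz q z) := by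
  apply Complex.ext <;> simp [gr, dz]

theorem loc_rep {Ω : Set ℂ} (hΩ : IsOpen Ω) {g u : ℂ → ℝ} {G : ℂ → ℂ} {K : Set ℂ}
    (hg : MemLp g ∞ (volume.restrict Ω)) (hmin : Minimizer Ω g u G K) {x : ℂ} (hx : x ∈ Ω \ K) :
    ∃ (s : ℝ) (q : ℂ → ℝ), 0 < s ∧ ball x s ⊆ Ω \ K ∧ ContDiffOn ℝ 1 q (ball x s) ∧
      ∀ᵐ z ∂(volume.restrict (ball x s)), q z = u z ∧ gr q z = G z := by
  obtain ⟨ρ, hρ, hsub⟩ := Metric.isOpen_iff.1 hmin.adm.relClosed x hx
  obtain ⟨hf0, Φ0, hΦ0, h0⟩ := dec_Rep hΩ hg hmin hρ hsub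
  have hnorm : ∀ z ∈ ball x ρ, ‖z‖ ≤ ‖x‖ + ρ := fun z hz => by
    have h1 := norm_sub_norm_le z x
    rw [mem_ball, dist_eq_norm] at hz
    linarith
  obtain ⟨M1, hM1⟩ := pot_bdd hf0 (R := ‖x‖ + ρ) (fun ζ hζ =>
    indicator_of_notMem (fun h => hζ.not_ge (hnorm ζ h)) _) (‖x‖ + ρ)
  obtain ⟨M2, hM2⟩ := (isCompact_closedBall x (ρ / 4)).exists_bound_of_continuousOn
    (hΦ0.continuousOn.mono (closedBall_subset_ball (by linarith)))
  have hρ4 : 0 < ρ / 4 := by linarith
  have hs4 : ball x (ρ / 4) ⊆ ball x ρ := ball_subset_ball (by linarith)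
  have hsub4 := hs4.trans hsub
  obtain ⟨hf1, Φ, hΦ, h1⟩ := dec_Rep hΩ hg hmin hρ4 hsub4
  have hgb := ae_mono (Measure.restrict_mono (hsub4.trans sdiff_subset) le_rfl)
    (ae_le_lpNorm_exponent_top hg)
  have hb : ∀ᵐ ζ, |(ball x (ρ / 4)).indicator (fun z => u z - g z) ζ| ≤
      |M1 + M2 + lpNorm g ∞ (volume.restrict Ω)| := by
    filter_upwards [(ae_restrict_iff' measurableSet_ball).1 h0,
      (ae_restrict_iff' measurableSet_ball).1 hgb] with ζ a1 a2
    by_cases hζ : ζ ∈ ball x (ρ / 4)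
    · rw [indicator_of_mem hζ]
      refine le_trans ?_ (le_abs_self _)
      have b1 := abs_le.1 (hM1 ζ (hnorm ζ (hs4 hζ)))
      have b2 := abs_le.1 ((Complex.abs_re_le_norm _).trans (hM2 ζ (ball_subset_closedBall hζ)))
      have b3 := abs_le.1 (show |g ζ| ≤ _ from a2 hζ)
      have b4 := (a1 hζ).1
      rw [abs_le]
      constructor <;> linarith [b1.1, b1.2, b2.1, b2.2, b3.1, b3.2]
    · rw [indicator_of_notMem hζ, abs_zero]
      exact abs_nonneg _
  obtain ⟨c1, c2, -⟩ := pot_c1 hf1.aestronglyMeasurable hρ4 (abs_nonneg _) hb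
    fun ζ hζ => indicator_of_notMem hζ _
  have hs16 : ball x (ρ / 4 / 4) ⊆ ball x (ρ / 4 / 2) := ball_subset_ball (by linarith)
  have hΦ1 : ContDiffOn ℝ 1 (fun w => (Φ w).re) (ball x (ρ / 4 / 2)) :=
    Complex.reCLM.contDiff.comp_contDiffOn ((hΦ.contDiffOn isOpen_ball).restrict_scalars ℝ)
  refine ⟨ρ / 4 / 4, fun z => pot ((ball x (ρ / 4)).indicator fun z => u z - g z) z + (Φ z).re,
    by linarith, (ball_subset_ball (by linarith)).trans hsub4,
    c1.contDiffOn.add (hΦ1.mono hs16), ?_⟩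
  filter_upwards [h1, ae_restrict_mem measurableSet_ball] with z a1 a2
  refine ⟨a1.1.symm, ?_⟩
  have hn := isOpen_ball.mem_nhds (hs16 a2)
  rw [conj_Rep, (EARN.gr_add (c1.differentiable one_ne_zero z)
    ((hΦ1.contDiffAt hn).differentiableAt one_ne_zero)).2.2.1, c2,
    dzre_Rep (hΦ.differentiableAt hn), ← a1.2, Complex.conj_conj]

theorem rep {Ω : Set ℂ} (hΩ : IsOpen Ω) {g u : ℂ → ℝ} {G : ℂ → ℂ} {K : Set ℂ}
    (hg : MemLp g ∞ (volume.restrict Ω)) (hmin : Minimizer Ω g u G K) :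
    ∃ v : ℂ → ℝ, ContDiffOn ℝ 1 v (Ω \ K) ∧
      ∀ᵐ z ∂(volume.restrict (Ω \ K)), v z = u z ∧ gr v z = G z := by
  choose! s q hs hsub hq hae using fun x (hx : x ∈ Ω \ K) => loc_rep hΩ hg hmin hx
  have key : ∀ x ∈ Ω \ K, ∀ y ∈ ball x (s x), q y y = q x y := fun x hx y hy => by
    have hy' := hsub x hx hy
    refine Measure.eqOn_open_of_ae_eq (μ := volume) (U := ball y (s y) ∩ ball x (s x)) ?_
      (isOpen_ball.inter isOpen_ball) ((hq y hy').continuousOn.mono inter_subset_left)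
      ((hq x hx).continuousOn.mono inter_subset_right) ⟨mem_ball_self (hs y hy'), hy⟩
    filter_upwards [ae_mono (Measure.restrict_mono inter_subset_left le_rfl) (hae y hy'),
      ae_mono (Measure.restrict_mono inter_subset_right le_rfl) (hae x hx)] with z a1 a2
    exact a1.1.trans a2.1.symm
  have hev : ∀ x ∈ Ω \ K, ∀ z ∈ ball x (s x), (fun y => q y y) =ᶠ[𝓝 z] q x := fun x hx z hz =>
    eventually_of_mem (isOpen_ball.mem_nhds hz) (key x hx)
  refine ⟨fun y => q y y, fun x hx => ?_, ?_⟩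
  · have hx' := mem_ball_self (x := x) (hs x hx)
    exact (((hq x hx).contDiffAt (isOpen_ball.mem_nhds hx')).congr_of_eventuallyEq
      (hev x hx x hx')).contDiffWithinAt
  rw [ae_restrict_iff' hmin.adm.relClosed.measurableSet, ae_iff]
  refine measure_null_of_locally_null _ fun x hx => ?_
  have hx' : x ∈ Ω \ K := (Classical.not_imp.1 hx).1
  refine ⟨_, inter_mem_nhdsWithin _ (ball_mem_nhds x (hs x hx')), ?_⟩
  refine measure_mono_null (fun z hz => ?_)
    (ae_iff.1 ((ae_restrict_iff' measurableSet_ball).1 (hae x hx')))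
  intro h
  refine hz.1 fun _ => ?_
  exact ⟨(key x hx' z hz.2).trans (h hz.2).1,
    (EARN.gr_congr (hev x hx' z hz.2)).1.trans (h hz.2).2⟩

end Vale.Agent.P128.B0
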