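import Vale.Agent.P128.B0.Defs
import Vale.Agent.P128.B0.RegB

/-! P128 B0/Trans  (helper names end with _Trans)

Transfer to the complex plane along `T = Complex.orthonormalBasisOneI.repr : ℂ ≃ₗᵢ[ℝ] EuclideanSpace ℝ (Fin 2)` (`LinearIsometryEquiv.measurePreserving`, `MeasurePreserving.integral_comp`, `T.toHomeomorph`, `T.symm (bv 0) = 1`, `T.symm (bv 1) = I`).
`lap_T`: `P098.D2_apply`, `Fin.sum_univ_two`, `ContinuousLinearEquiv.comp_right_fderiv` (or the chain rule).  `weylc`: `weyl_loc`, `lap_T`, `EARN.holo_iff_lap`.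
-/

namespace Vale.Agent.P128.B0

open MeasureTheory Set Metric Filter Topology
open scoped ENNReal

noncomputable section

variable {u f : ℂ → ℝ} {O : Set ℂ}

/-- The identification of the plane with Euclidean space. -/
abbrev T_Trans : ℂ ≃ₗᵢ[ℝ] P098.E 2 := Complex.orthonormalBasisOneI.repr

theorem fd_Trans (φ : P098.E 2 → ℝ) (z v : ℂ) :
    fderiv ℝ (fun w => φ (T_Trans w)) z v = fderiv ℝ φ (T_Trans z) (T_Trans v) := by
  have := T_Trans.toContinuousLinearEquiv.comp_right_fderiv (f := φ) (x := z)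
  exact congrArg (fun l : ℂ →L[ℝ] ℝ => l v) this

theorem bv_Trans : T_Trans 1 = P098.bv 0 ∧ T_Trans Complex.I = P098.bv 1 := by
  have h0 := Complex.orthonormalBasisOneI.repr_self 0
  have h1 := Complex.orthonormalBasisOneI.repr_self 1
  rw [Complex.coe_orthonormalBasisOneI] at h0 h1
  exact ⟨h0, h1⟩

theorem loc_Trans (hu : LocallyIntegrable u) : LocallyIntegrable fun x => u (T_Trans.symm x) := by
  refine (locallyIntegrable_map_homeomorph T_Trans.symm.toHomeomorph).1 ?_
  have : Measure.map T_Trans.symm.toHomeomorph volume = volume :=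
    T_Trans.symm.measurePreserving.map_eq
  rwa [this]

theorem ae_Trans {w : P098.E 2 → ℝ} (h : w =ᵐ[volume] fun x => u (T_Trans.symm x)) :
    (fun z => w (T_Trans z)) =ᵐ[volume] u := by
  filter_upwards [T_Trans.measurePreserving.quasiMeasurePreserving.ae h] with z hz
  rw [hz, LinearIsometryEquiv.symm_apply_apply]

theorem maps_Trans : MapsTo T_Trans O (T_Trans.symm ⁻¹' O) := fun z hz => by
  rwa [mem_preimage, LinearIsometryEquiv.symm_apply_apply]

theorem lap_T {φ : P098.E 2 → ℝ} {z : ℂ} (h : ContDiffAt ℝ 2 φ (Complex.orthonormalBasisOneI.repr z)) :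
    EARN.lap (fun w => φ (Complex.orthonormalBasisOneI.repr w)) z =
      P098.lap φ (Complex.orthonormalBasisOneI.repr z) := by
  simp only [EARN.lap, P098.lap, P098.tr, Fin.sum_univ_two, P098.D2_apply h]
  have e := fun v => funext fun w => fd_Trans φ w v
  rw [e, e, fd_Trans fun y => fderiv ℝ φ y (T_Trans 1),
    fd_Trans fun y => fderiv ℝ φ y (T_Trans Complex.I), bv_Trans.1, bv_Trans.2]

theorem weq_T (hw : WEc O u f) : WEq (Complex.orthonormalBasisOneI.repr.symm ⁻¹' O)
    (fun x => u (Complex.orthonormalBasisOneI.repr.symm x))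
    fun x => f (Complex.orthonormalBasisOneI.repr.symm x) := by
  intro φ h1 h2 h3
  have h2i : (2 : WithTop ℕ∞) ≤ ((⊤ : ℕ∞) : WithTop ℕ∞) :=
    WithTop.coe_le_coe.2 (le_top : (2 : ℕ∞) ≤ ⊤)
  have h4 := hw (fun z => φ (T_Trans z)) (h1.comp T_Trans.contDiff)
    (h2.comp_homeomorph T_Trans.toHomeomorph) fun z hz => by
      have := h3 (tsupport_comp_subset_preimage φ T_Trans.continuous hz)
      rwa [mem_preimage, LinearIsometryEquiv.symm_apply_apply] at this
  have hm := T_Trans.toHomeomorph.measurableEmbedding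
  rw [← T_Trans.measurePreserving.integral_comp hm, ← T_Trans.measurePreserving.integral_comp hm]
  simp only [LinearIsometryEquiv.symm_apply_apply]
  rw [← h4]
  refine integral_congr_ae (Eventually.of_forall fun z => ?_)
  exact congrArg (· * u z) (lap_T (h1.of_le h2i).contDiffAt).symm

theorem regc_cont (hO : IsOpen O) (hu : LocallyIntegrable u)
    (hf : ∀ R : ℝ, MemLp f 2 (volume.restrict (ball 0 R))) (hw : WEc O u f) :
    ∃ w : ℂ → ℝ, ContinuousOn w O ∧ w =ᵐ[volume] u := by
  obtain ⟨w, h1, h2⟩ := reg_cont (hO.preimage T_Trans.symm.continuous) (loc_Trans hu) (fun R => by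
    have hp := T_Trans.symm.measurePreserving.restrict_preimage (s := ball 0 R) measurableSet_ball
    have e : T_Trans.symm ⁻¹' ball 0 R = ball 0 R := by
      ext x
      simp
    rw [e] at hp
    exact (hf R).comp_measurePreserving hp) (weq_T hw)
  exact ⟨fun z => w (T_Trans z), h1.comp T_Trans.continuous.continuousOn maps_Trans, ae_Trans h2⟩

theorem regc_c1 (hO : IsOpen O) (hu : LocallyIntegrable u) (hf : LocallyIntegrable f) (hw : WEc O u f)
    (hb : ∀ x ∈ O, ∃ δ C : ℝ, 0 < δ ∧ ∀ᵐ y, y ∈ ball x δ → |f y| ≤ C) :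
    ∃ w : ℂ → ℝ, ContDiffOn ℝ 1 w O ∧ w =ᵐ[volume] u := by
  obtain ⟨w, h1, h2⟩ := reg_c1 (hO.preimage T_Trans.symm.continuous) (loc_Trans hu) (loc_Trans hf)
    (weq_T hw) fun x hx => by
      obtain ⟨δ, C, h0, h⟩ := hb _ hx
      refine ⟨δ, C, h0, ?_⟩
      filter_upwards [T_Trans.symm.measurePreserving.quasiMeasurePreserving.ae h] with y hy hy'
      exact hy (by rwa [mem_ball, LinearIsometryEquiv.dist_map])
  exact ⟨fun z => w (T_Trans z), h1.comp T_Trans.contDiff.contDiffOn maps_Trans, ae_Trans h2⟩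

theorem weylc (hO : IsOpen O) (hu : ContinuousOn u O) (hw : WEc O u fun _ => 0) :
    DifferentiableOn ℂ (dz u) O := by
  have h2i : (2 : WithTop ℕ∞) ≤ ((⊤ : ℕ∞) : WithTop ℕ∞) :=
    WithTop.coe_le_coe.2 (le_top : (2 : ℕ∞) ≤ ⊤)
  have h := weyl_loc (hO.preimage T_Trans.symm.continuous)
    (hu.comp T_Trans.symm.continuous.continuousOn fun _ hx => hx) (weq_T hw)
  have e : u = fun z => (u ∘ T_Trans.symm) (T_Trans z) := by
    funext z
    simp
  have h1 : ∀ z ∈ O, ContDiffAt ℝ 2 (u ∘ T_Trans.symm) (T_Trans z) := fun z hz =>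
    (h _ (maps_Trans hz)).1.of_le h2i
  refine (EARN.holo_iff_lap hO fun z hz => ?_).2 fun z hz => ?_
  · rw [e]
    exact ((h1 z hz).comp z T_Trans.contDiff.contDiffAt).contDiffWithinAt
  · rw [e, lap_T (h1 z hz)]
    exact (h _ (maps_Trans hz)).2

end

end Vale.Agent.P128.B0
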