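import Vale.Agent.P128.B0.ELy
import Vale.Agent.P128.B0.Trans

/-! P128 B0/Rep  (helper names end with _Rep)

A representative that is `C¹` off `K`.  `weq_min`: `euler` with `ψ = φ`, `C = tsupport φ`, `wg_lap`; both integrands vanish off `Ω \ K` (`setIntegral_eq_integral_of_forall_compl_eq_zero`).
`exists_rep`: `regc_cont` for the indicators (`fid_mem` with `V = Ω ∩ ball 0 R`), then `f` is locally bounded on `Ω \ K`, `regc_c1`; `gr w = G` a.e. by `weakGrad_of_locLip` (`ContDiffOn` gives `LocallyLipschitzOn` via `locLip_iff`, `ContDiffAt.exists_lipschitzOnWith`), `wg_congr`, `wg_unique`.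
-/

namespace Vale.Agent.P128.B0

open MeasureTheory Set Metric Filter Topology
open scoped ENNReal

noncomputable section

variable {Ω K : Set ℂ} {g u w : ℂ → ℝ} {G H : ℂ → ℂ}

theorem locLip_of_c1 {U : Set ℂ} (hU : IsOpen U) (h : ContDiffOn ℝ 1 w U) : LocallyLipschitzOn U w := by
  exact (locLip_iff hU).2 fun z hz => (h.contDiffAt (hU.mem_nhds hz)).exists_lipschitzOnWith

theorem min_congr (hΩ : IsOpen Ω) (hmin : Minimizer Ω g u G K) (e1 : ∀ᵐ z ∂(volume.restrict Ω), w z = u z)
    (e2 : ∀ᵐ z ∂(volume.restrict (Ω \ K)), H z = G z) : Minimizer Ω g w H K := by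
  have a := hmin.adm
  refine ⟨⟨a.sub, a.relClosed, a.finite, a.memL2.ae_eq (EventuallyEq.symm e1),
    a.gradL2.ae_eq (EventuallyEq.symm e2),
    wg_congr a.weak (ae_restrict_of_ae_restrict_of_subset diff_subset e1) e2⟩,
    fun V hV hc hs w' H' L hL C hC hCV hd he => ?_⟩
  have sV : V ⊆ Ω := subset_closure.trans hs
  have e : energy g w H K V = energy g u G K V := by
    unfold energy
    congr 1
    · congr 1
      refine lintegral_congr_ae ?_
      filter_upwards [ae_restrict_of_ae_restrict_of_subset (diff_subset_diff_left sV) e2] with z hz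
      rw [hz]
    · refine lintegral_congr_ae ?_
      filter_upwards [ae_restrict_of_ae_restrict_of_subset sV e1] with z hz
      rw [hz]
  rw [e]
  refine hmin.min V hV hc hs w' H' L hL C hC hCV hd ?_
  filter_upwards [he, ae_restrict_of_ae_restrict_of_subset diff_subset e1] with z h1 h2
  rw [h1, h2]

theorem weq_min (hΩ : IsOpen Ω) (hg : MemLp g ∞ (volume.restrict Ω)) (hmin : Minimizer Ω g u G K) :
    WEc (Ω \ K) (Ω.indicator u) (Ω.indicator fun z => u z - g z) := by
  intro φ hφ hc hs
  have a := hmin.adm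
  have hO := a.relClosed
  have z0 : ∀ z, z ∉ tsupport φ → gr φ z = 0 ∧ EARN.lap φ z = 0 := fun z hz => by
    obtain ⟨h1, -, h2⟩ := EARN.gr_congr (notMem_tsupport_iff_eventuallyEq.1 hz)
    rw [h1, h2]
    constructor <;> simp [gr, EARN.lap]
  have cg : Continuous (gr φ) :=
    continuousOn_univ.1 (EARN.contDiffOn_gr isOpen_univ hφ.contDiffOn).1.continuousOn
  obtain ⟨-, -, e⟩ := euler hΩ hg hmin hc (hs.trans diff_subset)
    (fun z hz => image_eq_zero_of_notMem_tsupport hz)
    (locLip_of_c1 hO (hφ.of_le (by exact_mod_cast le_top)).contDiffOn)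
    (hφ.continuous.bounded_above_of_compact_support hc)
    ((EARN.dir_eq φ _).1.2 ((cg.memLp_of_hasCompactSupport
      (HasCompactSupport.intro hc fun z hz => (z0 z hz).1)).restrict _))
  have e2 := wg_lap hO a.weak (locInt_of_L2 hO (a.memL2.mono_measure
    (Measure.restrict_mono diff_subset le_rfl))) (locInt_of_L2 hO a.gradL2) hφ hc hs
  rw [e, neg_neg] at e2
  rw [← setIntegral_eq_integral_of_forall_compl_eq_zero (s := Ω \ K) fun z hz => by
      rw [(z0 z fun h => hz (hs h)).2, zero_mul],
    ← setIntegral_eq_integral_of_forall_compl_eq_zero (s := Ω \ K)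
      (f := fun z => φ z * Ω.indicator (fun z => u z - g z) z) fun z hz => by
      rw [image_eq_zero_of_notMem_tsupport fun h => hz (hs h), zero_mul],
    setIntegral_congr_fun hO.measurableSet (g := fun z => EARN.lap φ z * u z)
      fun z hz => by simp only [indicator_of_mem hz.1], e2]
  exact setIntegral_congr_fun hO.measurableSet fun z hz => by
    simp only [indicator_of_mem hz.1, mul_comm]

theorem exists_rep (hΩ : IsOpen Ω) (hg : MemLp g ∞ (volume.restrict Ω)) (hmin : Minimizer Ω g u G K) :
    ∃ w : ℂ → ℝ, ContDiffOn ℝ 1 w (Ω \ K) ∧ Minimizer Ω g w (gr w) K := by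
  have a := hmin.adm
  have hO := a.relClosed
  have hw := weq_min hΩ hg hmin
  have hU : LocallyIntegrable (Ω.indicator u) :=
    ((memLp_indicator_iff_restrict hΩ.measurableSet).2 a.memL2).locallyIntegrable (by norm_num)
  have hF : ∀ R : ℝ, MemLp (Ω.indicator fun z => u z - g z) 2 (volume.restrict (ball 0 R)) :=
    fun R => by
      rw [memLp_indicator_iff_restrict hΩ.measurableSet, Measure.restrict_restrict hΩ.measurableSet]
      exact fid_mem hg a.memL2 (hΩ.measurableSet.inter measurableSet_ball) inter_subset_left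
        ((measure_mono inter_subset_right).trans_lt measure_ball_lt_top)
  have hF' : LocallyIntegrable (Ω.indicator fun z => u z - g z) := fun x => by
    have hx : x ∈ ball (0 : ℂ) (‖x‖ + 1) := mem_ball_zero_iff.2 (lt_add_one _)
    have := locInt_of_L2 isOpen_ball (hF (‖x‖ + 1)) x hx
    rwa [isOpen_ball.nhdsWithin_eq hx] at this
  obtain ⟨w0, c0, e0⟩ := regc_cont hO hU hF hw
  have gb : ∀ᵐ y, y ∈ Ω → |g y| ≤ (eLpNormEssSup g (volume.restrict Ω)).toReal := by
    rw [← ae_restrict_iff' hΩ.measurableSet]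
    have hl : eLpNormEssSup g (volume.restrict Ω) ≠ ∞ := by
      rw [← eLpNorm_exponent_top]
      exact hg.eLpNorm_ne_top
    filter_upwards [ae_le_eLpNormEssSup (f := g) (μ := volume.restrict Ω)] with y hy
    have := ENNReal.toReal_mono hl hy
    rwa [toReal_enorm] at this
  obtain ⟨w, c1, e1⟩ := regc_c1 hO hU hF' hw fun x hx => by
    obtain ⟨δ, hδ, h⟩ := Metric.eventually_nhds_iff_ball.1
      (((c0.continuousAt (hO.mem_nhds hx)).abs.eventually (gt_mem_nhds (lt_add_one _))).and
        (hO.mem_nhds hx))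
    refine ⟨δ, |w0 x| + 1 + (eLpNormEssSup g (volume.restrict Ω)).toReal, hδ, ?_⟩
    filter_upwards [e0, gb] with y h1 h2 hy
    obtain ⟨h3, h4⟩ := h y hy
    have h5 : y ∈ Ω := h4.1
    rw [indicator_of_mem h5] at h1 ⊢
    rw [← h1]
    exact (abs_sub _ _).trans (add_le_add h3.le (h2 h5))
  have e2 : ∀ᵐ z ∂(volume.restrict Ω), w z = u z := by
    filter_upwards [ae_restrict_of_ae e1, ae_restrict_mem hΩ.measurableSet] with z h1 h2
    rw [h1, indicator_of_mem h2]
  have cf := c1.continuousOn_fderiv_of_isOpen hO le_rfl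
  have cg : ContinuousOn (gr w) (Ω \ K) :=
    (Complex.continuous_ofReal.comp_continuousOn (cf.clm_apply continuousOn_const)).add
      (continuousOn_const.mul
        (Complex.continuous_ofReal.comp_continuousOn (cf.clm_apply continuousOn_const)))
  exact ⟨w, c1, min_congr hΩ hmin e2 (wg_unique hO (weakGrad_of_locLip hO (locLip_of_c1 hO c1))
    (wg_congr a.weak (ae_restrict_of_ae_restrict_of_subset diff_subset e2)
      (Eventually.of_forall fun _ => rfl)) (cg.locallyIntegrableOn hO.measurableSet)
    (locInt_of_L2 hO a.gradL2))⟩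

end

end Vale.Agent.P128.B0
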