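import Vale.Agent.P128.B0.Cmp

/-! P128 B0/Trc  (helper names end with _Trc)

Truncated competitors.  `cmp_local` with `L' = (L ∩ B) ∪ (K \ B)`, `B = closedBall y t`, `W z = if z ∈ B then max (-M) (min M (w z + h z)) else u z`.  `Ω \ L' = (ball x r \ L) ∪ ((Ω \ K) \ B)`; on the open set `ball x r \ L`, `W = max (-M) (min M (w + h))`
(off `B` one has `w + h = u`, `|u| ≤ M`), on the other one `W = u`.  `‖fderiv W z‖ ≤ ‖fderiv (w + h) z‖` where `w + h` is differentiable (locally equal, or local extremum), `locLip_ae_diff`.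
`dir_add`: `‖p + q‖ ^ 2 ≤ (1 + l) ‖p‖ ^ 2 + (1 + 1 / l) ‖q‖ ^ 2`, `ofm_dir`, `lintegral_add_right`, `lintegral_const_mul'`.
-/

namespace Vale.Agent.P128.B0

open MeasureTheory Set Metric Filter Topology
open scoped ENNReal

noncomputable section

variable {Ω K L S : Set ℂ} {g u w h : ℂ → ℝ} {x y : ℂ} {r t M A l : ℝ}

theorem fderiv_le_Trc {f : ℂ → ℝ} {T : ℝ → ℝ} {z : ℂ} (hf : DifferentiableAt ℝ f z)
    (hT : LipschitzWith 1 T) : ‖fderiv ℝ (fun p => T (f p)) z‖ ≤ ‖fderiv ℝ f z‖ := by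
  refine le_of_forall_pos_le_add fun η hη => norm_fderiv_le_of_lip' ℝ (by positivity) ?_
  filter_upwards [hf.hasFDerivAt.isLittleO.def hη] with p hp
  have h1 := (fderiv ℝ f z).le_opNorm (p - z)
  have h2 := norm_sub_norm_le (f p - f z) (fderiv ℝ f z (p - z))
  have h3 := hT.dist_le_mul (f p) (f z)
  rw [NNReal.coe_one, one_mul, dist_eq_norm, dist_eq_norm] at h3
  linarith

theorem dir_add (hS : MeasurableSet S) (hl : 0 < l) (hw : ∀ᵐ z ∂(volume.restrict S), DifferentiableAt ℝ w z)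
    (hh : ∀ z ∈ S, DifferentiableAt ℝ h z ∧ ‖fderiv ℝ h z‖ ≤ A) :
    Dir (fun z => w z + h z) S ≤
      ENNReal.ofReal (1 + l) * Dir w S + ENNReal.ofReal ((1 + 1 / l) * A ^ 2) * volume S := by
  rw [ofm_dir, ofm_dir, ← lintegral_const_mul' _ _ ENNReal.ofReal_ne_top, ← setLIntegral_const,
    ← lintegral_add_right _ measurable_const]
  refine lintegral_mono_ae ?_
  filter_upwards [hw, ae_restrict_mem hS] with z h1 hz
  obtain ⟨h2, h3⟩ := hh z hz
  rw [← ENNReal.ofReal_mul (by positivity), ← ENNReal.ofReal_add (by positivity) (by positivity),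
    fderiv_fun_add h1 h2]
  refine ENNReal.ofReal_le_ofReal ?_
  have h4 : ‖fderiv ℝ w z + fderiv ℝ h z‖ ^ 2 ≤ (‖fderiv ℝ w z‖ + A) ^ 2 :=
    pow_le_pow_left₀ (norm_nonneg _) ((norm_add_le _ _).trans (by linarith)) 2
  have h5 : (1 + l) * ‖fderiv ℝ w z‖ ^ 2 + (1 + 1 / l) * A ^ 2 - (‖fderiv ℝ w z‖ + A) ^ 2 =
      (l * ‖fderiv ℝ w z‖ - A) ^ 2 / l := by
    field_simp
    ring
  have h6 : 0 ≤ (l * ‖fderiv ℝ w z‖ - A) ^ 2 / l := by positivity
  linarith

theorem cmp_trunc (hΩ : IsOpen Ω) (hg : MemLp g ∞ (volume.restrict Ω)) (hu : ContDiffOn ℝ 1 u (Ω \ K))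
    (hmin : Minimizer Ω g u (gr u) K) (hr : closedBall x r ⊆ Ω) (hM : ∀ z ∈ ball x r \ K, |u z| ≤ M)
    (hM0 : 0 ≤ M) (hgM : ∀ᵐ z ∂(volume.restrict Ω), |g z| ≤ M) (hh : ContDiffOn ℝ 1 h (ball x r))
    (ht : 0 < t) (hB : closedBall y t ⊆ ball x r)
    (hc : Comp (ball x r) False (fun z => u z - h z) (K ∩ closedBall x r) y t w L) :
    En u K (closedBall y t) ≤
      En (fun z => w z + h z) L (closedBall y t) + ENNReal.ofReal (13 * M ^ 2 * t ^ 2) := by
  classical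
  have hK : IsOpen (Ω \ K) := hmin.adm.relClosed
  have hbΩ : ball x r ⊆ Ω := ball_subset_closedBall.trans hr
  have hU : IsOpen (ball x r \ L) := isOpen_ball.sdiff hc.closed
  have hKL : ∀ z ∈ ball x r \ L, z ∉ closedBall y t → z ∉ K := fun z hz h1 h2 => by
    have h3 : z ∈ (K ∩ closedBall x r) \ closedBall y t :=
      ⟨⟨h2, ball_subset_closedBall hz.1⟩, h1⟩
    rw [← hc.eqL] at h3
    exact hz.2 h3.1
  have hT : LipschitzWith 1 fun s : ℝ => max (-M) (min M s) :=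
    (LipschitzWith.id.const_min M).const_max (-M)
  obtain ⟨W, hW⟩ : ∃ W : ℂ → ℝ, ∀ z,
      W z = if z ∈ closedBall y t then max (-M) (min M (w z + h z)) else u z := ⟨_, fun _ => rfl⟩
  have hW1 : ∀ z ∈ ball x r \ L, W =ᶠ[𝓝 z] fun p => max (-M) (min M (w p + h p)) := by
    intro z hz
    filter_upwards [hU.mem_nhds hz] with p hp
    rw [hW]
    split_ifs with h1
    · rfl
    · have h2 := hKL p hp h1
      have h3 := abs_le.1 (hM p ⟨hp.1, h2⟩)
      rw [hc.eqw p ⟨hp.1, fun h4 => h2 h4.1⟩ h1, sub_add_cancel, min_eq_right h3.2,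
        max_eq_right h3.1]
  have hwh : ∀ z ∈ ball x r \ L, LipAt (fun p => w p + h p) z := fun z hz =>
    ((locLip_iff hU).1 hc.lip z hz).add
      ((locLip_iff isOpen_ball).1 (locLip_of_c1 isOpen_ball hh) z hz.1)
  have e : Ω \ ((L ∩ closedBall y t) ∪ (K \ closedBall y t)) =
      (ball x r \ L) ∪ ((Ω \ K) \ closedBall y t) := by
    refine Subset.antisymm (fun z hz => ?_) (union_subset (fun z hz => ⟨hbΩ hz.1, ?_⟩)
      fun z hz => ⟨hz.1.1, ?_⟩)
    · by_cases h1 : z ∈ closedBall y t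
      · exact Or.inl ⟨hB h1, fun h2 => hz.2 (Or.inl ⟨h2, h1⟩)⟩
      · exact Or.inr ⟨⟨hz.1, fun h2 => hz.2 (Or.inr ⟨h2, h1⟩)⟩, h1⟩
    · rintro (h1 | h1)
      · exact hz.2 h1.1
      · exact hKL z hz h1.2 h1.1
    · rintro (h1 | h1)
      · exact hz.2 h1.2
      · exact hz.1.2 h1.1
  have hO : IsOpen (Ω \ ((L ∩ closedBall y t) ∪ (K \ closedBall y t))) := by
    rw [e]
    exact hU.union (hK.sdiff isClosed_closedBall)
  have key := cmp_local (W := W) (M := M) hΩ hg hmin ht (hB.trans hbΩ) hO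
    (union_subset (inter_subset_right.trans (hB.trans hbΩ)) (sdiff_subset.trans hmin.adm.sub))
    (Subset.antisymm (fun z hz => hz.1.resolve_left fun h1 => hz.2 h1.2)
      fun z hz => ⟨Or.inr hz, hz.2⟩)
    (fun z hz => by rw [hW, if_neg hz])
    ((locLip_iff hO).2 fun z hz => by
      rw [e] at hz
      rcases hz with hz | hz
      · obtain ⟨C, s, hs, hC⟩ := hwh z hz
        exact LipAt.congr ⟨_, s, hs, hT.comp_lipschitzOnWith hC⟩ (hW1 z hz)
      · refine ((locLip_iff hK).1 (locLip_of_c1 hK hu) z hz.1).congr ?_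
        filter_upwards [isClosed_closedBall.isOpen_compl.mem_nhds hz.2] with p hp
        rw [hW, if_neg hp])
    (fun z hz => by
      rw [hW, if_pos hz.1]
      exact abs_le.2 ⟨le_max_left _ _, max_le (by linarith) (min_le_left _ _)⟩) hgM
  refine key.trans (add_le_add ?_ le_rfl)
  have e1 : closedBall y t \ ((L ∩ closedBall y t) ∪ (K \ closedBall y t)) = closedBall y t \ L :=
    Subset.antisymm (fun z hz => ⟨hz.1, fun h1 => hz.2 (Or.inl ⟨h1, hz.1⟩)⟩)
      fun z hz => ⟨hz.1, fun h1 => h1.elim (fun h2 => hz.2 h2.1) fun h2 => h2.2 hz.1⟩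
  have e2 : ((L ∩ closedBall y t) ∪ (K \ closedBall y t)) ∩ closedBall y t = L ∩ closedBall y t :=
    Subset.antisymm (fun z hz => hz.1.resolve_right fun h1 => h1.2 hz.2)
      fun z hz => ⟨Or.inl hz, hz.2⟩
  unfold En
  rw [e1, e2, ofm_dir, ofm_dir]
  refine add_le_add (lintegral_mono_ae ?_) le_rfl
  have hsub : closedBall y t \ L ⊆ ball x r \ L := fun z hz => ⟨hB hz.1, hz.2⟩
  filter_upwards [ae_restrict_of_ae_restrict_of_subset hsub
    (locLip_ae_diff hU ((locLip_iff hU).2 hwh)),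
    ae_restrict_mem (measurableSet_closedBall.diff hc.closed.measurableSet)] with z h1 hz
  rw [(hW1 z (hsub hz)).fderiv_eq]
  exact ENNReal.ofReal_le_ofReal (pow_le_pow_left₀ (norm_nonneg _) (fderiv_le_Trc h1 hT) 2)

end

end Vale.Agent.P128.B0
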