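import Vale.Agent.P128.B0.Defs

/-! P128 B0/WG. Weak gradients. Plan: wg_of_lip: phi w extended by zero is Lipschitz on the plane
with compact support (locally Lipschitz on a neighbourhood of the compact tsupport phi), so the
integral of its derivative in direction e vanishes (LipschitzWith.integral_lineDeriv_mul_eq against a
bump equal to one, or integral of lineDeriv); product rule at points of differentiability
(locLip_ae_diff). wg_add: linearity with integrability from local integrability. wg_cx: real and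
imaginary parts, e = 1 and e = I. wg_curl: tests phi_y with e = 1 and phi_x with e = I, symmetric
second derivatives. -/

namespace Vale.Agent.P128.B0

open MeasureTheory Set Metric Filter Topology
open scoped ENNReal

theorem int_WG {E : Type} [NormedAddCommGroup E] [NormedSpace ℝ E] {U C : Set ℂ} (hU : IsOpen U)
    (hC : IsCompact C) (hCU : C ⊆ U) {f : ℂ → E} (hf : LocallyIntegrableOn f U) {a : ℂ → ℝ}
    (ha : Continuous a) (h0 : ∀ z, z ∉ C → a z = 0) : IntegrableOn (fun z => a z • f z) U :=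
  ((hf.integrableOn_compact_subset hCU hC).continuousOn_smul ha.continuousOn
    hC).of_forall_sdiff_eq_zero hU.measurableSet fun z hz => by rw [h0 z hz.2, zero_smul]

theorem cd_WG {φ : ℂ → ℝ} (hφ : ContDiff ℝ (⊤ : ℕ∞) φ) (e : ℂ) :
    ContDiff ℝ (⊤ : ℕ∞) fun z => fderiv ℝ φ z e :=
  (hφ.fderiv_right (m := (⊤ : ℕ∞)) (by exact_mod_cast le_top)).clm_apply contDiff_const

theorem int1_WG {U : Set ℂ} (hU : IsOpen U) {w φ : ℂ → ℝ} (i1 : LocallyIntegrableOn w U)
    (hφ : ContDiff ℝ (⊤ : ℕ∞) φ) (hc : HasCompactSupport φ) (hs : tsupport φ ⊆ U) (e : ℂ) :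
    IntegrableOn (fun z => w z * fderiv ℝ φ z e) U := by
  have := int_WG hU hc.isCompact hs i1 (cd_WG hφ e).continuous fun z hz => by
    rw [fderiv_of_notMem_tsupport ℝ hz]; simp
  simpa only [smul_eq_mul, mul_comm] using this

theorem int2_WG {U : Set ℂ} (hU : IsOpen U) {G : ℂ → ℂ} {φ : ℂ → ℝ} (i3 : LocallyIntegrableOn G U)
    (hφ : Continuous φ) (hc : HasCompactSupport φ) (hs : tsupport φ ⊆ U) (e : ℂ) :
    IntegrableOn (fun z => inner ℝ (G z) e * φ z) U := by
  have := (innerSL ℝ e).integrable_comp (int_WG hU hc.isCompact hs i3 hφ fun z hz =>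
    image_eq_zero_of_notMem_tsupport hz)
  refine this.congr (Eventually.of_forall fun z => ?_)
  simp only [innerSL_apply_apply, inner_smul_right, real_inner_comm, mul_comm]

theorem wg_of_lip {U : Set ℂ} (hU : IsOpen U) {w : ℂ → ℝ} (hw : LocallyLipschitzOn U w) :
    WeakGrad U w (gr w) := by
  intro φ hφ hc hs e
  obtain ⟨C, hC, h1, h2⟩ := exists_compact_between hc.isCompact hU hs
  obtain ⟨L, hL⟩ := (hw.mono h2).exists_lipschitzOnWith_of_compact hC
  obtain ⟨W, hW, hE⟩ := hL.extend_real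
  obtain ⟨D, hD⟩ := hφ.lipschitzWith_of_hasCompactSupport hc (by simp)
  have key := LipschitzWith.integral_lineDeriv_mul_eq (μ := volume) hW hD hc e
  have hd : Differentiable ℝ φ := hφ.differentiable (by simp)
  have e1 : ∫ z in U, w z * fderiv ℝ φ z e = -∫ z, lineDeriv ℝ φ z (-e) * W z := by
    rw [← integral_neg, setIntegral_eq_integral_of_forall_compl_eq_zero fun z hz => by
      rw [fderiv_of_notMem_tsupport ℝ fun h => hz (hs h)]; simp]
    refine integral_congr_ae (Eventually.of_forall fun z => ?_)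
    simp only [(hd z).lineDeriv_eq_fderiv, map_neg]
    by_cases hz : z ∈ tsupport φ
    · rw [hE (interior_subset (h1 hz))]; ring
    · rw [fderiv_of_notMem_tsupport ℝ hz]; simp
  have e2 : ∫ z in U, inner ℝ (gr w z) e * φ z = ∫ z, lineDeriv ℝ W z e * φ z := by
    rw [setIntegral_eq_integral_of_forall_compl_eq_zero fun z hz => by
      rw [image_eq_zero_of_notMem_tsupport fun h => hz (hs h), mul_zero]]
    refine integral_congr_ae ((hW.ae_differentiableAt (μ := volume)).mono fun z hz => ?_)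
    by_cases hz' : z ∈ tsupport φ
    · have : w =ᶠ[𝓝 z] W :=
        Filter.eventuallyEq_of_mem (mem_interior_iff_mem_nhds.1 (h1 hz')) hE
      simp only [hz.lineDeriv_eq_fderiv, ← EARN.fderiv_eq_inner, this.fderiv_eq]
    · simp only [image_eq_zero_of_notMem_tsupport hz', mul_zero]
  rw [e1, e2, key]

theorem wg_mono {U V : Set ℂ} (hU : IsOpen U) (hV : IsOpen V) (hVU : V ⊆ U) {w : ℂ → ℝ}
    {G : ℂ → ℂ} (h : WeakGrad U w G) : WeakGrad V w G := by
  intro φ hφ hc hs e
  have := h φ hφ hc (hs.trans hVU) e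
  rw [setIntegral_eq_of_subset_of_forall_sdiff_eq_zero hU.measurableSet hVU fun z hz => by
      rw [fderiv_of_notMem_tsupport ℝ fun h => hz.2 (hs h)]; simp,
    setIntegral_eq_of_subset_of_forall_sdiff_eq_zero hU.measurableSet hVU fun z hz => by
      rw [image_eq_zero_of_notMem_tsupport fun h => hz.2 (hs h), mul_zero]] at this
  exact this

theorem wg_congr {U : Set ℂ} {w w' : ℂ → ℝ} {G G' : ℂ → ℂ} (h : WeakGrad U w G)
    (h1 : ∀ᵐ z ∂(volume.restrict U), w' z = w z) (h2 : ∀ᵐ z ∂(volume.restrict U), G' z = G z) :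
    WeakGrad U w' G' := by
  intro φ hφ hc hs e
  rw [integral_congr_ae (h1.mono fun z hz => by simp only [hz] :
      (fun z => w' z * fderiv ℝ φ z e) =ᵐ[_] fun z => w z * fderiv ℝ φ z e),
    integral_congr_ae (h2.mono fun z hz => by simp only [hz] :
      (fun z => inner ℝ (G' z) e * φ z) =ᵐ[_] fun z => inner ℝ (G z) e * φ z)]
  exact h φ hφ hc hs e

theorem wg_add {U : Set ℂ} (hU : IsOpen U) {w w' : ℂ → ℝ} {G G' : ℂ → ℂ} (h : WeakGrad U w G)
    (h' : WeakGrad U w' G') (i1 : LocallyIntegrableOn w U) (i2 : LocallyIntegrableOn w' U)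
    (i3 : LocallyIntegrableOn G U) (i4 : LocallyIntegrableOn G' U) (t : ℝ) :
    WeakGrad U (fun z => w z + t * w' z) (fun z => G z + (t : ℂ) * G' z) := by
  intro φ hφ hc hs e
  have a1 : (fun z => (w z + t * w' z) * fderiv ℝ φ z e) =
      fun z => w z * fderiv ℝ φ z e + t * (w' z * fderiv ℝ φ z e) := by
    funext z; ring
  have a2 : (fun z => inner ℝ (G z + (t : ℂ) * G' z) e * φ z) =
      fun z => inner ℝ (G z) e * φ z + t * (inner ℝ (G' z) e * φ z) := by
    funext z
    rw [inner_add_left, ← Complex.real_smul, real_inner_smul_left]; ring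
  rw [a1, a2, integral_add (int1_WG hU i1 hφ hc hs e) ((int1_WG hU i2 hφ hc hs e).const_mul t),
    integral_add (int2_WG hU i3 hφ.continuous hc hs e)
      ((int2_WG hU i4 hφ.continuous hc hs e).const_mul t), integral_const_mul, integral_const_mul,
    h φ hφ hc hs e, h' φ hφ hc hs e]
  ring

theorem split_WG {μ : Measure ℂ} {a b : ℂ → ℝ} (ha : Integrable a μ) (hb : Integrable b μ) :
    ∫ z, ((a z : ℂ) + Complex.I * (b z : ℂ)) ∂μ =
      ((∫ z, a z ∂μ : ℝ) : ℂ) + Complex.I * ((∫ z, b z ∂μ : ℝ) : ℂ) := by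
  rw [integral_add ha.ofReal (hb.ofReal.const_mul _), integral_const_mul, integral_complex_ofReal,
    integral_complex_ofReal]

theorem wg_cx {U : Set ℂ} (hU : IsOpen U) {w : ℂ → ℝ} {G : ℂ → ℂ} (h : WeakGrad U w G)
    (i1 : LocallyIntegrableOn w U) (i3 : LocallyIntegrableOn G U) {φ : ℂ → ℝ}
    (hφ : ContDiff ℝ (⊤ : ℕ∞) φ) (hc : HasCompactSupport φ) (hs : tsupport φ ⊆ U) :
    ∫ z in U, (w z : ℂ) * gr φ z = -∫ z in U, (φ z : ℂ) * G z := by
  have a1 : (fun z => (w z : ℂ) * gr φ z) = fun z => ((w z * fderiv ℝ φ z 1 : ℝ) : ℂ) +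
      Complex.I * ((w z * fderiv ℝ φ z Complex.I : ℝ) : ℂ) := by
    funext z; simp only [gr]; push_cast; ring
  have a2 : (fun z => (φ z : ℂ) * G z) = fun z => ((inner ℝ (G z) 1 * φ z : ℝ) : ℂ) +
      Complex.I * ((inner ℝ (G z) Complex.I * φ z : ℝ) : ℂ) := by
    funext z
    apply Complex.ext <;> simp [Complex.inner] <;> ring
  rw [a1, a2, split_WG (int1_WG hU i1 hφ hc hs 1) (int1_WG hU i1 hφ hc hs _),
    split_WG (int2_WG hU i3 hφ.continuous hc hs 1) (int2_WG hU i3 hφ.continuous hc hs _),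
    h φ hφ hc hs 1, h φ hφ hc hs Complex.I]
  push_cast
  ring

theorem wg_curl {U : Set ℂ} (hU : IsOpen U) {w : ℂ → ℝ} {G : ℂ → ℂ} (h : WeakGrad U w G)
    (i3 : LocallyIntegrableOn G U) {φ : ℂ → ℝ}
    (hφ : ContDiff ℝ (⊤ : ℕ∞) φ) (hc : HasCompactSupport φ) (hs : tsupport φ ⊆ U) :
    ∫ z in U, (starRingEnd ℂ) (G z) * gr φ z =
      ((∫ z in U, inner ℝ (G z) (gr φ z) : ℝ) : ℂ) := by
  have I2 := fun v e => int2_WG hU i3 (cd_WG hφ v).continuous (hc.fderiv_apply ℝ v)
    ((tsupport_fderiv_apply_subset ℝ v).trans hs) e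
  have H := fun v e => h _ (cd_WG hφ v) (hc.fderiv_apply ℝ v)
    ((tsupport_fderiv_apply_subset ℝ v).trans hs) e
  have a1 : (fun z => (starRingEnd ℂ) (G z) * gr φ z) = fun z =>
      ((inner ℝ (G z) 1 * fderiv ℝ φ z 1 + inner ℝ (G z) Complex.I * fderiv ℝ φ z Complex.I : ℝ) : ℂ)
      + Complex.I * ((inner ℝ (G z) 1 * fderiv ℝ φ z Complex.I -
        inner ℝ (G z) Complex.I * fderiv ℝ φ z 1 : ℝ) : ℂ) := by
    funext z
    apply Complex.ext <;> simp [Complex.inner, gr] <;> ring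
  have a2 : (fun z => inner ℝ (G z) (gr φ z)) = fun z =>
      inner ℝ (G z) 1 * fderiv ℝ φ z 1 + inner ℝ (G z) Complex.I * fderiv ℝ φ z Complex.I := by
    funext z
    simp [Complex.inner, gr]; ring
  have a3 : (fun z => w z * fderiv ℝ (fun y => fderiv ℝ φ y Complex.I) z 1) =
      fun z => w z * fderiv ℝ (fun y => fderiv ℝ φ y 1) z Complex.I := by
    funext z
    rw [EARN.symm_Calc (hφ.contDiffAt.of_le (WithTop.coe_le_coe.2 (le_top : (2 : ℕ∞) ≤ ⊤)))]
  have h1 := H Complex.I 1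
  have h2 := H 1 Complex.I
  rw [a3, h2, neg_inj] at h1
  have j1 : IntegrableOn (fun z => inner ℝ (G z) 1 * fderiv ℝ φ z 1 +
      inner ℝ (G z) Complex.I * fderiv ℝ φ z Complex.I) U := (I2 1 1).add (I2 _ _)
  have j2 : IntegrableOn (fun z => inner ℝ (G z) 1 * fderiv ℝ φ z Complex.I -
      inner ℝ (G z) Complex.I * fderiv ℝ φ z 1) U := (I2 _ 1).sub (I2 1 _)
  rw [a1, a2, split_WG j1 j2, integral_sub (I2 _ 1) (I2 1 _), h1]
  simp

end Vale.Agent.P128.B0
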