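import Vale.Agent.P128.B0.Defs

/-! P128 B0/Weak  (helper names end with _Weak)

Weak gradients.  `weakGrad_of_locLip`: `w φ` is locally Lipschitz everywhere with compact support, hence Lipschitz (`LocallyLipschitzOn.exists_lipschitzOnWith_of_compact` on a large ball, compare P098/K/Lip `lip_of_loc` and K/Ibp `ibp0`, `ibp_mul`);
`LipschitzWith.integral_lineDeriv_mul_eq` with the constant one; product rule a.e. on `U` (`locLip_ae_diff`), `fderiv w` is bounded on `tsupport φ`; `EARN.fderiv_eq_inner`.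
`wg_unique`: `IsOpen.ae_eq_zero_of_integral_contDiff_smul_eq_zero` for `inner (G - G') e`, `e = 1, I`.  `wg_lap`: test with `fderiv φ · 1` and `fderiv φ · I`.
-/

namespace Vale.Agent.P128.B0

open MeasureTheory Set Metric Filter Topology
open scoped ENNReal

noncomputable section

variable {U : Set ℂ} {u w φ : ℂ → ℝ} {G G' H : ℂ → ℂ}

theorem fd0_Weak {z : ℂ} (hz : z ∉ tsupport φ) (e : ℂ) : fderiv ℝ φ z e = 0 := by
  rw [Function.notMem_support.1 fun h => hz (support_fderiv_subset ℝ h)]
  rfl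

theorem int_Weak {a b : ℂ → ℝ} {C : Set ℂ} (hC : IsCompact C) (hs : C ⊆ U)
    (ha : LocallyIntegrableOn a U) (hb : Continuous b) (h0 : ∀ z, z ∉ C → b z = 0) :
    Integrable fun z => a z * b z := by
  refine (integrableOn_iff_integrable_of_support_subset (s := C) fun z hz => ?_).1
    ((ha.integrableOn_compact_subset hs hC).mul_continuousOn hb.continuousOn hC)
  by_contra h
  exact hz (by simp [h0 z h])

theorem inn_Weak (hG : LocallyIntegrableOn G U) (e : ℂ) :
    LocallyIntegrableOn (fun z => inner ℝ (G z) e) U := by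
  have h := (innerSL ℝ e).locallyIntegrableOn_comp hG
  have h1 : (fun z => inner ℝ (G z) e) = innerSL ℝ e ∘ G := funext fun z => real_inner_comm _ _
  rwa [h1]

theorem intA_Weak (hu : LocallyIntegrableOn u U) (hφ : ContDiff ℝ (⊤ : ℕ∞) φ)
    (hc : HasCompactSupport φ) (hs : tsupport φ ⊆ U) (e : ℂ) :
    Integrable (fun z => u z * fderiv ℝ φ z e) (volume.restrict U) :=
  (int_Weak hc hs hu ((hφ.continuous_fderiv (by simp)).clm_apply continuous_const)
    fun _ hz => fd0_Weak hz e).integrableOn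

theorem intB_Weak (hG : LocallyIntegrableOn G U) (hφ : ContDiff ℝ (⊤ : ℕ∞) φ)
    (hc : HasCompactSupport φ) (hs : tsupport φ ⊆ U) (e : ℂ) :
    Integrable (fun z => inner ℝ (G z) e * φ z) (volume.restrict U) :=
  (int_Weak hc hs (inn_Weak hG e) hφ.continuous
    fun _ hz => image_eq_zero_of_notMem_tsupport hz).integrableOn

theorem pd_Weak (hφ : ContDiff ℝ (⊤ : ℕ∞) φ) (hc : HasCompactSupport φ) (hs : tsupport φ ⊆ U)
    (e : ℂ) : ContDiff ℝ (⊤ : ℕ∞) (fun z => fderiv ℝ φ z e) ∧
      HasCompactSupport (fun z => fderiv ℝ φ z e) ∧ tsupport (fun z => fderiv ℝ φ z e) ⊆ U := by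
  have h1 : tsupport (fun z => fderiv ℝ φ z e) ⊆ tsupport φ :=
    closure_minimal (fun z hz => by
      by_contra h
      exact hz (fd0_Weak h e)) (isClosed_tsupport φ)
  exact ⟨(hφ.fderiv_right (m := (⊤ : ℕ∞)) (by simp)).clm_apply contDiff_const,
    IsCompact.of_isClosed_subset hc (isClosed_tsupport _) h1, h1.trans hs⟩

theorem weakGrad_of_locLip (hU : IsOpen U) (hw : LocallyLipschitzOn U w) : WeakGrad U w (gr w) := by
  intro φ hφ hc hs e
  obtain ⟨δ, hδ, h1⟩ := IsCompact.exists_cthickening_subset_open hc hU hs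
  obtain ⟨L, hL⟩ := (hw.mono h1).exists_lipschitzOnWith_of_compact (IsCompact.cthickening hc)
  obtain ⟨W, hW, h2⟩ := hL.extend_real
  obtain ⟨M, hM⟩ := hφ.lipschitzWith_of_hasCompactSupport hc (by simp)
  have h3 : ∀ z ∈ tsupport φ, w =ᶠ[𝓝 z] W := fun z hz => by
    filter_upwards [isOpen_thickening.mem_nhds (self_subset_thickening hδ _ hz)] with y hy
    exact h2 (thickening_subset_cthickening _ _ hy)
  have h4 := hW.integral_lineDeriv_mul_eq (μ := volume) hM hc e
  have h5 : ∫ z in U, w z * fderiv ℝ φ z e = -∫ z, lineDeriv ℝ φ z (-e) * W z := by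
    rw [setIntegral_eq_integral_of_forall_compl_eq_zero fun z hz => by
      rw [fd0_Weak (fun h => hz (hs h)), mul_zero], ← integral_neg]
    refine integral_congr_ae (Eventually.of_forall fun z => ?_)
    simp only
    rw [(hφ.differentiable (by simp) z).lineDeriv_eq_fderiv, map_neg]
    by_cases hz : z ∈ tsupport φ
    · rw [(h3 z hz).eq_of_nhds]
      ring
    · rw [fd0_Weak hz]
      ring
  rw [h5, ← h4, setIntegral_eq_integral_of_forall_compl_eq_zero fun z hz => by
    rw [image_eq_zero_of_notMem_tsupport (fun h => hz (hs h)), mul_zero]]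
  congr 1
  refine integral_congr_ae ?_
  filter_upwards [hW.ae_differentiableAt (μ := volume)] with z hz
  rw [hz.lineDeriv_eq_fderiv, ← EARN.fderiv_eq_inner]
  by_cases h : z ∈ tsupport φ
  · rw [(h3 z h).fderiv_eq]
  · rw [image_eq_zero_of_notMem_tsupport h, mul_zero, mul_zero]
theorem wg_unique (hU : IsOpen U) (h : WeakGrad U u G) (h' : WeakGrad U u G')
    (hG : LocallyIntegrableOn G U) (hG' : LocallyIntegrableOn G' U) :
    ∀ᵐ z ∂(volume.restrict U), G z = G' z := by
  have key : ∀ e : ℂ, ∀ᵐ z, z ∈ U → inner ℝ (G z) e - inner ℝ (G' z) e = 0 := fun e => by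
    refine hU.ae_eq_zero_of_integral_contDiff_smul_eq_zero ((inn_Weak hG e).sub (inn_Weak hG' e))
      fun g hg hc hs => ?_
    have h1 := neg_injective ((h g hg hc hs e).symm.trans (h' g hg hc hs e))
    rw [← sub_eq_zero, ← integral_sub (intB_Weak hG hg hc hs e) (intB_Weak hG' hg hc hs e),
      setIntegral_eq_integral_of_forall_compl_eq_zero fun z hz => by
        rw [image_eq_zero_of_notMem_tsupport (fun h => hz (hs h)), mul_zero, mul_zero,
          sub_zero]] at h1
    rw [← h1]
    refine integral_congr_ae (Eventually.of_forall fun z => ?_)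
    simp only [smul_eq_mul, Pi.sub_apply]
    ring
  rw [ae_restrict_iff' hU.measurableSet]
  filter_upwards [key 1, key Complex.I] with z h1 h2 hz
  have h3 := h1 hz
  have h4 := h2 hz
  simp only [Complex.inner, one_mul, Complex.conj_re, Complex.I_mul_re, Complex.conj_im,
    neg_neg] at h3 h4
  exact Complex.ext (sub_eq_zero.1 h3) (sub_eq_zero.1 h4)
theorem wg_congr (h : WeakGrad U u G) (e1 : ∀ᵐ z ∂(volume.restrict U), w z = u z)
    (e2 : ∀ᵐ z ∂(volume.restrict U), H z = G z) : WeakGrad U w H := by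
  intro φ hφ hc hs e
  have h1 : ∫ z in U, w z * fderiv ℝ φ z e = ∫ z in U, u z * fderiv ℝ φ z e :=
    integral_congr_ae (e1.mono fun z hz => by simp only [hz])
  have h2 : ∫ z in U, inner ℝ (H z) e * φ z = ∫ z in U, inner ℝ (G z) e * φ z :=
    integral_congr_ae (e2.mono fun z hz => by simp only [hz])
  rw [h1, h2, h φ hφ hc hs e]
theorem wg_add (hU : IsOpen U) (h : WeakGrad U u G) (h' : WeakGrad U w H) (hu : LocallyIntegrableOn u U)
    (hw : LocallyIntegrableOn w U) (hG : LocallyIntegrableOn G U) (hH : LocallyIntegrableOn H U) (t : ℝ) :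
    WeakGrad U (fun z => u z + t * w z) fun z => G z + t • H z := by
  intro φ hφ hc hs e
  simp only [add_mul, inner_add_left, real_inner_smul_left, mul_assoc]
  rw [integral_add (intA_Weak hu hφ hc hs e) ((intA_Weak hw hφ hc hs e).const_mul t),
    integral_add (intB_Weak hG hφ hc hs e) ((intB_Weak hH hφ hc hs e).const_mul t),
    integral_const_mul, integral_const_mul, h φ hφ hc hs e, h' φ hφ hc hs e]
  ring
theorem wg_lap (hU : IsOpen U) (h : WeakGrad U u G) (hu : LocallyIntegrableOn u U)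
    (hG : LocallyIntegrableOn G U) (hφ : ContDiff ℝ (⊤ : ℕ∞) φ) (hc : HasCompactSupport φ)
    (hs : tsupport φ ⊆ U) :
    ∫ z in U, EARN.lap φ z * u z = -∫ z in U, inner ℝ (G z) (gr φ z) := by
  obtain ⟨a1, a2, a3⟩ := pd_Weak hφ hc hs 1
  obtain ⟨b1, b2, b3⟩ := pd_Weak hφ hc hs Complex.I
  have h1 : ∀ z, inner ℝ (G z) (gr φ z) =
      inner ℝ (G z) (1 : ℂ) * fderiv ℝ φ z 1 + inner ℝ (G z) Complex.I * fderiv ℝ φ z Complex.I := by
    intro z
    simp [Complex.inner, gr]
    ring
  have h2 : ∀ z, EARN.lap φ z * u z = u z * fderiv ℝ (fun w => fderiv ℝ φ w 1) z 1 +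
      u z * fderiv ℝ (fun w => fderiv ℝ φ w Complex.I) z Complex.I := fun z => by
    rw [EARN.lap]
    ring
  simp only [h1, h2]
  rw [integral_add (intA_Weak hu a1 a2 a3 1) (intA_Weak hu b1 b2 b3 _),
    integral_add (intB_Weak hG a1 a2 a3 1) (intB_Weak hG b1 b2 b3 _), h _ a1 a2 a3, h _ b1 b2 b3]
  ring
theorem locInt_of_L2 {F : Type} [NormedAddCommGroup F] {f : ℂ → F} (hU : IsOpen U)
    (h : MemLp f 2 (volume.restrict U)) : LocallyIntegrableOn f U := by
  exact locallyIntegrableOn_of_locallyIntegrable_restrict (h.locallyIntegrable one_le_two)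

end

end Vale.Agent.P128.B0
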